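import Vale.Agent.P159.H37.Spec0L

/-!
P159 / module NEUT (helper692).

A symmetric kernel `M` with row sums zero (neutral) which is small on pairs of bumps of scale `L`
is a small multiple of the Dirichlet form.

* `qf_neu`, `abs_qf_neu_le` : abstract partition of unity, exact identity and bound;
* `shift_le`, `poin`, `dirE_av` : shifts, Poincare inequality in cells and Dirichlet form of the
  cell averages, on the torus;
* `neut` : the final statement (three scales `l ∣ L ∣ N`).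
-/

namespace Vale.Agent.P159.H692

open Finset Matrix
open Vale.Agent.P159.H37 (qf bf qf_eq bf_eq bf_self bf_comm bf_add_left bf_add_right bf_smul_left
  bf_smul_right qf_smul qf_neg qf_add_vec qf_sub_vec)
open Vale.Agent.P159.TM.H859 (tn dirE)

section abstract

variable {V : Type*} [Fintype V] {W : Type*} [Fintype W]

/-- symmetric kernel with row sums zero -/
structure Neu (M : Matrix V V ℝ) : Prop where
  sym : Mᵀ = M
  row : ∀ x, ∑ y, M x y = 0

lemma Neu.smul {M : Matrix V V ℝ} (hM : Neu M) (c : ℝ) : Neu (c • M) := by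
  refine ⟨by rw [transpose_smul, hM.sym], fun x => ?_⟩
  simp only [Matrix.smul_apply, smul_eq_mul, ← Finset.mul_sum, hM.row, mul_zero]

lemma Neu.add {M M' : Matrix V V ℝ} (hM : Neu M) (hM' : Neu M') : Neu (M + M') := by
  refine ⟨by rw [transpose_add, hM.sym, hM'.sym], fun x => ?_⟩
  simp only [Matrix.add_apply, Finset.sum_add_distrib, hM.row, hM'.row, add_zero]

lemma Neu.sub {M M' : Matrix V V ℝ} (hM : Neu M) (hM' : Neu M') : Neu (M - M') := by
  refine ⟨by rw [transpose_sub, hM.sym, hM'.sym], fun x => ?_⟩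
  simp only [Matrix.sub_apply, Finset.sum_sub_distrib, hM.row, hM'.row, sub_zero]

lemma Neu.bf_const {M : Matrix V V ℝ} (hM : Neu M) (u : V → ℝ) (c : ℝ) :
    bf M u (fun _ => c) = 0 := by
  unfold bf
  refine Finset.sum_eq_zero fun x _ => ?_
  have : ∑ y, u x * M x y * c = u x * (∑ y, M x y) * c := by
    rw [Finset.mul_sum, Finset.sum_mul]
  rw [this, hM.row]; ring

lemma Neu.const_bf {M : Matrix V V ℝ} (hM : Neu M) (u : V → ℝ) (c : ℝ) :
    bf M (fun _ => c) u = 0 := by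
  rw [bf_comm hM.sym, hM.bf_const]

/-- a neutral form does not see constants -/
lemma Neu.qf_sub_const {M : Matrix V V ℝ} (hM : Neu M) (u : V → ℝ) (c : ℝ) :
    qf M (fun x => u x - c) = qf M u := by
  have e : (fun x => u x - c) = u + fun _ => -c := by
    funext x
    simp [sub_eq_add_neg]
  rw [e, qf_add_vec hM.sym, hM.bf_const, ← bf_self M (fun _ : V => -c), hM.bf_const]
  ring

lemma bf_sum_left (M : Matrix V V ℝ) (f : W → V → ℝ) (v : V → ℝ) :
    bf M (fun x => ∑ w, f w x) v = ∑ w, bf M (f w) v := by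
  have e : (fun x => ∑ w, f w x) = ∑ w, f w := by
    funext x
    rw [Finset.sum_apply]
  rw [e, bf_eq, sum_dotProduct]
  exact Finset.sum_congr rfl fun w _ => (bf_eq _ _ _).symm

lemma bf_sum_right (M : Matrix V V ℝ) (u : V → ℝ) (f : W → V → ℝ) :
    bf M u (fun x => ∑ w, f w x) = ∑ w, bf M u (f w) := by
  have e : (fun x => ∑ w, f w x) = ∑ w, f w := by
    funext x
    rw [Finset.sum_apply]
  rw [e, bf_eq, mulVec_sum, dotProduct_sum]
  exact Finset.sum_congr rfl fun w _ => (bf_eq _ _ _).symm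

/-- **partition of unity, exact identity** for `u = ∑_w (a_w χ_w + r_w)` -/
theorem qf_neu {M : Matrix V V ℝ} (hM : Neu M) (χ : W → V → ℝ) (hχ : ∀ x, ∑ w, χ w x = 1)
    (a : W → ℝ) (r : W → V → ℝ) :
    qf M (fun x => ∑ w, (a w * χ w x + r w x))
      = -(1 / 2) * ∑ w, ∑ w', bf M (χ w) (χ w') * (a w - a w') ^ 2
        + 2 * ∑ w, ∑ w', (a w - a w') * bf M (χ w) (r w')
        + ∑ w, ∑ w', bf M (r w) (r w') := by
  have hcol : ∀ v : V → ℝ, ∑ w, bf M (χ w) v = 0 := by
    intro v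
    rw [← bf_sum_left]
    have : (fun x => ∑ w, χ w x) = fun _ : V => (1 : ℝ) := funext hχ
    rw [this, hM.const_bf]
  have hrow : ∀ v : V → ℝ, ∑ w, bf M v (χ w) = 0 := by
    intro v
    rw [← hcol v]
    exact Finset.sum_congr rfl fun w _ => bf_comm hM.sym _ _
  set A : V → ℝ := fun x => ∑ w, a w * χ w x with hA
  set R : V → ℝ := fun x => ∑ w, r w x with hR
  have e : (fun x => ∑ w, (a w * χ w x + r w x)) = A + R := by
    funext x
    simp only [hA, hR, Pi.add_apply, Finset.sum_add_distrib]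
  have hAl : ∀ v : V → ℝ, bf M A v = ∑ w, a w * bf M (χ w) v := by
    intro v
    rw [hA, bf_sum_left (W := W) M (fun w x => a w * χ w x)]
    refine Finset.sum_congr rfl fun w _ => ?_
    exact bf_smul_left M (a w) (χ w) v
  have hAr : ∀ v : V → ℝ, bf M v A = ∑ w, a w * bf M v (χ w) := by
    intro v
    rw [hA, bf_sum_right (W := W) M v (fun w x => a w * χ w x)]
    refine Finset.sum_congr rfl fun w _ => ?_
    exact bf_smul_right M (a w) v (χ w)
  rw [e, qf_add_vec hM.sym]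
  have h1 : qf M A = -(1 / 2) * ∑ w, ∑ w', bf M (χ w) (χ w') * (a w - a w') ^ 2 := by
    rw [← bf_self, hAl]
    have h2 : ∀ w, a w * bf M (χ w) A = ∑ w', a w * a w' * bf M (χ w) (χ w') := by
      intro w
      rw [hAr, Finset.mul_sum]
      exact Finset.sum_congr rfl fun w' _ => by ring
    simp only [h2]
    have h3 : ∑ w, ∑ w', bf M (χ w) (χ w') * (a w - a w') ^ 2
        = ∑ w, a w ^ 2 * ∑ w', bf M (χ w) (χ w')
          + ∑ w', a w' ^ 2 * ∑ w, bf M (χ w) (χ w')
          - 2 * ∑ w, ∑ w', a w * a w' * bf M (χ w) (χ w') := by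
      have h4 : ∑ w', a w' ^ 2 * ∑ w, bf M (χ w) (χ w')
          = ∑ w, ∑ w', a w' ^ 2 * bf M (χ w) (χ w') := by
        rw [Finset.sum_comm]
        exact Finset.sum_congr rfl fun w' _ => by rw [Finset.mul_sum]
      rw [h4, Finset.mul_sum, ← Finset.sum_add_distrib, ← Finset.sum_sub_distrib]
      refine Finset.sum_congr rfl fun w _ => ?_
      rw [Finset.mul_sum, Finset.mul_sum, ← Finset.sum_add_distrib, ← Finset.sum_sub_distrib]
      exact Finset.sum_congr rfl fun w' _ => by ring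
    rw [h3]
    simp only [hcol, hrow, mul_zero, Finset.sum_const_zero]
    ring
  have h5 : bf M A R = ∑ w, ∑ w', (a w - a w') * bf M (χ w) (r w') := by
    rw [hAl]
    have h6 : ∀ w, bf M (χ w) R = ∑ w', bf M (χ w) (r w') := fun w => bf_sum_right M _ _
    have h7 : ∑ w, ∑ w', a w' * bf M (χ w) (r w') = 0 := by
      rw [Finset.sum_comm]
      refine Finset.sum_eq_zero fun w' _ => ?_
      rw [← Finset.mul_sum, hcol, mul_zero]
    have h8 : ∑ w, ∑ w', (a w - a w') * bf M (χ w) (r w')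
        = ∑ w, ∑ w', a w * bf M (χ w) (r w') - ∑ w, ∑ w', a w' * bf M (χ w) (r w') := by
      rw [← Finset.sum_sub_distrib]
      refine Finset.sum_congr rfl fun w _ => ?_
      rw [← Finset.sum_sub_distrib]
      exact Finset.sum_congr rfl fun w' _ => by ring
    rw [h8, h7, sub_zero]
    refine Finset.sum_congr rfl fun w _ => ?_
    rw [h6, Finset.mul_sum]
  have h9 : qf M R = ∑ w, ∑ w', bf M (r w) (r w') := by
    rw [← bf_self, hR, bf_sum_left]
    exact Finset.sum_congr rfl fun w _ => bf_sum_right M _ _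
  rw [h1, h5, h9]

/-- the case without remainders -/
theorem qf_neu0 {M : Matrix V V ℝ} (hM : Neu M) (χ : W → V → ℝ) (hχ : ∀ x, ∑ w, χ w x = 1)
    (a : W → ℝ) :
    qf M (fun x => ∑ w, a w * χ w x)
      = -(1 / 2) * ∑ w, ∑ w', bf M (χ w) (χ w') * (a w - a w') ^ 2 := by
  have h := qf_neu hM χ hχ a (fun _ _ => 0)
  have z : ∀ v : V → ℝ, bf M v (fun _ => 0) = 0 := fun v => hM.bf_const v 0
  simp only [add_zero] at h
  rw [h]
  simp only [z, mul_zero, Finset.sum_const_zero, add_zero]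

/-- **the bound** : values at most `δ(w,w') ρ_w ρ_w'` -/
theorem abs_qf_neu_le {M : Matrix V V ℝ} (hM : Neu M) (χ : W → V → ℝ) (hχ : ∀ x, ∑ w, χ w x = 1)
    (a : W → ℝ) (r : W → V → ℝ) (ρ : W → ℝ) (δ : W → W → ℝ) (hδ : ∀ w w', 0 ≤ δ w w')
    (h1 : ∀ w w', |bf M (χ w) (χ w')| ≤ δ w w')
    (h2 : ∀ w w', |bf M (χ w) (r w')| ≤ δ w w' * ρ w')
    (h3 : ∀ w w', |bf M (r w) (r w')| ≤ δ w w' * (ρ w * ρ w')) :
    |qf M (fun x => ∑ w, (a w * χ w x + r w x))|
      ≤ ∑ w, ∑ w', δ w w' * (3 / 2 * (a w - a w') ^ 2 + 1 / 2 * ρ w ^ 2 + 3 / 2 * ρ w' ^ 2) := by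
  rw [qf_neu hM χ hχ a r]
  have e : -(1 / 2) * ∑ w, ∑ w', bf M (χ w) (χ w') * (a w - a w') ^ 2
        + 2 * ∑ w, ∑ w', (a w - a w') * bf M (χ w) (r w')
        + ∑ w, ∑ w', bf M (r w) (r w')
      = ∑ w, ∑ w', (-(1 / 2) * (bf M (χ w) (χ w') * (a w - a w') ^ 2)
        + 2 * ((a w - a w') * bf M (χ w) (r w')) + bf M (r w) (r w')) := by
    simp only [Finset.sum_add_distrib, Finset.mul_sum]
  rw [e]
  refine (Finset.abs_sum_le_sum_abs _ _).trans (Finset.sum_le_sum fun w _ => ?_)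
  refine (Finset.abs_sum_le_sum_abs _ _).trans (Finset.sum_le_sum fun w' _ => ?_)
  have g1 := abs_le.1 (h1 w w')
  have g2 := h2 w w'
  have g3 := abs_le.1 (h3 w w')
  have d0 := hδ w w'
  have k1 : |bf M (χ w) (χ w') * (a w - a w') ^ 2| ≤ δ w w' * (a w - a w') ^ 2 := by
    rw [abs_mul, abs_of_nonneg (sq_nonneg (a w - a w'))]
    exact mul_le_mul_of_nonneg_right (h1 w w') (sq_nonneg _)
  have k2 : |2 * ((a w - a w') * bf M (χ w) (r w'))|
      ≤ δ w w' * ((a w - a w') ^ 2 + ρ w' ^ 2) := by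
    rw [abs_mul, abs_mul, abs_of_pos (by norm_num : (0 : ℝ) < 2)]
    have m1 : |a w - a w'| * |bf M (χ w) (r w')| ≤ |a w - a w'| * (δ w w' * ρ w') :=
      mul_le_mul_of_nonneg_left g2 (abs_nonneg _)
    have m2 : 2 * (|a w - a w'| * ρ w') ≤ (a w - a w') ^ 2 + ρ w' ^ 2 := by
      have := sq_nonneg (|a w - a w'| - ρ w')
      have h := sq_abs (a w - a w')
      nlinarith
    calc 2 * (|a w - a w'| * |bf M (χ w) (r w')|) ≤ 2 * (|a w - a w'| * (δ w w' * ρ w')) := by
          linarith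
      _ = δ w w' * (2 * (|a w - a w'| * ρ w')) := by ring
      _ ≤ _ := mul_le_mul_of_nonneg_left m2 d0
  have k3 : |bf M (r w) (r w')| ≤ δ w w' * (1 / 2 * ρ w ^ 2 + 1 / 2 * ρ w' ^ 2) := by
    refine (h3 w w').trans (mul_le_mul_of_nonneg_left ?_ d0)
    nlinarith [sq_nonneg (ρ w - ρ w')]
  have t1 := abs_add_le (-(1 / 2) * (bf M (χ w) (χ w') * (a w - a w') ^ 2)
        + 2 * ((a w - a w') * bf M (χ w) (r w'))) (bf M (r w) (r w'))
  have t2 := abs_add_le (-(1 / 2) * (bf M (χ w) (χ w') * (a w - a w') ^ 2))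
        (2 * ((a w - a w') * bf M (χ w) (r w')))
  have t3 : |-(1 / 2) * (bf M (χ w) (χ w') * (a w - a w') ^ 2)|
      = 1 / 2 * |bf M (χ w) (χ w') * (a w - a w') ^ 2| := by
    rw [abs_mul]
    norm_num
  rw [t3] at t2
  have : δ w w' * (3 / 2 * (a w - a w') ^ 2 + 1 / 2 * ρ w ^ 2 + 3 / 2 * ρ w' ^ 2)
      = 1 / 2 * (δ w w' * (a w - a w') ^ 2) + δ w w' * ((a w - a w') ^ 2 + ρ w' ^ 2)
        + δ w w' * (1 / 2 * ρ w ^ 2 + 1 / 2 * ρ w' ^ 2) := by ring
  rw [this]
  linarith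

/-- the same without remainders -/
theorem abs_qf_neu0_le {M : Matrix V V ℝ} (hM : Neu M) (χ : W → V → ℝ)
    (hχ : ∀ x, ∑ w, χ w x = 1) (a : W → ℝ) :
    |qf M (fun x => ∑ w, a w * χ w x)|
      ≤ 1 / 2 * ∑ w, ∑ w', |bf M (χ w) (χ w')| * (a w - a w') ^ 2 := by
  rw [qf_neu0 hM χ hχ a, abs_mul]
  have : |(-(1 / 2) : ℝ)| = 1 / 2 := by norm_num
  rw [this]
  refine mul_le_mul_of_nonneg_left ?_ (by norm_num)
  refine (Finset.abs_sum_le_sum_abs _ _).trans (Finset.sum_le_sum fun w _ => ?_)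
  refine (Finset.abs_sum_le_sum_abs _ _).trans (Finset.sum_le_sum fun w' _ => ?_)
  rw [abs_mul, abs_of_nonneg (sq_nonneg (a w - a w'))]

/-- subtraction of the row sums makes a symmetric kernel neutral -/
def neu [DecidableEq V] (M : Matrix V V ℝ) : Matrix V V ℝ :=
  M - Matrix.diagonal fun x => ∑ y, M x y

lemma Neu_neu [DecidableEq V] {M : Matrix V V ℝ} (hM : Mᵀ = M) : Neu (neu M) := by
  refine ⟨by rw [neu, transpose_sub, hM, diagonal_transpose], fun x => ?_⟩
  simp [neu, Matrix.sub_apply, Finset.sum_sub_distrib, Matrix.diagonal_apply]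

lemma qf_eq_neu [DecidableEq V] (M : Matrix V V ℝ) (u : V → ℝ) :
    qf M u = ∑ x, (∑ y, M x y) * u x ^ 2 + qf (neu M) u := by
  have h : M = (Matrix.diagonal fun x => ∑ y, M x y) + neu M := by
    rw [neu]; abel
  have h1 : qf (Matrix.diagonal fun x => ∑ y, M x y) u = ∑ x, (∑ y, M x y) * u x ^ 2 := by
    unfold qf
    refine Finset.sum_congr rfl fun x _ => ?_
    rw [Finset.sum_eq_single x]
    · rw [Matrix.diagonal_apply_eq]; ring
    · intro y _ hy
      rw [Matrix.diagonal_apply_ne _ (Ne.symm hy)]; ring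
    · intro h; exact absurd (Finset.mem_univ x) h
  conv_lhs => rw [h]
  rw [Vale.Agent.P159.H37.qf_add_mat, h1]

/-- polarisation: a bound of the quadratic form on the span gives the bound of the bilinear form -/
theorem bf_le_of_qf {M : Matrix V V ℝ} (hM : Mᵀ = M) {δ : ℝ} (g g' : V → ℝ)
    (h : ∀ a b : ℝ, |qf M (a • g + b • g')| ≤ δ * (a ^ 2 * ∑ x, g x ^ 2 + b ^ 2 * ∑ x, g' x ^ 2)) :
    |bf M g g'| ≤ δ * (√(∑ x, g x ^ 2) * √(∑ x, g' x ^ 2)) := by
  set A := √(∑ x, g x ^ 2) with hA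
  set B := √(∑ x, g' x ^ 2) with hB
  have hA2 : ∑ x, g x ^ 2 = A ^ 2 := (Real.sq_sqrt (Finset.sum_nonneg fun x _ => sq_nonneg _)).symm
  have hB2 : ∑ x, g' x ^ 2 = B ^ 2 := (Real.sq_sqrt (Finset.sum_nonneg fun x _ => sq_nonneg _)).symm
  rw [hA2, hB2] at h
  have hA0 : 0 ≤ A := Real.sqrt_nonneg _
  have hB0 : 0 ≤ B := Real.sqrt_nonneg _
  have key : ∀ a b : ℝ, 4 * (a * b) * bf M g g'
      = qf M (a • g + b • g') - qf M (a • g - b • g') := by
    intro a b
    rw [qf_add_vec hM, qf_sub_vec hM, bf_smul_left, bf_smul_right]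
    ring
  have key2 : ∀ a b : ℝ, |4 * (a * b) * bf M g g'| ≤ 2 * (δ * (a ^ 2 * A ^ 2 + b ^ 2 * B ^ 2)) := by
    intro a b
    rw [key a b]
    have h1 := h a b
    have h2 := h a (-b)
    have e : a • g + (-b) • g' = a • g - b • g' := by
      rw [neg_smul, sub_eq_add_neg]
    rw [e] at h2
    have e2 : (-b) ^ 2 = b ^ 2 := by ring
    rw [e2] at h2
    have := abs_sub (qf M (a • g + b • g')) (qf M (a • g - b • g'))
    linarith
  rcases eq_or_lt_of_le hA0 with h0 | h0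
  · -- `g = 0`
    have hg : g = 0 := by
      have : ∑ x, g x ^ 2 = 0 := by rw [hA2, ← h0]; ring
      funext x
      have := (Finset.sum_eq_zero_iff_of_nonneg (fun x _ => sq_nonneg (g x))).1 this x
        (Finset.mem_univ x)
      simpa using this
    have : bf M g g' = 0 := by
      rw [hg]; simp [bf]
    rw [this, ← h0]; simp
  rcases eq_or_lt_of_le hB0 with h0' | h0'
  · have hg : g' = 0 := by
      have : ∑ x, g' x ^ 2 = 0 := by rw [hB2, ← h0']; ring
      funext x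
      have := (Finset.sum_eq_zero_iff_of_nonneg (fun x _ => sq_nonneg (g' x))).1 this x
        (Finset.mem_univ x)
      simpa using this
    have : bf M g g' = 0 := by
      rw [hg]; simp [bf]
    rw [this, ← h0']; simp
  have h5 := key2 B A
  have e5 : B ^ 2 * A ^ 2 + A ^ 2 * B ^ 2 = 2 * (A * B) ^ 2 := by ring
  rw [e5, abs_mul] at h5
  have e6 : |4 * (B * A)| = 4 * (A * B) := by
    rw [abs_of_pos (by positivity)]; ring
  rw [e6] at h5
  have hAB : 0 < A * B := mul_pos h0 h0'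
  have h7 : 4 * (A * B) * |bf M g g'| ≤ 4 * (A * B) * (δ * (A * B)) := by
    calc 4 * (A * B) * |bf M g g'| ≤ 2 * (δ * (2 * (A * B) ^ 2)) := h5
      _ = 4 * (A * B) * (δ * (A * B)) := by ring
  exact le_of_mul_le_mul_left h7 (by positivity)

end abstract

/-! ### shifts -/

section shifts

variable {G : Type*} [Fintype G] [AddCommGroup G]

lemma sum_shift_nat (u : G → ℝ) (e : G) (m : ℕ) :
    ∑ x, (u (x + m • e) - u x) ^ 2 ≤ (m : ℝ) ^ 2 * ∑ x, (u (x + e) - u x) ^ 2 := by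
  have h1 : ∀ x, u (x + m • e) - u x
      = ∑ j ∈ range m, (u (x + (j + 1) • e) - u (x + j • e)) := by
    intro x
    rw [Finset.sum_range_sub (fun j => u (x + j • e)) m, zero_smul, add_zero]
  calc ∑ x, (u (x + m • e) - u x) ^ 2
      = ∑ x, (∑ j ∈ range m, (u (x + (j + 1) • e) - u (x + j • e))) ^ 2 := by
        exact Finset.sum_congr rfl fun x _ => by rw [h1]
    _ ≤ ∑ x, (m : ℝ) * ∑ j ∈ range m, (u (x + (j + 1) • e) - u (x + j • e)) ^ 2 := by
        refine Finset.sum_le_sum fun x _ => ?_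
        have := sq_sum_le_card_mul_sum_sq (s := range m)
          (f := fun j => u (x + (j + 1) • e) - u (x + j • e))
        rwa [card_range] at this
    _ = (m : ℝ) * ∑ j ∈ range m, ∑ x, (u (x + (j + 1) • e) - u (x + j • e)) ^ 2 := by
        rw [← Finset.mul_sum, Finset.sum_comm]
    _ = (m : ℝ) * ∑ j ∈ range m, ∑ x, (u (x + e) - u x) ^ 2 := by
        congr 1
        refine Finset.sum_congr rfl fun j _ => ?_
        refine Fintype.sum_equiv (Equiv.addRight (j • e)) _ _ fun x => ?_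
        simp only [Equiv.coe_addRight]
        congr 3
        rw [add_smul, one_smul]; abel
    _ = (m : ℝ) ^ 2 * ∑ x, (u (x + e) - u x) ^ 2 := by
        rw [Finset.sum_const, card_range, nsmul_eq_mul]; ring

lemma sum_shift_neg (u : G → ℝ) (z : G) :
    ∑ x, (u (x + -z) - u x) ^ 2 = ∑ x, (u (x + z) - u x) ^ 2 := by
  refine Fintype.sum_equiv (Equiv.addRight (-z)) _ _ fun x => ?_
  simp only [Equiv.coe_addRight]
  rw [neg_add_cancel_right]; ring

lemma sum_shift_int (u : G → ℝ) (e : G) (m : ℤ) :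
    ∑ x, (u (x + m • e) - u x) ^ 2 ≤ (m : ℝ) ^ 2 * ∑ x, (u (x + e) - u x) ^ 2 := by
  rcases Int.natAbs_eq m with h | h
  · have h1 := sum_shift_nat u e m.natAbs
    have e1 : m • e = m.natAbs • e := by
      conv_lhs => rw [h]
      exact natCast_zsmul e m.natAbs
    have e2 : ((m.natAbs : ℕ) : ℝ) ^ 2 = (m : ℝ) ^ 2 := by
      rw [Nat.cast_natAbs]; push_cast; exact sq_abs _
    rw [e1, ← e2]; exact h1
  · have h1 := sum_shift_nat u e m.natAbs
    have e1 : m • e = -(m.natAbs • e) := by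
      conv_lhs => rw [h]
      rw [neg_smul, natCast_zsmul]
    have e2 : ((m.natAbs : ℕ) : ℝ) ^ 2 = (m : ℝ) ^ 2 := by
      rw [Nat.cast_natAbs]; push_cast; exact sq_abs _
    rw [e1, sum_shift_neg, ← e2]; exact h1

lemma sum_shift_add (u : G → ℝ) (y z : G) :
    ∑ x, (u (x + (y + z)) - u x) ^ 2
      ≤ 2 * ∑ x, (u (x + y) - u x) ^ 2 + 2 * ∑ x, (u (x + z) - u x) ^ 2 := by
  have h1 : ∑ x, (u (x + (y + z)) - u (x + y)) ^ 2 = ∑ x, (u (x + z) - u x) ^ 2 := by
    refine Fintype.sum_equiv (Equiv.addRight y) _ _ fun x => ?_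
    simp only [Equiv.coe_addRight]
    rw [add_assoc]
  rw [← h1, Finset.mul_sum, Finset.mul_sum, ← Finset.sum_add_distrib]
  refine Finset.sum_le_sum fun x _ => ?_
  nlinarith [sq_nonneg ((u (x + (y + z)) - u (x + y)) - (u (x + y) - u x))]

/-- double sums with a kernel depending on the difference -/
lemma sum_conv (p : G → ℝ) (f : G → G → ℝ) :
    ∑ w, ∑ w', p (w' - w) * f w w' = ∑ z, p z * ∑ w, f w (w + z) := by
  have h1 : ∀ w, ∑ w', p (w' - w) * f w w' = ∑ z, p z * f w (w + z) := by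
    intro w
    refine (Fintype.sum_equiv (Equiv.addLeft w) _ _ fun z => ?_).symm
    simp only [Equiv.coe_addLeft]
    rw [add_sub_cancel_left]
  simp only [h1]
  rw [Finset.sum_comm]
  exact Finset.sum_congr rfl fun z _ => by rw [Finset.mul_sum]

end shifts

/-! ### the torus: shifts and cells -/

section torus

open Vale.Agent.P159.TM.Spec (V)

section sh

variable {N : ℕ} [NeZero N]

lemma sum_shift_tor (u : V N → ℝ) (a b : ℤ) :
    ∑ x, (u (x + ((a : ZMod N), (b : ZMod N))) - u x) ^ 2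
      ≤ 2 * ((a : ℝ) ^ 2 + (b : ℝ) ^ 2) * dirE u := by
  have e : (((a : ZMod N), (b : ZMod N)) : V N)
      = a • ((1, 0) : V N) + b • ((0, 1) : V N) := by
    ext <;> simp
  rw [e]
  refine (sum_shift_add u _ _).trans ?_
  have h1 := sum_shift_int u ((1, 0) : V N) a
  have h2 := sum_shift_int u ((0, 1) : V N) b
  have e3 : dirE u = ∑ x, (u (x + (1, 0)) - u x) ^ 2 + ∑ x, (u (x + (0, 1)) - u x) ^ 2 := by
    rw [dirE, Finset.sum_add_distrib]
  have p1 : 0 ≤ ∑ x, (u (x + (1, 0)) - u x) ^ 2 := Finset.sum_nonneg fun _ _ => sq_nonneg _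
  have p2 : 0 ≤ ∑ x, (u (x + (0, 1)) - u x) ^ 2 := Finset.sum_nonneg fun _ _ => sq_nonneg _
  rw [e3]
  have q1 := mul_nonneg (sq_nonneg (a : ℝ)) p2
  have q2 := mul_nonneg (sq_nonneg (b : ℝ)) p1
  nlinarith

lemma sum_shift_tn (u : V N → ℝ) (z : V N) :
    ∑ x, (u (x + z) - u x) ^ 2 ≤ 2 * tn z ^ 2 * dirE u := by
  have h := sum_shift_tor u z.1.valMinAbs z.2.valMinAbs
  simp only [ZMod.coe_valMinAbs, Prod.mk.eta] at h
  have e : tn z ^ 2 = ((z.1.valMinAbs : ℤ) : ℝ) ^ 2 + ((z.2.valMinAbs : ℤ) : ℝ) ^ 2 := by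
    rw [tn, Vale.Agent.P159.TM.H859.nz_sq]
    rfl
  rw [e]
  exact h

lemma dirE_nonneg (u : V N → ℝ) : 0 ≤ dirE u :=
  Finset.sum_nonneg fun _ _ => add_nonneg (sq_nonneg _) (sq_nonneg _)

lemma dirE_sub_const (u : V N → ℝ) (c : ℝ) : dirE (fun x => u x - c) = dirE u := by
  unfold dirE
  refine Finset.sum_congr rfl fun x _ => ?_
  congr 1 <;> ring

end sh

/-- index of the cell of side `l` of the point `x`; `n` cells per direction -/
def cx (n l : ℕ) {N : ℕ} (x : V N) : V n :=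
  (((x.1.val / l : ℕ) : ZMod n), ((x.2.val / l : ℕ) : ZMod n))

section cells

variable {n l N : ℕ} [NeZero n] [NeZero l] [NeZero N]

omit [NeZero n] [NeZero l] [NeZero N] in
lemma c1_natCast (hN : N = n * l) (k : ℕ) :
    ((((k : ZMod N)).val / l : ℕ) : ZMod n) = ((k / l : ℕ) : ZMod n) := by
  rw [ZMod.val_natCast, hN, Nat.mod_mul_left_div_self, ZMod.natCast_mod]

lemma c1_add (hN : N = n * l) (a : ZMod N) :
    (((a + (l : ZMod N)).val / l : ℕ) : ZMod n) = ((a.val / l : ℕ) : ZMod n) + 1 := by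
  have h : a + (l : ZMod N) = ((a.val + l : ℕ) : ZMod N) := by
    push_cast
    rw [ZMod.natCast_zmod_val]
  rw [h, c1_natCast hN, Nat.add_div_right _ (NeZero.pos l)]
  push_cast
  ring

lemma cx_add1 (hN : N = n * l) (x : V N) :
    cx n l (x + ((l : ZMod N), 0)) = cx n l x + (1, 0) := by
  unfold cx
  ext
  · simp only [Prod.fst_add]
    exact c1_add hN _
  · simp

lemma cx_add2 (hN : N = n * l) (x : V N) :
    cx n l (x + (0, (l : ZMod N))) = cx n l x + (0, 1) := by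
  unfold cx
  ext
  · simp
  · simp only [Prod.snd_add]
    exact c1_add hN _

omit [NeZero l] in
lemma c1_inj (hN : N = n * l) {a b : ZMod N}
    (h : ((a.val / l : ℕ) : ZMod n) = ((b.val / l : ℕ) : ZMod n)) : a.val / l = b.val / l := by
  have ha : a.val / l < n := by
    apply Nat.div_lt_of_lt_mul
    have h1 : a.val < n * l := lt_of_lt_of_eq (ZMod.val_lt a) hN
    rwa [mul_comm]
  have hb : b.val / l < n := by
    apply Nat.div_lt_of_lt_mul
    have h1 : b.val < n * l := lt_of_lt_of_eq (ZMod.val_lt b) hN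
    rwa [mul_comm]
  have h1 := congrArg ZMod.val h
  rwa [ZMod.val_natCast, ZMod.val_natCast, Nat.mod_eq_of_lt ha, Nat.mod_eq_of_lt hb] at h1

/-- difference of two points of one cell, one coordinate -/
lemma c1_diff (hN : N = n * l) {a b : ZMod N}
    (h : ((a.val / l : ℕ) : ZMod n) = ((b.val / l : ℕ) : ZMod n)) :
    b.val + l - a.val < 2 * l ∧ a.val < b.val + l := by
  have h1 := c1_inj hN h
  have hl : 0 < l := NeZero.pos l
  have e1 := Nat.div_add_mod a.val l
  have e2 := Nat.div_add_mod b.val l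
  have m1 := Nat.mod_lt a.val hl
  have m2 := Nat.mod_lt b.val hl
  rw [h1] at e1
  constructor <;> omega

/-- the cells have `l` points per direction -/
lemma sum_cell1 (hN : N = n * l) (f : ZMod N → ℝ) :
    ∑ a, f a = ∑ i ∈ range n, ∑ j ∈ range l, f ((i * l + j : ℕ) : ZMod N) := by
  have hm : ∀ k, k ∈ range (n * l) ↔ k < N := fun k => by rw [Finset.mem_range, hN]
  have h0 : ∑ k ∈ range (n * l), f (k : ZMod N) = ∑ a, f a := by
    refine Finset.sum_bij (fun (k : ℕ) _ => (k : ZMod N)) (fun _ _ => Finset.mem_univ _) ?_ ?_ ?_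
    · intro a ha b hb h
      have := congrArg ZMod.val h
      rwa [ZMod.val_natCast, ZMod.val_natCast, Nat.mod_eq_of_lt ((hm a).1 ha),
        Nat.mod_eq_of_lt ((hm b).1 hb)] at this
    · intro b _
      exact ⟨b.val, (hm _).2 (ZMod.val_lt b), ZMod.natCast_zmod_val b⟩
    · intro a _
      rfl
  have h1 : ∀ (g : ℕ → ℝ) (n : ℕ), ∑ k ∈ range (n * l), g k
      = ∑ i ∈ range n, ∑ j ∈ range l, g (i * l + j) := by
    intro g n
    induction n with
    | zero => simp
    | succ n ih => rw [add_mul, one_mul, Finset.sum_range_add, ih, Finset.sum_range_succ]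
  rw [← h0]
  exact h1 _ n

lemma card_c1 (hN : N = n * l) (w : ZMod n) :
    ∑ a : ZMod N, (if ((a.val / l : ℕ) : ZMod n) = w then (1 : ℝ) else 0) = l := by
  rw [sum_cell1 hN]
  have hl : 0 < l := NeZero.pos l
  have h1 : ∀ i ∈ range n, ∑ j ∈ range l,
      (if ((((i * l + j : ℕ) : ZMod N).val / l : ℕ) : ZMod n) = w then (1 : ℝ) else 0)
      = if i = w.val then (l : ℝ) else 0 := by
    intro i hi
    have h2 : ∀ j ∈ range l, (if ((((i * l + j : ℕ) : ZMod N).val / l : ℕ) : ZMod n) = w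
        then (1 : ℝ) else 0) = if i = w.val then (1 : ℝ) else 0 := by
      intro j hj
      rw [c1_natCast hN]
      have e : (i * l + j) / l = i := by
        rw [add_comm, Nat.add_mul_div_right _ _ hl, Nat.div_eq_of_lt (Finset.mem_range.1 hj),
          zero_add]
      rw [e]
      have : ((i : ZMod n) = w) ↔ i = w.val := by
        constructor
        · intro h
          rw [← h, ZMod.val_natCast, Nat.mod_eq_of_lt (Finset.mem_range.1 hi)]
        · intro h
          rw [h, ZMod.natCast_zmod_val]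
      simp only [this]
    rw [Finset.sum_congr rfl h2, Finset.sum_const, card_range, nsmul_eq_mul]
    split_ifs <;> simp
  rw [Finset.sum_congr rfl h1, Finset.sum_ite_eq' (range n) w.val (fun _ => (l : ℝ))]
  rw [if_pos (Finset.mem_range.2 (ZMod.val_lt w))]

/-- a cell has `l²` points -/
lemma card_cx (hN : N = n * l) (w : V n) :
    ((univ.filter fun x : V N => cx n l x = w).card : ℝ) = (l : ℝ) ^ 2 := by
  have h1 : ((univ.filter fun x : V N => cx n l x = w).card : ℝ)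
      = ∑ x : V N, if cx n l x = w then (1 : ℝ) else 0 := by
    rw [Finset.card_filter]
    push_cast
    rfl
  rw [h1, Fintype.sum_prod_type]
  have h2 : ∀ a b : ZMod N, (if cx n l ((a, b) : V N) = w then (1 : ℝ) else 0)
      = (if ((a.val / l : ℕ) : ZMod n) = w.1 then (1 : ℝ) else 0)
        * (if ((b.val / l : ℕ) : ZMod n) = w.2 then (1 : ℝ) else 0) := by
    intro a b
    have : (cx n l ((a, b) : V N) = w) ↔
        (((a.val / l : ℕ) : ZMod n) = w.1 ∧ ((b.val / l : ℕ) : ZMod n) = w.2) := by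
      unfold cx
      exact Prod.ext_iff
    simp only [this]
    split_ifs <;> simp_all
  simp only [h2]
  rw [← Finset.sum_mul_sum, card_c1 hN, card_c1 hN, sq]

/-- the average of `u` over the cell `w` of side `l` -/
noncomputable def av (n l : ℕ) {N : ℕ} [NeZero N] (u : V N → ℝ) (w : V n) : ℝ :=
  ((l : ℝ) ^ 2)⁻¹ * ∑ x with cx n l x = w, u x

/-- the function constant on cells with the averages of `u` as values -/
noncomputable def Pc (n l : ℕ) {N : ℕ} [NeZero N] (u : V N → ℝ) (x : V N) : ℝ :=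
  av n l u (cx n l x)

omit [NeZero n] [NeZero l] in
lemma av_sub (u v : V N → ℝ) (w : V n) : av n l (fun x => u x - v x) w = av n l u w - av n l v w := by
  unfold av
  rw [Finset.sum_sub_distrib, mul_sub]

lemma av_of_const (hN : N = n * l) {u : V N → ℝ} {w : V n} {c : ℝ}
    (h : ∀ x, cx n l x = w → u x = c) : av n l u w = c := by
  unfold av
  have hl : (0 : ℝ) < l := by exact_mod_cast NeZero.pos l
  rw [Finset.sum_congr rfl (fun x hx => h x (Finset.mem_filter.1 hx).2), Finset.sum_const,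
    nsmul_eq_mul, card_cx hN, ← mul_assoc, inv_mul_cancel₀ (by positivity), one_mul]

lemma av_sq_le (hN : N = n * l) (u : V N → ℝ) (w : V n) :
    (l : ℝ) ^ 2 * av n l u w ^ 2 ≤ ∑ x with cx n l x = w, u x ^ 2 := by
  have hl : (0 : ℝ) < l := by exact_mod_cast NeZero.pos l
  have h := sq_sum_le_card_mul_sum_sq (s := univ.filter fun x : V N => cx n l x = w) (f := u)
  rw [card_cx hN] at h
  unfold av
  rw [mul_pow, ← mul_assoc]
  have e : (l : ℝ) ^ 2 * (((l : ℝ) ^ 2)⁻¹) ^ 2 = ((l : ℝ) ^ 2)⁻¹ := by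
    field_simp
  rw [e, inv_mul_le_iff₀ (by positivity)]
  exact h

omit [NeZero l] in
lemma sum_fib (u : V N → ℝ) : ∑ w : V n, ∑ x with cx n l x = w, u x = ∑ x, u x :=
  Finset.sum_fiberwise _ _ _

/-- contraction -/
lemma sum_Pc_sq_le (hN : N = n * l) (u : V N → ℝ) : ∑ x, Pc n l u x ^ 2 ≤ ∑ x, u x ^ 2 := by
  rw [← sum_fib (n := n) (l := l) (fun x => Pc n l u x ^ 2),
    ← sum_fib (n := n) (l := l) (fun x => u x ^ 2)]
  refine Finset.sum_le_sum fun w _ => ?_
  have e : ∑ x with cx n l x = w, Pc n l u x ^ 2 = (l : ℝ) ^ 2 * av n l u w ^ 2 := by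
    rw [← card_cx hN w, ← nsmul_eq_mul, ← Finset.sum_const]
    refine Finset.sum_congr rfl fun x hx => ?_
    unfold Pc
    rw [(Finset.mem_filter.1 hx).2]
  rw [e]
  exact av_sq_le hN u w

/-- Dirichlet form of the cell averages -/
lemma dirE_av (hN : N = n * l) (u : V N → ℝ) : dirE (av n l u) ≤ dirE u := by
  have hl : (0 : ℝ) < l := by exact_mod_cast NeZero.pos l
  have key : ∀ (e : V N) (e' : V n), (∀ x, cx n l (x + l • e) = cx n l x + e') →
      ∑ w, (av n l u (w + e') - av n l u w) ^ 2 ≤ ∑ x, (u (x + e) - u x) ^ 2 := by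
    intro e e' he
    have h1 : ∀ w, av n l u (w + e') = av n l (fun x => u (x + l • e)) w := by
      intro w
      unfold av
      congr 1
      rw [Finset.sum_filter, Finset.sum_filter]
      refine (Fintype.sum_equiv (Equiv.addRight (l • e)) _ _ fun x => ?_).symm
      simp only [Equiv.coe_addRight]
      have : (cx n l (x + l • e) = w + e') ↔ cx n l x = w := by
        rw [he x]; exact add_left_inj _
      simp only [this]
    have h2 : ∀ w, av n l u (w + e') - av n l u w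
        = av n l (fun x => u (x + l • e) - u x) w := by
      intro w
      rw [h1, av_sub (fun x => u (x + l • e)) u]
    have h3 : ∑ w, (l : ℝ) ^ 2 * (av n l u (w + e') - av n l u w) ^ 2
        ≤ ∑ x, (u (x + l • e) - u x) ^ 2 := by
      rw [← sum_fib (n := n) (l := l) (fun x => (u (x + l • e) - u x) ^ 2)]
      refine Finset.sum_le_sum fun w _ => ?_
      rw [h2]
      exact av_sq_le hN _ w
    have h4 := sum_shift_nat u e l
    rw [← Finset.mul_sum] at h3
    exact le_of_mul_le_mul_left (h3.trans h4) (by positivity)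
  have e3 : ∀ {K : ℕ} [NeZero K] (f : V K → ℝ),
      dirE f = ∑ x, (f (x + (1, 0)) - f x) ^ 2 + ∑ x, (f (x + (0, 1)) - f x) ^ 2 := by
    intro K _ f
    rw [dirE, Finset.sum_add_distrib]
  rw [e3, e3]
  refine add_le_add (key (1, 0) (1, 0) fun x => ?_) (key (0, 1) (0, 1) fun x => ?_)
  · have : (l • ((1, 0) : V N)) = ((l : ZMod N), 0) := by
      ext <;> simp
    rw [this, cx_add1 hN]
  · have : (l • ((0, 1) : V N)) = (0, (l : ZMod N)) := by
      ext <;> simp
    rw [this, cx_add2 hN]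

/-- **Poincare inequality in the cells** -/
lemma poin (hN : N = n * l) (u : V N → ℝ) :
    ∑ x, (u x - Pc n l u x) ^ 2 ≤ 16 * (l : ℝ) ^ 2 * dirE u := by
  have hl : (0 : ℝ) < l := by exact_mod_cast NeZero.pos l
  -- the finite set of shifts
  set S : Finset (ℕ × ℕ) := range (2 * l) ×ˢ range (2 * l) with hS
  set z : ℕ × ℕ → V N := fun k =>
    ((((k.1 : ℤ) - l : ℤ) : ZMod N), (((k.2 : ℤ) - l : ℤ) : ZMod N)) with hz
  have h1 : ∀ x, (l : ℝ) ^ 2 * (u x - Pc n l u x) ^ 2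
      ≤ ∑ k ∈ S, (u (x + z k) - u x) ^ 2 := by
    intro x
    have e1 : u x - Pc n l u x = av n l (fun y => u x - u y) (cx n l x) := by
      rw [av_sub (fun _ => u x) u, av_of_const hN (c := u x) (fun _ _ => rfl)]
      rfl
    have e2 : (l : ℝ) ^ 2 * (u x - Pc n l u x) ^ 2
        ≤ ∑ y with cx n l y = cx n l x, (u y - u x) ^ 2 := by
      rw [e1]
      refine (av_sq_le hN _ _).trans (le_of_eq ?_)
      exact Finset.sum_congr rfl fun y _ => by ring
    refine e2.trans ?_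
    set φ : V N → ℕ × ℕ := fun y => (y.1.val + l - x.1.val, y.2.val + l - x.2.val) with hφ
    have hx : ∀ y, cx n l y = cx n l x → x + z (φ y) = y ∧ φ y ∈ S := by
      intro y hy
      have hy1 : ((x.1.val / l : ℕ) : ZMod n) = ((y.1.val / l : ℕ) : ZMod n) :=
        (congrArg Prod.fst hy).symm
      have hy2 : ((x.2.val / l : ℕ) : ZMod n) = ((y.2.val / l : ℕ) : ZMod n) :=
        (congrArg Prod.snd hy).symm
      have d1 := c1_diff hN hy1
      have d2 := c1_diff hN hy2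
      constructor
      · have aux : ∀ a b : ZMod N, a.val < b.val + l →
            a + ((((b.val + l - a.val : ℕ) : ℤ) - l : ℤ) : ZMod N) = b := by
          intro a b hab
          rw [Nat.cast_sub hab.le]
          push_cast
          rw [ZMod.natCast_zmod_val, ZMod.natCast_zmod_val]
          ring
        ext
        · simp only [hz, hφ, Prod.fst_add]
          exact aux _ _ d1.2
        · simp only [hz, hφ, Prod.snd_add]
          exact aux _ _ d2.2
      · rw [hS, Finset.mem_product, Finset.mem_range, Finset.mem_range]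
        exact ⟨d1.1, d2.1⟩
    have e3 : ∑ y with cx n l y = cx n l x, (u y - u x) ^ 2
        = ∑ k ∈ (univ.filter fun y : V N => cx n l y = cx n l x).image φ,
            (u (x + z k) - u x) ^ 2 := by
      rw [Finset.sum_image]
      · refine Finset.sum_congr rfl fun y hy => ?_
        rw [(hx y (Finset.mem_filter.1 hy).2).1]
      · intro y hy y' hy' h
        have a1 := (hx y (Finset.mem_filter.1 hy).2).1
        have a2 := (hx y' (Finset.mem_filter.1 hy').2).1
        rw [← a1, ← a2, h]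
    rw [e3]
    refine Finset.sum_le_sum_of_subset_of_nonneg ?_ fun _ _ _ => sq_nonneg _
    intro k hk
    obtain ⟨y, hy, rfl⟩ := Finset.mem_image.1 hk
    exact (hx y (Finset.mem_filter.1 hy).2).2
  have h2 : ∀ k ∈ S, ∑ x, (u (x + z k) - u x) ^ 2 ≤ 4 * (l : ℝ) ^ 2 * dirE u := by
    intro k hk
    rw [hS, Finset.mem_product, Finset.mem_range, Finset.mem_range] at hk
    refine (sum_shift_tor u _ _).trans ?_
    refine mul_le_mul_of_nonneg_right ?_ (dirE_nonneg u)
    have b : ∀ m : ℕ, m < 2 * l → (((m : ℤ) - l : ℤ) : ℝ) ^ 2 ≤ (l : ℝ) ^ 2 := by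
      intro m hm
      have h1 : (m : ℝ) ≤ 2 * l := by exact_mod_cast hm.le
      have h0 : (0 : ℝ) ≤ m := by positivity
      push_cast
      nlinarith
    have := b k.1 hk.1
    have := b k.2 hk.2
    linarith
  have h3 : (l : ℝ) ^ 2 * ∑ x, (u x - Pc n l u x) ^ 2 ≤ (l : ℝ) ^ 2 * (16 * (l : ℝ) ^ 2 * dirE u) := by
    rw [Finset.mul_sum]
    calc ∑ x, (l : ℝ) ^ 2 * (u x - Pc n l u x) ^ 2
        ≤ ∑ x, ∑ k ∈ S, (u (x + z k) - u x) ^ 2 := Finset.sum_le_sum fun x _ => h1 x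
      _ = ∑ k ∈ S, ∑ x, (u (x + z k) - u x) ^ 2 := Finset.sum_comm
      _ ≤ ∑ k ∈ S, 4 * (l : ℝ) ^ 2 * dirE u := Finset.sum_le_sum h2
      _ = (l : ℝ) ^ 2 * (16 * (l : ℝ) ^ 2 * dirE u) := by
        rw [Finset.sum_const, hS, Finset.card_product, card_range, nsmul_eq_mul]
        push_cast
        ring
  exact le_of_mul_le_mul_left h3 (by positivity)

end cells

/-! ### the main statement -/

section main

variable {n m l N : ℕ} [NeZero n] [NeZero m] [NeZero l] [NeZero N]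

/-- constant on the cells of side `l` -/
def CC (n l : ℕ) {N : ℕ} (g : V N → ℝ) : Prop := ∀ x y, cx n l x = cx n l y → g x = g y

omit [NeZero l] in
lemma cx_coarse (hN : N = n * (m * l)) {x y : V N} (h : cx (n * m) l x = cx (n * m) l y) :
    cx n (m * l) x = cx n (m * l) y := by
  have hN' : N = n * m * l := by rw [hN, mul_assoc]
  have h1 : x.1.val / l = y.1.val / l := c1_inj hN' (congrArg Prod.fst h)
  have h2 : x.2.val / l = y.2.val / l := c1_inj hN' (congrArg Prod.snd h)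
  unfold cx
  rw [mul_comm m l, ← Nat.div_div_eq_div_mul, ← Nat.div_div_eq_div_mul,
    ← Nat.div_div_eq_div_mul, ← Nat.div_div_eq_div_mul, h1, h2]

lemma CC_Pc (n l : ℕ) (u : V N → ℝ) : CC n l (Pc n l u) := fun x y h => by
  unfold Pc
  rw [h]

lemma Pc_of_CC (hN : N = n * l) {g : V N → ℝ} (hg : CC n l g) : Pc n l g = g := by
  funext x
  exact av_of_const hN fun y hy => hg y x hy

lemma Pc_sub (u v : V N → ℝ) (x : V N) :
    Pc n l (fun y => u y - v y) x = Pc n l u x - Pc n l v x := av_sub u v _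

/-- value of a quadratic form on the indicator of a box -/
lemma sum_ind_sq (hN : N = n * l) (w : V n) :
    ∑ x : V N, (if cx n l x = w then (1 : ℝ) else 0) ^ 2 = (l : ℝ) ^ 2 := by
  rw [← card_cx hN w, Finset.card_filter]
  push_cast
  exact Finset.sum_congr rfl fun x _ => by split_ifs <;> simp

/-- **NEUT, cell functions.** `N = n L`, `L = m l`. If the neutral kernel `M` satisfies
`|M[g,g']| ≤ p(w'-w) |g| |g'|` for all `g, g'` constant on cells of side `l` and supported in the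
boxes `w, w'` of side `L`, then `|M[Pu,Pu]| ≤ L² ∑_z p(z)(3|z|²+32) |∇u|²`, `Pu` = cell averages. -/
theorem neut_cell (hN : N = n * (m * l)) {M : Matrix (V N) (V N) ℝ} (hM : Neu M)
    (p : V n → ℝ) (hp : ∀ z, 0 ≤ p z)
    (h : ∀ (w w' : V n) (g g' : V N → ℝ), CC (n * m) l g → CC (n * m) l g' →
      (∀ x, cx n (m * l) x ≠ w → g x = 0) → (∀ x, cx n (m * l) x ≠ w' → g' x = 0) →
      |bf M g g'| ≤ p (w' - w) * (√(∑ x, g x ^ 2) * √(∑ x, g' x ^ 2)))
    (u : V N → ℝ) :
    |qf M (Pc (n * m) l u)|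
      ≤ ((m * l : ℕ) : ℝ) ^ 2 * (∑ z, p z * (3 * tn z ^ 2 + 32)) * dirE u := by
  have hN' : N = n * m * l := by rw [hN, mul_assoc]
  set L : ℕ := m * l with hLd
  have : NeZero L := ⟨Nat.mul_ne_zero (NeZero.ne m) (NeZero.ne l)⟩
  have : NeZero (n * m) := ⟨Nat.mul_ne_zero (NeZero.ne n) (NeZero.ne m)⟩
  have hL : (0 : ℝ) < L := by exact_mod_cast NeZero.pos L
  set χ : V n → V N → ℝ := fun w x => if cx n L x = w then 1 else 0 with hχ
  set a : V n → ℝ := av n L u with ha
  set f : V N → ℝ := fun x => Pc (n * m) l u x - Pc n L u x with hf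
  set r : V n → V N → ℝ := fun w x => χ w x * f x with hr
  set ρ : V n → ℝ := fun w => √(∑ x, r w x ^ 2) / L with hρ
  have hχ1 : ∀ x, ∑ w, χ w x = 1 := by
    intro x
    simp only [hχ]
    rw [Finset.sum_ite_eq]
    simp
  have hdec : (fun x => ∑ w, (a w * χ w x + r w x)) = Pc (n * m) l u := by
    funext x
    have h1 : ∀ w, a w * χ w x + r w x = if cx n L x = w then a w + f x else 0 := by
      intro w
      simp only [hr, hχ]
      split_ifs <;> ring
    simp only [h1]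
    rw [Finset.sum_ite_eq]
    simp only [Finset.mem_univ, if_true, hf, ha]
    unfold Pc
    ring
  have cQ : CC (n * m) l (Pc n L u) := fun x y hxy => by
    have := cx_coarse hN hxy
    unfold Pc
    rw [this]
  have cf : CC (n * m) l f := fun x y hxy => by
    simp only [hf]
    rw [CC_Pc (n * m) l u x y hxy, cQ x y hxy]
  have cχ : ∀ w, CC (n * m) l (χ w) := fun w x y hxy => by
    simp only [hχ]
    rw [cx_coarse hN hxy]
  have cr : ∀ w, CC (n * m) l (r w) := fun w x y hxy => by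
    simp only [hr]
    rw [cχ w x y hxy, cf x y hxy]
  have sχ : ∀ w x, cx n L x ≠ w → χ w x = 0 := fun w x hx => by
    simp only [hχ]; rw [if_neg hx]
  have sr : ∀ w x, cx n L x ≠ w → r w x = 0 := fun w x hx => by
    simp only [hr]; rw [sχ w x hx, zero_mul]
  have nχ : ∀ w, √(∑ x, χ w x ^ 2) = L := fun w => by
    rw [sum_ind_sq hN w, Real.sqrt_sq hL.le]
  have nr : ∀ w, √(∑ x, r w x ^ 2) = ρ w * L := fun w => by
    simp only [hρ]
    field_simp
  -- `∑ ρ² ≤ 16 |∇u|²`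
  have hρ2 : ∑ w, ρ w ^ 2 ≤ 16 * dirE u := by
    have h1 : ∀ w, ρ w ^ 2 * (L : ℝ) ^ 2 = ∑ x, r w x ^ 2 := fun w => by
      rw [← mul_pow, ← nr w, Real.sq_sqrt (Finset.sum_nonneg fun _ _ => sq_nonneg _)]
    have h2 : ∑ w, ∑ x, r w x ^ 2 = ∑ x, f x ^ 2 := by
      rw [Finset.sum_comm]
      refine Finset.sum_congr rfl fun x _ => ?_
      have h3 : ∀ w, r w x ^ 2 = if cx n L x = w then f x ^ 2 else 0 := by
        intro w
        simp only [hr, hχ]
        split_ifs <;> ring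
      simp only [h3]
      rw [Finset.sum_ite_eq]
      simp
    have h4 : ∑ x, f x ^ 2 ≤ 16 * (L : ℝ) ^ 2 * dirE u := by
      have h5 : ∀ x, f x = Pc (n * m) l (fun y => u y - Pc n L u y) x := by
        intro x
        rw [Pc_sub, Pc_of_CC hN' cQ]
      simp only [h5]
      exact (sum_Pc_sq_le hN' _).trans (poin hN u)
    have h6 : (∑ w, ρ w ^ 2) * (L : ℝ) ^ 2 ≤ 16 * dirE u * (L : ℝ) ^ 2 := by
      rw [Finset.sum_mul]
      simp only [h1]
      rw [h2]
      linarith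
    exact le_of_mul_le_mul_right h6 (by positivity)
  have hmain := abs_qf_neu_le hM χ hχ1 a r ρ (fun w w' => p (w' - w) * (L : ℝ) ^ 2)
    (fun w w' => mul_nonneg (hp _) (sq_nonneg _))
    (fun w w' => by
      have := h w w' (χ w) (χ w') (cχ w) (cχ w') (sχ w) (sχ w')
      rw [nχ, nχ] at this
      calc |bf M (χ w) (χ w')| ≤ p (w' - w) * (L * L) := this
        _ = _ := by ring)
    (fun w w' => by
      have := h w w' (χ w) (r w') (cχ w) (cr w') (sχ w) (sr w')
      rw [nχ, nr] at this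
      calc |bf M (χ w) (r w')| ≤ p (w' - w) * (L * (ρ w' * L)) := this
        _ = _ := by ring)
    (fun w w' => by
      have := h w w' (r w) (r w') (cr w) (cr w') (sr w) (sr w')
      rw [nr, nr] at this
      calc |bf M (r w) (r w')| ≤ p (w' - w) * (ρ w * L * (ρ w' * L)) := this
        _ = _ := by ring)
  rw [hdec] at hmain
  refine hmain.trans ?_
  have e1 : ∑ w, ∑ w', p (w' - w) * (L : ℝ) ^ 2
        * (3 / 2 * (a w - a w') ^ 2 + 1 / 2 * ρ w ^ 2 + 3 / 2 * ρ w' ^ 2)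
      = (L : ℝ) ^ 2 * ∑ z, p z * (3 / 2 * ∑ w, (a (w + z) - a w) ^ 2 + 2 * ∑ w, ρ w ^ 2) := by
    have e2 := sum_conv p (fun w w' => (L : ℝ) ^ 2
        * (3 / 2 * (a w - a w') ^ 2 + 1 / 2 * ρ w ^ 2 + 3 / 2 * ρ w' ^ 2))
    have e3 : ∑ w, ∑ w', p (w' - w) * (L : ℝ) ^ 2
        * (3 / 2 * (a w - a w') ^ 2 + 1 / 2 * ρ w ^ 2 + 3 / 2 * ρ w' ^ 2)
        = ∑ w, ∑ w', p (w' - w) * ((L : ℝ) ^ 2
        * (3 / 2 * (a w - a w') ^ 2 + 1 / 2 * ρ w ^ 2 + 3 / 2 * ρ w' ^ 2)) :=
      Finset.sum_congr rfl fun w _ => Finset.sum_congr rfl fun w' _ => by ring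
    rw [e3, e2, Finset.mul_sum]
    refine Finset.sum_congr rfl fun z _ => ?_
    have e4 : ∑ w, (L : ℝ) ^ 2
        * (3 / 2 * (a w - a (w + z)) ^ 2 + 1 / 2 * ρ w ^ 2 + 3 / 2 * ρ (w + z) ^ 2)
        = (L : ℝ) ^ 2 * (3 / 2 * ∑ w, (a (w + z) - a w) ^ 2 + 1 / 2 * ∑ w, ρ w ^ 2
          + 3 / 2 * ∑ w, ρ (w + z) ^ 2) := by
      rw [← Finset.mul_sum, Finset.sum_add_distrib, Finset.sum_add_distrib, ← Finset.mul_sum,
        ← Finset.mul_sum, ← Finset.mul_sum]
      congr 4
      exact Finset.sum_congr rfl fun w _ => by ring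
    have e5 : ∑ w, ρ (w + z) ^ 2 = ∑ w, ρ w ^ 2 :=
      Fintype.sum_equiv (Equiv.addRight z) _ _ fun _ => rfl
    rw [e4, e5]
    ring
  rw [e1]
  have e6 : (L : ℝ) ^ 2 * (∑ z, p z * (3 * tn z ^ 2 + 32)) * dirE u
      = (L : ℝ) ^ 2 * ∑ z, p z * ((3 * tn z ^ 2 + 32) * dirE u) := by
    rw [mul_assoc, Finset.sum_mul]
    congr 1
    exact Finset.sum_congr rfl fun z _ => by ring
  rw [e6]
  refine mul_le_mul_of_nonneg_left ?_ (by positivity)
  refine Finset.sum_le_sum fun z _ => mul_le_mul_of_nonneg_left ?_ (hp z)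
  have h7 := sum_shift_tn a z
  have h8 : dirE a ≤ dirE u := dirE_av hN u
  have h9 : 2 * tn z ^ 2 * dirE a ≤ 2 * tn z ^ 2 * dirE u :=
    mul_le_mul_of_nonneg_left h8 (by positivity)
  linarith

/-- the mean square of `u - mean` -/
lemma poin_all (u : V N → ℝ) : ∃ c : ℝ, ∑ x, (u x - c) ^ 2 ≤ 16 * (N : ℝ) ^ 2 * dirE u := by
  have : NeZero (1 : ℕ) := ⟨one_ne_zero⟩
  refine ⟨av 1 N u 0, ?_⟩
  have h := poin (n := 1) (l := N) (N := N) (one_mul N).symm u
  have e : ∀ x : V N, Pc 1 N u x = av 1 N u 0 := by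
    intro x
    unfold Pc
    congr 1
    exact Subsingleton.elim _ _
  simpa only [e] using h

/-- passage from `u` to its cell averages, with a crude bound of the kernel -/
theorem neut_fine (hN : N = n * l) {M : Matrix (V N) (V N) ℝ} (hM : Neu M) {B : ℝ} (hB : 0 ≤ B)
    (hb : ∀ g g' : V N → ℝ, |bf M g g'| ≤ B * (√(∑ x, g x ^ 2) * √(∑ x, g' x ^ 2)))
    (u : V N → ℝ) :
    |qf M u - qf M (Pc n l u)| ≤ 32 * B * l * N * dirE u := by
  obtain ⟨c, hc⟩ := poin_all u
  have hl : (0 : ℝ) < l := by exact_mod_cast NeZero.pos l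
  have hN0 : (0 : ℝ) < N := by exact_mod_cast NeZero.pos N
  have hD := dirE_nonneg u
  set u' : V N → ℝ := fun x => u x - c with hu'
  have hP : Pc n l u' = fun x => Pc n l u x - c := by
    funext x
    rw [hu', Pc_sub]
    congr 1
    exact av_of_const hN fun _ _ => rfl
  have q1 : qf M u = qf M u' := (hM.qf_sub_const u c).symm
  have q2 : qf M (Pc n l u) = qf M (Pc n l u') := by
    rw [hP, hM.qf_sub_const]
  rw [q1, q2]
  set v : V N → ℝ := u' - Pc n l u' with hv
  set s : V N → ℝ := u' + Pc n l u' with hs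
  have e1 : qf M u' - qf M (Pc n l u') = bf M v s := by
    have a1 : bf M v s = bf M u' s - bf M (Pc n l u') s := by
      rw [hv, sub_eq_add_neg, bf_add_left, ← neg_one_smul ℝ (Pc n l u'), bf_smul_left]
      ring
    rw [a1, hs, bf_add_right, bf_add_right, bf_comm hM.sym (Pc n l u') u', bf_self, bf_self]
    ring
  rw [e1]
  refine (hb v s).trans ?_
  have n1 : √(∑ x, v x ^ 2) ≤ 4 * l * √(dirE u) := by
    have h1 : ∑ x, v x ^ 2 ≤ 16 * (l : ℝ) ^ 2 * dirE u := by
      have := poin hN u'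
      rw [dirE_sub_const] at this
      exact this
    calc √(∑ x, v x ^ 2) ≤ √(16 * (l : ℝ) ^ 2 * dirE u) := Real.sqrt_le_sqrt h1
      _ = 4 * l * √(dirE u) := by
        have : 16 * (l : ℝ) ^ 2 * dirE u = (4 * l) ^ 2 * dirE u := by ring
        rw [this, Real.sqrt_mul (by positivity), Real.sqrt_sq (by positivity)]
  have n2 : √(∑ x, s x ^ 2) ≤ 8 * N * √(dirE u) := by
    have h2 : ∑ x, s x ^ 2 ≤ 64 * (N : ℝ) ^ 2 * dirE u := by
      have h3 := sum_Pc_sq_le hN u'
      have h4 : ∑ x, s x ^ 2 ≤ 2 * ∑ x, u' x ^ 2 + 2 * ∑ x, Pc n l u' x ^ 2 := by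
        rw [Finset.mul_sum, Finset.mul_sum, ← Finset.sum_add_distrib]
        refine Finset.sum_le_sum fun x _ => ?_
        simp only [hs, Pi.add_apply]
        nlinarith [sq_nonneg (u' x - Pc n l u' x)]
      linarith
    calc √(∑ x, s x ^ 2) ≤ √(64 * (N : ℝ) ^ 2 * dirE u) := Real.sqrt_le_sqrt h2
      _ = 8 * N * √(dirE u) := by
        have : 64 * (N : ℝ) ^ 2 * dirE u = (8 * N) ^ 2 * dirE u := by ring
        rw [this, Real.sqrt_mul (by positivity), Real.sqrt_sq (by positivity)]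
  calc B * (√(∑ x, v x ^ 2) * √(∑ x, s x ^ 2))
      ≤ B * ((4 * l * √(dirE u)) * (8 * N * √(dirE u))) := by
        refine mul_le_mul_of_nonneg_left ?_ hB
        exact mul_le_mul n1 n2 (Real.sqrt_nonneg _) (by positivity)
    _ = 32 * B * l * N * (√(dirE u) * √(dirE u)) := by ring
    _ = 32 * B * l * N * dirE u := by rw [Real.mul_self_sqrt hD]

/-- **NEUT.** `N = n L`, `L = m l`; the neutral kernel `M` is small on pairs of bumps (cell functions
supported in one box of side `L`) and bounded by `B`. Then it is small with respect to the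
Dirichlet form: `|M[u,u]| ≤ (L² ∑_z p(z)(3|z|²+32) + 32 B l N) |∇u|²` for every `u`. -/
theorem neut (hN : N = n * (m * l)) {M : Matrix (V N) (V N) ℝ} (hM : Neu M)
    (p : V n → ℝ) (hp : ∀ z, 0 ≤ p z)
    (h : ∀ (w w' : V n) (g g' : V N → ℝ), CC (n * m) l g → CC (n * m) l g' →
      (∀ x, cx n (m * l) x ≠ w → g x = 0) → (∀ x, cx n (m * l) x ≠ w' → g' x = 0) →
      |bf M g g'| ≤ p (w' - w) * (√(∑ x, g x ^ 2) * √(∑ x, g' x ^ 2)))
    {B : ℝ} (hB : 0 ≤ B)
    (hb : ∀ g g' : V N → ℝ, |bf M g g'| ≤ B * (√(∑ x, g x ^ 2) * √(∑ x, g' x ^ 2)))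
    (u : V N → ℝ) :
    |qf M u| ≤ (((m * l : ℕ) : ℝ) ^ 2 * (∑ z, p z * (3 * tn z ^ 2 + 32)) + 32 * B * l * N)
      * dirE u := by
  have hN' : N = n * m * l := by rw [hN, mul_assoc]
  have : NeZero (n * m) := ⟨Nat.mul_ne_zero (NeZero.ne n) (NeZero.ne m)⟩
  have h1 := neut_cell hN hM p hp h u
  have h2 := neut_fine hN' hM hB hb u
  have h3 := abs_sub_abs_le_abs_sub (qf M u) (qf M (Pc (n * m) l u))
  rw [add_mul]
  linarith

omit [NeZero m] in
lemma tn_sq_le (z : V n) : tn z ^ 2 ≤ (n : ℝ) ^ 2 := by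
  have e : tn z ^ 2 = ((z.1.valMinAbs : ℤ) : ℝ) ^ 2 + ((z.2.valMinAbs : ℤ) : ℝ) ^ 2 := by
    rw [tn, Vale.Agent.P159.TM.H859.nz_sq]
    rfl
  have b : ∀ a : ZMod n, ((a.valMinAbs : ℤ) : ℝ) ^ 2 ≤ (n : ℝ) ^ 2 / 4 := by
    intro a
    have h := ZMod.natAbs_valMinAbs_le a
    have h2 : ((a.valMinAbs.natAbs : ℕ) : ℝ) ≤ (n : ℝ) / 2 := by
      have h3 : a.valMinAbs.natAbs * 2 ≤ n := (Nat.le_div_iff_mul_le (by norm_num)).1 h
      have h4 : ((a.valMinAbs.natAbs : ℕ) : ℝ) * 2 ≤ n := by exact_mod_cast h3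
      linarith
    have e2 : ((a.valMinAbs : ℤ) : ℝ) ^ 2 = ((a.valMinAbs.natAbs : ℕ) : ℝ) ^ 2 := by
      rw [Nat.cast_natAbs]; push_cast; exact (sq_abs _).symm
    rw [e2]
    have h5 : (0 : ℝ) ≤ ((a.valMinAbs.natAbs : ℕ) : ℝ) := by positivity
    nlinarith
  rw [e]
  have := b z.1
  have := b z.2
  have := sq_nonneg (n : ℝ)
  linarith

/-- number of points of the torus at distance at most `K` -/
lemma card_tn_le (K : ℕ) :
    ((univ.filter fun z : V n => tn z ≤ K).card : ℝ) ≤ (2 * K + 1) ^ 2 := by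
  have h : (univ.filter fun z : V n => tn z ≤ K).card
      ≤ (Finset.Icc (-(K : ℤ)) K ×ˢ Finset.Icc (-(K : ℤ)) K).card := by
    refine Finset.card_le_card_of_injOn (fun z => (z.1.valMinAbs, z.2.valMinAbs)) ?_ ?_
    · intro z hz
      have hz' : tn z ≤ K := by simpa using hz
      have h1 : |((z.1.valMinAbs : ℤ) : ℝ)| ≤ K :=
        (Vale.Agent.P159.TM.H859.abs_fst_le_nz (z.1.valMinAbs, z.2.valMinAbs)).trans hz'
      have h2 : |((z.2.valMinAbs : ℤ) : ℝ)| ≤ K :=
        (Vale.Agent.P159.TM.H859.abs_snd_le_nz (z.1.valMinAbs, z.2.valMinAbs)).trans hz'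
      have h1' := abs_le.1 h1
      have h2' := abs_le.1 h2
      have a1 : -(K : ℤ) ≤ z.1.valMinAbs := by exact_mod_cast h1'.1
      have a2 : z.1.valMinAbs ≤ (K : ℤ) := by exact_mod_cast h1'.2
      have a3 : -(K : ℤ) ≤ z.2.valMinAbs := by exact_mod_cast h2'.1
      have a4 : z.2.valMinAbs ≤ (K : ℤ) := by exact_mod_cast h2'.2
      simp only [Finset.coe_product, Set.mem_prod, Finset.coe_Icc, Set.mem_Icc]
      exact ⟨⟨a1, a2⟩, ⟨a3, a4⟩⟩
    · intro z _ z' _ hzz
      exact Vale.Agent.P159.TM.H859.rep_injective hzz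
  rw [Finset.card_product, Int.card_Icc] at h
  have e : ((K : ℤ) + 1 - -(K : ℤ)).toNat = 2 * K + 1 := by omega
  rw [e] at h
  calc ((univ.filter fun z : V n => tn z ≤ K).card : ℝ) ≤ (((2 * K + 1) * (2 * K + 1) : ℕ) : ℝ) := by
        exact_mod_cast h
    _ = _ := by push_cast; ring

omit [NeZero m] [NeZero l] [NeZero N] in
/-- the sum of `neut` when `p = δ₀` up to distance `K` and `p = δ₁` beyond -/
lemma sum_prof_le (K : ℕ) {δ₀ δ₁ : ℝ} (h0 : 0 ≤ δ₀) (h1 : 0 ≤ δ₁) :
    ∑ z : V n, (if tn z ≤ K then δ₀ else δ₁) * (3 * tn z ^ 2 + 32)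
      ≤ δ₀ * ((2 * K + 1) ^ 2 * (3 * K ^ 2 + 32)) + δ₁ * (n ^ 2 * (3 * n ^ 2 + 32)) := by
  have e : ∀ z : V n, (if tn z ≤ K then δ₀ else δ₁) * (3 * tn z ^ 2 + 32)
      ≤ (if tn z ≤ K then δ₀ * (3 * (K : ℝ) ^ 2 + 32) else 0) + δ₁ * (3 * (n : ℝ) ^ 2 + 32) := by
    intro z
    have ht := Vale.Agent.P159.TM.H859.tn_nonneg z
    have hn := tn_sq_le z
    split_ifs with hz
    · have : tn z ^ 2 ≤ (K : ℝ) ^ 2 := pow_le_pow_left₀ ht hz 2
      have q1 : δ₀ * (3 * tn z ^ 2 + 32) ≤ δ₀ * (3 * (K : ℝ) ^ 2 + 32) :=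
        mul_le_mul_of_nonneg_left (by linarith) h0
      have q2 : 0 ≤ δ₁ * (3 * (n : ℝ) ^ 2 + 32) := by positivity
      linarith
    · have q1 : δ₁ * (3 * tn z ^ 2 + 32) ≤ δ₁ * (3 * (n : ℝ) ^ 2 + 32) :=
        mul_le_mul_of_nonneg_left (by linarith) h1
      linarith
  refine (Finset.sum_le_sum fun z _ => e z).trans ?_
  rw [Finset.sum_add_distrib, ← Finset.sum_filter, Finset.sum_const, Finset.sum_const,
    nsmul_eq_mul, nsmul_eq_mul]
  have c1 := card_tn_le (n := n) K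
  have c2 : ((univ : Finset (V n)).card : ℝ) = (n : ℝ) ^ 2 := by
    rw [Finset.card_univ, Fintype.card_prod, ZMod.card]
    push_cast
    ring
  rw [c2]
  have q : ((univ.filter fun z : V n => tn z ≤ K).card : ℝ) * (δ₀ * (3 * (K : ℝ) ^ 2 + 32))
      ≤ (2 * K + 1) ^ 2 * (δ₀ * (3 * (K : ℝ) ^ 2 + 32)) :=
    mul_le_mul_of_nonneg_right c1 (by positivity)
  nlinarith

/-- **NEUT, form for the consumer.** Input: (near) the quadratic form of `M` on cell functions
supported in two boxes at distance at most `K` is at most `δ₀ |g|²`; (far) the bilinear form on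
bumps at distance larger than `K` is at most `δ₁ |g| |g'|`; (crude) `|M[g,g']| ≤ B |g| |g'|`. -/
theorem neut_win (hN : N = n * (m * l)) {M : Matrix (V N) (V N) ℝ} (hM : Neu M)
    (K : ℕ) {δ₀ δ₁ B : ℝ} (h0 : 0 ≤ δ₀) (h1 : 0 ≤ δ₁) (hB : 0 ≤ B)
    (near : ∀ (w w' : V n) (g : V N → ℝ), tn (w' - w) ≤ K → CC (n * m) l g →
      (∀ x, cx n (m * l) x ≠ w → cx n (m * l) x ≠ w' → g x = 0) → |qf M g| ≤ δ₀ * ∑ x, g x ^ 2)
    (far : ∀ (w w' : V n) (g g' : V N → ℝ), (K : ℝ) < tn (w' - w) →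
      CC (n * m) l g → CC (n * m) l g' →
      (∀ x, cx n (m * l) x ≠ w → g x = 0) → (∀ x, cx n (m * l) x ≠ w' → g' x = 0) →
      |bf M g g'| ≤ δ₁ * (√(∑ x, g x ^ 2) * √(∑ x, g' x ^ 2)))
    (hb : ∀ g g' : V N → ℝ, |bf M g g'| ≤ B * (√(∑ x, g x ^ 2) * √(∑ x, g' x ^ 2)))
    (u : V N → ℝ) :
    |qf M u| ≤ (((m * l : ℕ) : ℝ) ^ 2 * (2 * δ₀ * ((2 * K + 1) ^ 2 * (3 * K ^ 2 + 32))
      + δ₁ * (n ^ 2 * (3 * n ^ 2 + 32))) + 32 * B * l * N) * dirE u := by
  have h2 : 0 ≤ 2 * δ₀ := by linarith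
  have hp : ∀ z : V n, 0 ≤ (if tn z ≤ K then 2 * δ₀ else δ₁) := fun z => by
    split_ifs <;> assumption
  have key := neut hN hM (fun z => if tn z ≤ K then 2 * δ₀ else δ₁) hp ?_ hB hb u
  · refine key.trans (mul_le_mul_of_nonneg_right ?_ (dirE_nonneg u))
    have := sum_prof_le (n := n) K h2 h1
    have q := mul_le_mul_of_nonneg_left this (sq_nonneg (((m * l : ℕ) : ℝ)))
    linarith
  · intro w w' g g' cg cg' sg sg'
    by_cases hz : tn (w' - w) ≤ K
    · rw [if_pos hz]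
      refine bf_le_of_qf hM.sym g g' fun a b => ?_
      refine (near w w' (a • g + b • g') hz ?_ ?_).trans ?_
      · intro x y hxy
        simp only [Pi.add_apply, Pi.smul_apply]
        rw [cg x y hxy, cg' x y hxy]
      · intro x hx hx'
        simp only [Pi.add_apply, Pi.smul_apply, sg x hx, sg' x hx', smul_zero, add_zero]
      · rw [mul_assoc]
        have : ∑ x, (a • g + b • g') x ^ 2
            ≤ 2 * (a ^ 2 * ∑ x, g x ^ 2 + b ^ 2 * ∑ x, g' x ^ 2) := by
          rw [Finset.mul_sum, Finset.mul_sum, ← Finset.sum_add_distrib, Finset.mul_sum]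
          refine Finset.sum_le_sum fun x _ => ?_
          simp only [Pi.add_apply, Pi.smul_apply, smul_eq_mul]
          nlinarith [sq_nonneg (a * g x - b * g' x)]
        calc δ₀ * ∑ x, (a • g + b • g') x ^ 2
            ≤ δ₀ * (2 * (a ^ 2 * ∑ x, g x ^ 2 + b ^ 2 * ∑ x, g' x ^ 2)) :=
              mul_le_mul_of_nonneg_left this h0
          _ = _ := by ring
    · rw [if_neg hz]
      exact far w w' g g' (not_le.1 hz) cg cg' sg sg'

/-- polarisation of the final bound -/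
theorem bf_of_dirE {M : Matrix (V N) (V N) ℝ} (hM : Mᵀ = M) {A : ℝ}
    (h : ∀ u : V N → ℝ, |qf M u| ≤ A * dirE u) (hA : 0 ≤ A) (u v : V N → ℝ) :
    |bf M u v| ≤ A * (√(dirE u) * √(dirE v)) := by
  -- parallelogram identity of the Dirichlet form
  have par : ∀ a b : ℝ, dirE (a • u + b • v) + dirE (a • u - b • v)
      = 2 * (a ^ 2 * dirE u + b ^ 2 * dirE v) := by
    intro a b
    unfold dirE
    rw [← Finset.sum_add_distrib, Finset.mul_sum, Finset.mul_sum, ← Finset.sum_add_distrib,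
      Finset.mul_sum]
    refine Finset.sum_congr rfl fun x _ => ?_
    simp only [Pi.add_apply, Pi.sub_apply, Pi.smul_apply, smul_eq_mul]
    ring
  have key : ∀ a b : ℝ, 4 * (a * b) * bf M u v
      = qf M (a • u + b • v) - qf M (a • u - b • v) := by
    intro a b
    rw [qf_add_vec hM, qf_sub_vec hM, bf_smul_left, bf_smul_right]
    ring
  have key2 : ∀ a b : ℝ, |4 * (a * b) * bf M u v| ≤ 2 * A * (a ^ 2 * dirE u + b ^ 2 * dirE v) := by
    intro a b
    rw [key a b]
    have h1 := h (a • u + b • v)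
    have h2 := h (a • u - b • v)
    have h3 := abs_sub (qf M (a • u + b • v)) (qf M (a • u - b • v))
    have h4 : A * dirE (a • u + b • v) + A * dirE (a • u - b • v)
        = 2 * A * (a ^ 2 * dirE u + b ^ 2 * dirE v) := by
      rw [← mul_add, par]; ring
    linarith
  set U := √(dirE u) with hU
  set W := √(dirE v) with hW
  have hU2 : dirE u = U ^ 2 := (Real.sq_sqrt (dirE_nonneg u)).symm
  have hW2 : dirE v = W ^ 2 := (Real.sq_sqrt (dirE_nonneg v)).symm
  rw [hU2, hW2] at key2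
  have hU0 : 0 ≤ U := Real.sqrt_nonneg _
  have hW0 : 0 ≤ W := Real.sqrt_nonneg _
  -- perturb the scales to avoid the degenerate cases
  have main : ∀ e : ℝ, 0 < e → |bf M u v| ≤ A * ((U + e) * (W + e)) := by
    intro e he
    have h5 := key2 (W + e) (U + e)
    have hAB : 0 < (W + e) * (U + e) := by positivity
    rw [abs_mul, abs_of_pos (by positivity : (0 : ℝ) < 4 * ((W + e) * (U + e)))] at h5
    have h6 : (W + e) ^ 2 * U ^ 2 + (U + e) ^ 2 * W ^ 2 ≤ 2 * ((W + e) * (U + e)) ^ 2 := by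
      have : (W + e) ^ 2 * U ^ 2 ≤ (W + e) ^ 2 * (U + e) ^ 2 :=
        mul_le_mul_of_nonneg_left (pow_le_pow_left₀ hU0 (by linarith) 2) (sq_nonneg _)
      have : (U + e) ^ 2 * W ^ 2 ≤ (U + e) ^ 2 * (W + e) ^ 2 :=
        mul_le_mul_of_nonneg_left (pow_le_pow_left₀ hW0 (by linarith) 2) (sq_nonneg _)
      nlinarith
    have h7 : 4 * ((W + e) * (U + e)) * |bf M u v|
        ≤ 4 * ((W + e) * (U + e)) * (A * ((U + e) * (W + e))) := by
      calc 4 * ((W + e) * (U + e)) * |bf M u v|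
          ≤ 2 * A * ((W + e) ^ 2 * U ^ 2 + (U + e) ^ 2 * W ^ 2) := h5
        _ ≤ 2 * A * (2 * ((W + e) * (U + e)) ^ 2) :=
            mul_le_mul_of_nonneg_left h6 (by positivity)
        _ = _ := by ring
    exact le_of_mul_le_mul_left h7 (by positivity)
  have hlim : Filter.Tendsto (fun e : ℝ => A * ((U + e) * (W + e))) (nhdsWithin 0 (Set.Ioi 0))
      (nhds (A * (U * W))) := by
    have hc : Continuous fun e : ℝ => A * ((U + e) * (W + e)) := by fun_prop
    have h8 := hc.tendsto 0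
    simp only [add_zero] at h8
    exact h8.mono_left nhdsWithin_le_nhds
  exact ge_of_tendsto hlim (eventually_nhdsWithin_of_forall fun e he => main e he)

omit [NeZero l] in
/-- with cells of side one the cell average is the identity -/
lemma Pc_one (u : V N → ℝ) : Pc N 1 u = u := by
  have h : CC N 1 u := by
    intro x y hxy
    have h1 := congrArg Prod.fst hxy
    have h2 := congrArg Prod.snd hxy
    simp only [cx, Nat.div_one, ZMod.natCast_zmod_val] at h1 h2
    rw [Prod.ext h1 h2]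
  exact Pc_of_CC (n := N) (l := 1) (mul_one N).symm h

/-- **NEUT on the cell torus itself** (`N = n m` cells per direction, boxes of `m` cells): no cell
functions, no crude bound. -/
theorem neut_one (hN : N = n * m) {M : Matrix (V N) (V N) ℝ} (hM : Neu M)
    (p : V n → ℝ) (hp : ∀ z, 0 ≤ p z)
    (h : ∀ (w w' : V n) (g g' : V N → ℝ), (∀ x, cx n m x ≠ w → g x = 0) →
      (∀ x, cx n m x ≠ w' → g' x = 0) →
      |bf M g g'| ≤ p (w' - w) * (√(∑ x, g x ^ 2) * √(∑ x, g' x ^ 2)))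
    (u : V N → ℝ) :
    |qf M u| ≤ (m : ℝ) ^ 2 * (∑ z, p z * (3 * tn z ^ 2 + 32)) * dirE u := by
  have hN1 : N = n * (m * 1) := by rw [mul_one, hN]
  have key := neut_cell (n := n) (m := m) (l := 1) hN1 hM p hp
    (fun w w' g g' _ _ sg sg' => h w w' g g' (by simpa only [mul_one] using sg)
      (by simpa only [mul_one] using sg')) u
  have e : Pc (n * m) 1 u = u := by
    rw [← hN]
    exact Pc_one u
  rw [e] at key
  simpa only [mul_one] using key

/-- near/far form of `neut_one` -/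
theorem neut_one_win (hN : N = n * m) {M : Matrix (V N) (V N) ℝ} (hM : Neu M)
    (K : ℕ) {δ₀ δ₁ : ℝ} (h0 : 0 ≤ δ₀) (h1 : 0 ≤ δ₁)
    (near : ∀ (w w' : V n) (g : V N → ℝ), tn (w' - w) ≤ K →
      (∀ x, cx n m x ≠ w → cx n m x ≠ w' → g x = 0) → |qf M g| ≤ δ₀ * ∑ x, g x ^ 2)
    (far : ∀ (w w' : V n) (g g' : V N → ℝ), (K : ℝ) < tn (w' - w) →
      (∀ x, cx n m x ≠ w → g x = 0) → (∀ x, cx n m x ≠ w' → g' x = 0) →
      |bf M g g'| ≤ δ₁ * (√(∑ x, g x ^ 2) * √(∑ x, g' x ^ 2)))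
    (u : V N → ℝ) :
    |qf M u| ≤ (m : ℝ) ^ 2 * (2 * δ₀ * ((2 * K + 1) ^ 2 * (3 * K ^ 2 + 32))
      + δ₁ * (n ^ 2 * (3 * n ^ 2 + 32))) * dirE u := by
  have h2 : 0 ≤ 2 * δ₀ := by linarith
  have hp : ∀ z : V n, 0 ≤ (if tn z ≤ K then 2 * δ₀ else δ₁) := fun z => by
    split_ifs <;> assumption
  have key := neut_one hN hM (fun z => if tn z ≤ K then 2 * δ₀ else δ₁) hp ?_ u
  · refine key.trans (mul_le_mul_of_nonneg_right ?_ (dirE_nonneg u))
    have := sum_prof_le (n := n) K h2 h1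
    exact mul_le_mul_of_nonneg_left this (sq_nonneg (m : ℝ))
  · intro w w' g g' sg sg'
    by_cases hz : tn (w' - w) ≤ K
    · rw [if_pos hz]
      refine bf_le_of_qf hM.sym g g' fun a b => ?_
      refine (near w w' (a • g + b • g') hz ?_).trans ?_
      · intro x hx hx'
        simp only [Pi.add_apply, Pi.smul_apply, sg x hx, sg' x hx', smul_zero, add_zero]
      · rw [mul_assoc]
        have : ∑ x, (a • g + b • g') x ^ 2
            ≤ 2 * (a ^ 2 * ∑ x, g x ^ 2 + b ^ 2 * ∑ x, g' x ^ 2) := by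
          rw [Finset.mul_sum, Finset.mul_sum, ← Finset.sum_add_distrib, Finset.mul_sum]
          refine Finset.sum_le_sum fun x _ => ?_
          simp only [Pi.add_apply, Pi.smul_apply, smul_eq_mul]
          nlinarith [sq_nonneg (a * g x - b * g' x)]
        calc δ₀ * ∑ x, (a • g + b • g') x ^ 2
            ≤ δ₀ * (2 * (a ^ 2 * ∑ x, g x ^ 2 + b ^ 2 * ∑ x, g' x ^ 2)) :=
              mul_le_mul_of_nonneg_left this h0
          _ = _ := by ring
    · rw [if_neg hz]
      exact far w w' g g' (not_le.1 hz) sg sg'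

end main

end torus

end Vale.Agent.P159.H692
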