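import Vale.Agent.P159.H692.Fn3
import Vale.Agent.P159.H462.P2a

/-!
P159, helper692, FN part 4: sixth moments of the noise under the exact law at every source.
-/

namespace Vale.Agent.P159.H692

open Finset Matrix MeasureTheory
open Vale.Agent.P159.TM.H104 (EM Ex Cv Lg li nh Gr)
open Vale.Agent.P159.H37
open Vale.Agent.P159.H663 (ChI Ech_add' Ech_sub' Ech_mono' Ech_dot Ech_sq_le GC)
open Vale.Agent.P159.H159 (GT gt_post egr_Lg egr_Rs egr_shift egr_smul)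
open Vale.Agent.P159.H462 (chm Ech_chm chI_iff chm_prob)

noncomputable section

variable {V : Type*} [Fintype V] {I : Type*} [Fintype I] {μ' : (V → ℤ) → ℝ}

/-- `x⁶ ≤ 720 cosh x` -/
lemma six_le (x : ℝ) : x ^ 6 ≤ 720 * Real.cosh x := by
  have h1 := Real.hasSum_cosh x
  have h2 := le_hasSum h1 3 fun k _ => by
    have : 0 ≤ x ^ (2 * k) := by
      rw [pow_mul]
      positivity
    positivity
  have e : x ^ (2 * 3) / ((2 * 3).factorial : ℝ) = x ^ 6 / 720 := by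
    norm_num [Nat.factorial]
  rw [e] at h2
  linarith

lemma six_add (x m : ℝ) : (x + m) ^ 6 ≤ 32 * (x ^ 6 + m ^ 6) := by
  have h1 : (x + m) ^ 2 ≤ 2 * (x ^ 2 + m ^ 2) := by nlinarith [sq_nonneg (x - m)]
  have h2 : ((x + m) ^ 2) ^ 3 ≤ (2 * (x ^ 2 + m ^ 2)) ^ 3 :=
    pow_le_pow_left₀ (sq_nonneg _) h1 3
  set a := x ^ 2 with ha
  set b := m ^ 2 with hb
  have ha0 : 0 ≤ a := sq_nonneg _
  have hb0 : 0 ≤ b := sq_nonneg _
  have e1 : x ^ 6 = a ^ 3 := by rw [ha]; ring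
  have e2 : m ^ 6 = b ^ 3 := by rw [hb]; ring
  have e3 : (x + m) ^ 6 = ((x + m) ^ 2) ^ 3 := by ring
  rw [e1, e2, e3]
  refine h2.trans ?_
  nlinarith [mul_nonneg (add_nonneg ha0 hb0) (sq_nonneg (a - b))]

lemma egr_pow {Φ : (V → ℝ) → ℝ} (hΦ : EGr Φ) (n : ℕ) : EGr fun J => Φ J ^ n := by
  induction n with
  | zero => simpa using EGr.const (V := V) 1
  | succ n ih =>
    simp only [pow_succ]
    exact ih.mul hΦ

/-- sixth moment around the mean -/
theorem six_centred (hμ : EM μ') (J : V → ℝ) (P : Matrix I V ℝ) (v : V → ℝ) {sig : ℝ}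
    (h0 : 0 < sig)
    (hs : ∀ J, qf (Pᵀ * P) v + qf (Cm μ' J) (Pᵀ *ᵥ (P *ᵥ v)) ≤ sig) :
    Ech μ' J P (fun K => (v ⬝ᵥ K - Ech μ' J P fun K => v ⬝ᵥ K) ^ 6) ≤ 1200 * sig ^ 3 := by
  set m := Ech μ' J P fun K => v ⬝ᵥ K with hm
  set s := (√sig)⁻¹ with hsd
  have hq : 0 < √sig := Real.sqrt_pos.2 h0
  have hs0 : 0 < s := inv_pos.2 hq
  have hss : s ^ 2 * sig = 1 := by
    rw [hsd, inv_pow, Real.sq_sqrt h0.le, inv_mul_cancel₀ h0.ne']
  have h1 := H663.Ech_exp_le hμ J P v hs s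
  have h2 := H663.Ech_exp_le hμ J P v hs (-s)
  rw [← hm] at h1 h2
  have e0 : (-s) ^ 2 = s ^ 2 := by ring
  rw [e0, hss] at h2
  rw [hss] at h1
  have eX : EGr fun K : V → ℝ => v ⬝ᵥ K - m := (H663.EGr.dot v).sub (EGr.const m)
  have eE : ∀ s : ℝ, EGr fun K : V → ℝ => Real.exp (s * (v ⬝ᵥ K - m)) := by
    intro s
    have h3 := (H663.EGr.exp_dot (s • v)).mul (EGr.const (V := V) (Real.exp (-(s * m))))
    refine (funext fun K => ?_ : (fun K => Real.exp (s * (v ⬝ᵥ K - m))) =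
      fun K => Real.exp ((s • v) ⬝ᵥ K) * Real.exp (-(s * m))) ▸ h3
    rw [← Real.exp_add, smul_dotProduct, smul_eq_mul]
    congr 1
    ring
  have h3 : Ech μ' J P (fun K => (v ⬝ᵥ K - m) ^ 6) ≤
      Ech μ' J P (fun K => (360 * sig ^ 3) * (Real.exp (s * (v ⬝ᵥ K - m)) +
        Real.exp (-s * (v ⬝ᵥ K - m)))) := by
    refine Ech_mono hμ J P (egr_pow eX 6) (((eE s).add (eE (-s))).cmul _) fun K => ?_
    have h4 := six_le (s * (v ⬝ᵥ K - m))
    rw [Real.cosh_eq] at h4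
    have e1 : (v ⬝ᵥ K - m) ^ 6 = sig ^ 3 * (s * (v ⬝ᵥ K - m)) ^ 6 := by
      have : (s * (v ⬝ᵥ K - m)) ^ 6 = (s ^ 2) ^ 3 * (v ⬝ᵥ K - m) ^ 6 := by ring
      rw [this, ← mul_assoc, ← mul_pow, mul_comm sig, hss, one_pow, one_mul]
    rw [e1, neg_mul]
    have h5 : 0 ≤ sig ^ 3 := by positivity
    nlinarith [mul_le_mul_of_nonneg_left h4 h5]
  rw [Ech_cmul, Ech_add hμ J P (eE s) (eE (-s))] at h3
  have h6 : Real.exp (1 / 2 : ℝ) ≤ 5 / 3 := H663.exp_half_lt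
  have h7 : 0 ≤ 360 * sig ^ 3 := by positivity
  have h8 := mul_le_mul_of_nonneg_left (add_le_add (h1.trans h6) (h2.trans h6)) h7
  linarith

/-- **sixth moments of the noise under the exact law** -/
theorem m6_exact (hμ : EM μ') (P : Matrix I V ℝ) (J : V → ℝ) {σ₀ m₀ : ℝ} (hσ : 0 < σ₀)
    (hm0 : 0 ≤ m₀)
    (hs : ∀ (v J' : V → ℝ), qf (Pᵀ * P) v + qf (Cm μ' J') (Pᵀ *ᵥ (P *ᵥ v)) ≤ σ₀ * ∑ x, v x ^ 2)
    (hm : ∀ v : V → ℝ, Ex μ' J (li (Pᵀ *ᵥ (P *ᵥ v))) ^ 2 ≤ m₀ * ∑ x, v x ^ 2) :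
    M6 ((chm μ' J P).map fun g => Pᵀ *ᵥ g) (34 * σ₀ + 4 * m₀) := by
  have hmap : Measurable fun g : I → ℝ => Pᵀ *ᵥ g := by
    refine measurable_pi_lambda _ fun x => ?_
    simp only [mulVec, dotProduct]
    fun_prop
  have e6 : ∀ v : V → ℝ, EGr fun K : V → ℝ => (v ⬝ᵥ (K - J)) ^ 6 := fun v =>
    egr_pow (egr_sub_right (H663.EGr.dot v) J) 6
  have m6 : ∀ v : V → ℝ, Measurable fun z : V → ℝ => (v ⬝ᵥ z) ^ 6 := fun v =>
    (meas_dot v).pow_const 6
  refine ⟨by positivity, fun v => ?_, fun v => ?_⟩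
  · rw [integrable_map_measure (m6 v).aestronglyMeasurable hmap.aemeasurable]
    have h1 := (chI_iff hμ J P _).1 (ChI.of_EGr hμ J P (e6 v))
    simp only [add_sub_cancel_left] at h1
    exact h1
  · rw [integral_map hmap.aemeasurable (m6 v).aestronglyMeasurable]
    have h1 := Ech_chm hμ J P fun K => (v ⬝ᵥ (K - J)) ^ 6
    simp only [add_sub_cancel_left] at h1
    rw [← h1]
    set S := ∑ x, v x ^ 2 with hS
    have hS0 : 0 ≤ S := Finset.sum_nonneg fun _ _ => sq_nonneg _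
    set m := Ech μ' J P fun K => v ⬝ᵥ K with hmd
    have hmean : m = v ⬝ᵥ J + Ex μ' J (li (Pᵀ *ᵥ (P *ᵥ v))) := by rw [hmd, Ech_dot hμ]
    set d := Ex μ' J (li (Pᵀ *ᵥ (P *ᵥ v))) with hd
    have hd2 := hm v
    rw [← hd, ← hS] at hd2
    have eX : EGr fun K : V → ℝ => (v ⬝ᵥ K - m) ^ 6 :=
      egr_pow ((H663.EGr.dot v).sub (EGr.const m)) 6
    have h2 : Ech μ' J P (fun K => (v ⬝ᵥ (K - J)) ^ 6) ≤
        Ech μ' J P (fun K => 32 * ((v ⬝ᵥ K - m) ^ 6 + d ^ 6)) := by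
      refine Ech_mono hμ J P (e6 v) ((eX.add (EGr.const _)).cmul 32) fun K => ?_
      have e1 : v ⬝ᵥ (K - J) = (v ⬝ᵥ K - m) + d := by
        rw [hmean, dotProduct_sub]
        ring
      rw [e1]
      exact six_add _ _
    rw [Ech_cmul, Ech_add hμ J P eX (EGr.const _), Ech_const hμ] at h2
    -- the degenerate case is covered by a small positive variance
    have h3 : ∀ e : ℝ, 0 < e → Ech μ' J P (fun K => (v ⬝ᵥ K - m) ^ 6) ≤
        1200 * (σ₀ * S + e) ^ 3 := by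
      intro e he
      refine six_centred hμ J P v (by positivity) fun J' => ?_
      have := hs v J'
      linarith
    have h4 : Ech μ' J P (fun K => (v ⬝ᵥ K - m) ^ 6) ≤ 1200 * (σ₀ * S) ^ 3 := by
      have hc : Filter.Tendsto (fun e : ℝ => 1200 * (σ₀ * S + e) ^ 3) (nhdsWithin 0 (Set.Ioi 0))
          (nhds (1200 * (σ₀ * S + 0) ^ 3)) := by
        refine Filter.Tendsto.mono_left ?_ nhdsWithin_le_nhds
        exact Continuous.tendsto (by fun_prop) _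
      rw [add_zero] at hc
      refine ge_of_tendsto hc ?_
      filter_upwards [self_mem_nhdsWithin] with e he
      exact h3 e he
    have h5 : d ^ 6 ≤ (m₀ * S) ^ 3 := by
      have e1 : d ^ 6 = (d ^ 2) ^ 3 := by ring
      rw [e1]
      exact pow_le_pow_left₀ (sq_nonneg _) hd2 3
    have h6 : ((34 * σ₀ + 4 * m₀) * S) ^ 3 ≥ 39304 * (σ₀ * S) ^ 3 + 64 * (m₀ * S) ^ 3 := by
      set a := σ₀ * S with ha
      set b := m₀ * S with hb
      have ha0 : 0 ≤ a := by positivity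
      have hb0 : 0 ≤ b := by positivity
      have e1 : ((34 * σ₀ + 4 * m₀) * S) ^ 3 = (34 * a + 4 * b) ^ 3 := by
        rw [ha, hb]
        ring
      rw [e1]
      have h7 : 0 ≤ a ^ 2 * b := by positivity
      have h8 : 0 ≤ a * b ^ 2 := by positivity
      nlinarith
    have h7 : 0 ≤ (σ₀ * S) ^ 3 := by positivity
    have h8 : 0 ≤ (m₀ * S) ^ 3 := by positivity
    linarith

/-- `η` as an integral with respect to the law of the noise -/
theorem eta_eq (hμ : EM μ') (P : Matrix I V ℝ) (J : V → ℝ) :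
    eta μ' P J = ∫ z, Rs (post μ' P) ((2 : ℝ) • z) ∂((chm μ' J P).map fun g => Pᵀ *ᵥ g) := by
  have hp := em_post hμ P
  have hmap : Measurable fun g : I → ℝ => Pᵀ *ᵥ g := by
    refine measurable_pi_lambda _ fun x => ?_
    simp only [mulVec, dotProduct]
    fun_prop
  have hm : Measurable fun z : V → ℝ => Rs (post μ' P) ((2 : ℝ) • z) :=
    (continuous_Rs hp).measurable.comp (measurable_const_smul _)
  rw [integral_map hmap.aemeasurable hm.aestronglyMeasurable]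
  unfold eta
  rw [Ech_chm hμ]
  simp only [add_sub_cancel_left]

end

end Vale.Agent.P159.H692
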