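import Vale.Agent.P159.H663.Propag
import Vale.Agent.P159.H789.Ray
import Vale.Agent.P159.H159.Grow

/-!
P159, helper692: LOWERING A MASS IN ONE STEP.
`μ'` prior, `μ = post μ' P` posterior, `S = Pᵀ P`, law of the source of the posterior `Ech μ' J P`.
`Lg_gibbs` : `log Z'(J) - log Z'(0) ≤ E_J [log Z(K) - log Z(K - J)]`;
`Lg_mass_mono` : `log Z(J) - log Z(0) ≤ log Z'(J) - log Z'(0)`;
`fb_Lg`, `fb` : with `η = E_J R(2 (K - J))`,
`R'(J) ≤ R(J) + (R(2J) + 1) η + √(2 (e^{T(J)} - 1)) √η + <m'(J), S m(J)>`.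
`raise` : `R(K) ≤ R'(J) + (qf G' J - <K, G J>) / 2`, `J = K - S G K`: raising a mass costs nothing.
-/

namespace Vale.Agent.P159.H692

open Finset Matrix MeasureTheory
open Vale.Agent.P159.TM.H104 (EM Ex Cv Lg li nh Gr)
open Vale.Agent.P159.H37
open Vale.Agent.P159.H663 (ChI Ech_add' Ech_sub' Ech_mono' Ech_dot Ech_sq_le GC)
open Vale.Agent.P159.H159 (GT gt_post egr_Lg egr_Rs egr_shift egr_smul)

noncomputable section

variable {V : Type*} [Fintype V] {I : Type*} [Fintype I] {μ' : (V → ℤ) → ℝ}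

lemma Lg_def (μ : (V → ℤ) → ℝ) (J : V → ℝ) : Lg μ J = Real.log (Zs μ J) := rfl

lemma exp_Lg' {μ : (V → ℤ) → ℝ} (hμ : EM μ) (J : V → ℝ) : Real.exp (Lg μ J) = Zs μ J := by
  rw [Lg_def, Real.exp_log (Zs_pos hμ J)]

/-- shifts of functionals of exponential growth -/
lemma egr_sub_right {Φ : (V → ℝ) → ℝ} (hΦ : EGr Φ) (a : V → ℝ) :
    EGr fun J : V → ℝ => Φ (J - a) := by
  have h := egr_shift hΦ (-a)
  refine (funext fun J => ?_ : (fun J => Φ (J - a)) = fun J => Φ (-a + J)) ▸ h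
  congr 1
  abel

/-- **Gibbs** -/
theorem Lg_gibbs (hμ : EM μ') (hG : GT μ') (P : Matrix I V ℝ) (J : V → ℝ) :
    Lg μ' J - Lg μ' 0 ≤
      Ech μ' J P fun K => Lg (post μ' P) K - Lg (post μ' P) (K - J) := by
  have hp := em_post hμ P
  have hGp := gt_post hμ.nn hG P
  set μ := post μ' P with hμd
  set Φ : (V → ℝ) → ℝ := fun K => Lg μ K - Lg μ (K - J) with hΦ
  have eΦ : EGr Φ := (egr_Lg hp hGp).sub (egr_sub_right (egr_Lg hp hGp) J)
  set a := Ech μ' J P Φ with ha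
  have h0 := ch_norm hμ 0 P
  have h1 := ch_norm hμ J P
  have i1 := ch_int hμ J P eΦ
  have i2 := ch_int hμ J P (EGr.const (V := V) 1)
  have i0 := ch_int hμ 0 P (EGr.const (V := V) 1)
  simp only [one_mul] at i2 i0
  have ha' : ∫ g, Φ (J + Pᵀ *ᵥ g) * Zs μ (J + Pᵀ *ᵥ g) ∂(gau I) = a * Zs μ' J := by
    rw [ha]
    unfold Ech
    rw [h1, div_mul_cancel₀ _ (Zs_pos hμ J).ne']
  have key : Real.exp (-a) * Zs μ' J ≤ Zs μ' 0 := by
    rw [← h0, ← h1]
    have h2 : Real.exp (-a) * ∫ g, Zs μ (J + Pᵀ *ᵥ g) ∂(gau I) =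
        ∫ g, (Real.exp (-a) * (1 + a) * Zs μ (J + Pᵀ *ᵥ g) -
          Real.exp (-a) * (Φ (J + Pᵀ *ᵥ g) * Zs μ (J + Pᵀ *ᵥ g))) ∂(gau I) := by
      rw [integral_sub (i2.const_mul _) (i1.const_mul _), integral_const_mul, integral_const_mul,
        ha', ← h1]
      ring
    rw [h2]
    refine integral_mono ((i2.const_mul _).sub (i1.const_mul _)) i0 fun g => ?_
    simp only [zero_add]
    have hz := Zs_pos hp (J + Pᵀ *ᵥ g)
    have e1 : Zs μ (Pᵀ *ᵥ g) = Real.exp (-Φ (J + Pᵀ *ᵥ g)) * Zs μ (J + Pᵀ *ᵥ g) := by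
      rw [hΦ]
      simp only
      rw [add_sub_cancel_left, ← exp_Lg' hp (Pᵀ *ᵥ g), ← exp_Lg' hp (J + Pᵀ *ᵥ g),
        ← Real.exp_add]
      congr 1
      ring
    rw [e1]
    have h3 : Real.exp (-a) * (1 + a) - Real.exp (-a) * Φ (J + Pᵀ *ᵥ g) ≤
        Real.exp (-Φ (J + Pᵀ *ᵥ g)) := by
      have h4 := Real.add_one_le_exp (a - Φ (J + Pᵀ *ᵥ g))
      have h5 := mul_le_mul_of_nonneg_left h4 (Real.exp_pos (-a)).le
      rw [← Real.exp_add] at h5
      have e2 : -a + (a - Φ (J + Pᵀ *ᵥ g)) = -Φ (J + Pᵀ *ᵥ g) := by ring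
      rw [e2] at h5
      linarith
    have h6 := mul_le_mul_of_nonneg_right h3 hz.le
    linarith
  have h3 : Real.log (Real.exp (-a) * Zs μ' J) ≤ Real.log (Zs μ' 0) :=
    Real.log_le_log (mul_pos (Real.exp_pos _) (Zs_pos hμ J)) key
  rw [Real.log_mul (Real.exp_pos _).ne' (Zs_pos hμ J).ne', Real.log_exp] at h3
  rw [Lg_def, Lg_def]
  linarith

/-- **the free energy grows when the mass is lowered** -/
theorem Lg_mass_mono (hμ : EM μ') (hG : GT μ') (hE : Ev μ') (P : Matrix I V ℝ)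
    (hK : PK (post μ' P)) (J : V → ℝ) :
    Lg (post μ' P) J - Lg (post μ' P) 0 ≤ Lg μ' J - Lg μ' 0 := by
  have hp := em_post hμ P
  have hep := ev_post hE P
  have hGp := gt_post hμ.nn hG P
  set μ := post μ' P with hμd
  set a := Lg μ J - Lg μ 0 with ha
  have h0 := ch_norm hμ 0 P
  have h1 := ch_norm hμ J P
  have i2 := ch_int hμ J P (EGr.const (V := V) 1)
  have i0 := ch_int hμ 0 P (EGr.const (V := V) 1)
  simp only [one_mul] at i2 i0
  -- reflection of the noise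
  have e1 : ∫ g, Zs μ (J - Pᵀ *ᵥ g) ∂(gau I) = ∫ g, Zs μ (J + Pᵀ *ᵥ g) ∂(gau I) := by
    rw [← gau_integral_neg fun g => Zs μ (J + Pᵀ *ᵥ g)]
    refine integral_congr_ae (Filter.Eventually.of_forall fun g => ?_)
    simp only [mulVec_neg, ← sub_eq_add_neg]
  have i3 : Integrable (fun g : I → ℝ => Zs μ (J - Pᵀ *ᵥ g)) (gau I) := by
    have h2 : ∀ g : I → ℝ, Zs μ (J - Pᵀ *ᵥ g) = Zs μ (-J + Pᵀ *ᵥ g) := fun g => by
      rw [← Zs_neg hep]
      congr 1
      abel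
    simp only [h2]
    have := ch_int hμ (-J) P (EGr.const (V := V) 1)
    simp only [one_mul] at this
    exact this
  have key : Real.exp a * Zs μ' 0 ≤ Zs μ' J := by
    rw [← h0, ← h1]
    have h2 : ∫ g, Zs μ (J + Pᵀ *ᵥ g) ∂(gau I) =
        ∫ g, (1 / 2 : ℝ) * (Zs μ (J + Pᵀ *ᵥ g) + Zs μ (J - Pᵀ *ᵥ g)) ∂(gau I) := by
      rw [integral_const_mul, integral_add i2 i3, e1]
      ring
    rw [h2, ← integral_const_mul]
    refine integral_mono (i0.const_mul _) ((i2.add i3).const_mul _) fun g => ?_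
    simp only [zero_add]
    have h3 := H789.Lg_par hp hep hK J (Pᵀ *ᵥ g)
    rw [← exp_Lg' hp (J + Pᵀ *ᵥ g), ← exp_Lg' hp (J - Pᵀ *ᵥ g), ← exp_Lg' hp (Pᵀ *ᵥ g),
      ← Real.exp_add]
    set x := Lg μ (J + Pᵀ *ᵥ g) with hx
    set y := Lg μ (J - Pᵀ *ᵥ g) with hy
    have h4 : a + Lg μ (Pᵀ *ᵥ g) ≤ (x + y) / 2 := by
      rw [ha]
      linarith
    refine (Real.exp_le_exp.2 h4).trans ?_
    have h5 : Real.exp ((x + y) / 2) = Real.exp (x / 2) * Real.exp (y / 2) := by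
      rw [← Real.exp_add]
      congr 1
      ring
    have h6 : Real.exp x = Real.exp (x / 2) ^ 2 := by
      rw [← Real.exp_nat_mul]
      congr 1
      push_cast
      ring
    have h7 : Real.exp y = Real.exp (y / 2) ^ 2 := by
      rw [← Real.exp_nat_mul]
      congr 1
      push_cast
      ring
    rw [h5, h6, h7]
    nlinarith [sq_nonneg (Real.exp (x / 2) - Real.exp (y / 2))]
  have h3 : Real.log (Real.exp a * Zs μ' 0) ≤ Real.log (Zs μ' J) :=
    Real.log_le_log (mul_pos (Real.exp_pos _) (Zs_pos hμ 0)) key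
  rw [Real.log_mul (Real.exp_pos _).ne' (Zs_pos hμ 0).ne', Real.log_exp] at h3
  rw [Lg_def μ' J, Lg_def μ' 0]
  linarith

/-- **the covariance grows when the mass is lowered** -/
theorem qf_mass_mono (hμ : EM μ') (P : Matrix I V ℝ) (hK : GC (post μ' P)) (u : V → ℝ) :
    qf (Gm (post μ' P)) u ≤ qf (Gm μ') u := by
  have hp := em_post hμ P
  have h := H663.tot_lin hμ 0 P u 0 u 0
  simp only [mulVec_zero, sub_zero] at h
  have h1 : Ech μ' 0 P (fun _ => qf (Gm (post μ' P)) u) ≤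
      Ech μ' 0 P (fun J => Cv (post μ' P) J (li u) (li u)) := by
    refine Ech_mono' hμ (ChI.of_EGr hμ 0 P (EGr.const _))
      (ChI.of_Cv hμ 0 P (Gr.li u) (Gr.li u)) fun J => ?_
    rw [← H789.qf_Cm hp]
    exact hK J u
  rw [Ech_const hμ] at h1
  have h2 := Ech_sq_le hμ 0 P (ChI.of_sc hμ 0 P u 0) (by
    simp only [sq]
    exact ChI.of_sc_mul hμ 0 P _ _ _ _)
  have h3 : bf (Pᵀ * P) (0 : V → ℝ) 0 = 0 := by simp [bf]
  have h4 : qf (Gm μ') u = Cv μ' 0 (li u) (li u) := H789.qf_Gm hμ u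
  rw [h3, add_zero, ← h4] at h
  simp only [← sq] at h
  linarith

/-! ### the pointwise inequality -/

/-- the gradient of `R` as a vector -/
def gR (μ : (V → ℤ) → ℝ) (J : V → ℝ) : V → ℝ := mn μ J - Gm μ *ᵥ J

lemma gR_dot {μ : (V → ℤ) → ℝ} (hμ : EM μ) (J z : V → ℝ) :
    gR μ J ⬝ᵥ z = Ex μ J (li z) - bf (Gm μ) z J := by
  unfold gR
  rw [sub_dotProduct, H789.Ex_li hμ, bf_eq, dotProduct_comm (Gm μ *ᵥ J) z]
  congr 1
  unfold mn dotProduct
  exact Finset.sum_congr rfl fun x _ => mul_comm _ _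

/-- tangent inequality of `R` -/
theorem Rs_tangent {μ : (V → ℤ) → ℝ} (hμ : EM μ) (he : Ev μ) (hK : PK μ) (J z : V → ℝ) :
    Rs μ J + gR μ J ⬝ᵥ z ≤ Rs μ (J + z) := by
  have hc : ConvexOn ℝ Set.univ fun s : ℝ => Rs μ (J + s • z) := by
    refine ⟨convex_univ, fun x _ y _ a b ha hb hab => ?_⟩
    have h := (H789.Rs_convex hμ he hK).2 (Set.mem_univ (J + x • z)) (Set.mem_univ (J + y • z))
      ha hb hab
    have e : a • (J + x • z) + b • (J + y • z) = J + (a • x + b • y) • z := by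
      have ha' : a = 1 - b := by linarith
      subst ha'
      simp only [smul_eq_mul]
      module
    rw [e] at h
    exact h
  have hd := H789.hasDerivAt_Rs hμ J z 0
  have h1 := hc.le_slope_of_hasDerivAt (Set.mem_univ (0 : ℝ)) (Set.mem_univ (1 : ℝ))
    zero_lt_one hd
  rw [slope_def_field] at h1
  simp only [zero_smul, add_zero, one_smul, sub_zero, div_one] at h1
  rw [gR_dot hμ]
  linarith

/-- half of the argument -/
lemma Rs_le_half_two {μ : (V → ℤ) → ℝ} (hμ : EM μ) (he : Ev μ) (hK : PK μ) (z : V → ℝ) :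
    Rs μ z ≤ Rs μ ((2 : ℝ) • z) / 2 := by
  have h := H789.Tq_nonneg hμ he hK z
  rw [H789.Tq_eq] at h
  have h2 := H789.Rs_nonneg hμ he hK z
  linarith

/-- midpoint -/
lemma Rs_add_le_two {μ : (V → ℤ) → ℝ} (hμ : EM μ) (he : Ev μ) (hK : PK μ) (x y : V → ℝ) :
    Rs μ (x + y) ≤ Rs μ ((2 : ℝ) • x) / 2 + Rs μ ((2 : ℝ) • y) / 2 := by
  have h := (H789.Rs_convex hμ he hK).2 (Set.mem_univ ((2 : ℝ) • x)) (Set.mem_univ ((2 : ℝ) • y))
    (show (0 : ℝ) ≤ 1 / 2 by norm_num) (show (0 : ℝ) ≤ 1 / 2 by norm_num) (by norm_num)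
  have e : (1 / 2 : ℝ) • ((2 : ℝ) • x) + (1 / 2 : ℝ) • ((2 : ℝ) • y) = x + y := by module
  rw [e] at h
  simp only [smul_eq_mul] at h
  linarith

/-- **the pointwise inequality** -/
theorem fb_point {μ : (V → ℤ) → ℝ} (hμ : EM μ) (he : Ev μ) (hK : PK μ) (J z : V → ℝ) :
    Rs μ (J + z) - Rs μ z ≤ Rs μ J + (Rs μ ((2 : ℝ) • J) + 1) * Rs μ ((2 : ℝ) • z) +
      √(2 * (Real.exp (Tq μ J) - 1)) * √(Rs μ ((2 : ℝ) • z)) + gR μ J ⬝ᵥ z := by
  have hz := H789.Rs_nonneg hμ he hK z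
  have hz2 := H789.Rs_nonneg hμ he hK ((2 : ℝ) • z)
  have hJ := H789.Rs_nonneg hμ he hK J
  have hJ2 := H789.Rs_nonneg hμ he hK ((2 : ℝ) • J)
  have hzh := Rs_le_half_two hμ he hK z
  have hT0 := H789.Tq_nonneg hμ he hK J
  have hs : 0 ≤ √(2 * (Real.exp (Tq μ J) - 1)) * √(Rs μ ((2 : ℝ) • z)) := by positivity
  have ht := Rs_tangent hμ he hK J (-z)
  rw [dotProduct_neg] at ht
  rcases le_or_gt (Rs μ ((2 : ℝ) • z)) 1 with h1 | h1
  · -- good case
    have hm := H789.met2 hμ he hK J z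
    set X := Rs μ (J + z) + Rs μ (J - z) - 2 * Rs μ J - 2 * Rs μ z with hX
    have hTz : Tq μ z ≤ Rs μ ((2 : ℝ) • z) := by
      rw [H789.Tq_eq]
      linarith
    have hTz0 := H789.Tq_nonneg hμ he hK z
    have h2 : Real.exp (Tq μ z) - 1 ≤ 2 * Rs μ ((2 : ℝ) • z) := by
      refine (sub_le_sub_right (Real.exp_le_exp.2 hTz) 1).trans ?_
      exact H789.exp_sub_one_le_two hz2 h1
    have h3 : 0 ≤ Real.exp (Tq μ J) - 1 := by
      have := Real.add_one_le_exp (Tq μ J)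
      linarith
    have h4 : X ≤ √(2 * (Real.exp (Tq μ J) - 1)) * √(Rs μ ((2 : ℝ) • z)) := by
      rcases le_or_gt 0 X with h6 | h6
      · rw [← Real.sqrt_mul (by positivity)]
        refine Real.le_sqrt_of_sq_le ?_
        have h5 := Real.add_one_le_exp X
        calc X ^ 2 ≤ (Real.exp X - 1) ^ 2 := pow_le_pow_left₀ h6 (by linarith) 2
          _ ≤ _ := hm
          _ ≤ (Real.exp (Tq μ J) - 1) * (2 * Rs μ ((2 : ℝ) • z)) :=
            mul_le_mul_of_nonneg_left h2 h3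
          _ = _ := by ring
      · linarith
    have e : J + -z = J - z := (sub_eq_add_neg J z).symm
    rw [e] at ht
    nlinarith [mul_nonneg hJ2 hz2]
  · have h2 := Rs_add_le_two hμ he hK J z
    have h3 := Rs_add_le_two hμ he hK J (-z)
    have e2 : (2 : ℝ) • (-z) = -((2 : ℝ) • z) := by module
    rw [e2, H789.Rs_neg he] at h3
    nlinarith [mul_nonneg hJ2 (sub_nonneg.2 h1.le)]

/-! ### in the mean -/

omit [Fintype V] in
lemma sqrt_le_add_one (x : ℝ) : √x ≤ |x| + 1 := by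
  rcases le_or_gt x 0 with h | h
  · rw [Real.sqrt_eq_zero_of_nonpos h]
    positivity
  · rw [abs_of_pos h, Real.sqrt_le_left (by linarith)]
    nlinarith

lemma egr_sqrt {Φ : (V → ℝ) → ℝ} (hΦ : EGr Φ) : EGr fun J => √(Φ J) := by
  obtain ⟨C, hC, h⟩ := hΦ.bdd
  refine EGr.mk' (hΦ.meas.sqrt) (A := C + 1) (B := C) fun J => ?_
  rw [abs_of_nonneg (Real.sqrt_nonneg _)]
  refine (sqrt_le_add_one _).trans ?_
  have h1 : 1 ≤ Real.exp (C * ∑ x, |J x|) := by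
    refine Real.one_le_exp (mul_nonneg hC (Finset.sum_nonneg fun _ _ => abs_nonneg _))
  have h2 := h J
  linarith

lemma ech_sqrt_le (hμ : EM μ') (P : Matrix I V ℝ) (J : V → ℝ) {Φ : (V → ℝ) → ℝ} (hΦ : EGr Φ)
    (h0 : ∀ K, 0 ≤ Φ K) : Ech μ' J P (fun K => √(Φ K)) ≤ √(Ech μ' J P Φ) := by
  have h1 := Ech_sq_le hμ J P (ChI.of_EGr hμ J P (egr_sqrt hΦ)) (by
    simp only [Real.sq_sqrt (h0 _)]
    exact ChI.of_EGr hμ J P hΦ)
  simp only [Real.sq_sqrt (h0 _)] at h1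
  exact Real.le_sqrt_of_sq_le h1

/-- expectation of the noise in the direction `v` -/
lemma ech_noise (hμ : EM μ') (P : Matrix I V ℝ) (J v : V → ℝ) :
    Ech μ' J P (fun K => v ⬝ᵥ (K - J)) = Ex μ' J (li (Pᵀ *ᵥ (P *ᵥ v))) := by
  have h1 := Ech_sub' (ChI.of_EGr hμ J P (H663.EGr.dot v)) (ChI.of_EGr hμ J P (EGr.const (v ⬝ᵥ J)))
  simp only [← dotProduct_sub] at h1
  rw [h1, Ech_dot hμ, Ech_const hμ]
  ring

/-- `η(J)`: the mean of `R(2 ·)` at the noise, exact law at the source `J` -/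
def eta (μ' : (V → ℤ) → ℝ) (P : Matrix I V ℝ) (J : V → ℝ) : ℝ :=
  Ech μ' J P fun K => Rs (post μ' P) ((2 : ℝ) • (K - J))

/-- **LOWERING IN ONE STEP, free energies** -/
theorem fb_Lg (hμ : EM μ') (hG : GT μ') (hE : Ev μ') (P : Matrix I V ℝ)
    (hK : PK (post μ' P)) (J : V → ℝ) :
    Lg μ' J - Lg μ' 0 ≤ Lg (post μ' P) J - Lg (post μ' P) 0 +
      (Rs (post μ' P) ((2 : ℝ) • J) + 1) * eta μ' P J +
      √(2 * (Real.exp (Tq (post μ' P) J) - 1)) * √(eta μ' P J) +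
      Ex μ' J (li (Pᵀ *ᵥ (P *ᵥ mn (post μ' P) J))) := by
  have hp := em_post hμ P
  have hep := ev_post hE P
  have hGp := gt_post hμ.nn hG P
  have hgib := Lg_gibbs hμ hG P J
  unfold eta
  set μ := post μ' P with hμd
  set A := Rs μ ((2 : ℝ) • J) + 1 with hA
  set B := √(2 * (Real.exp (Tq μ J) - 1)) with hB
  have eR2 : EGr fun K : V → ℝ => Rs μ ((2 : ℝ) • (K - J)) :=
    egr_sub_right (egr_smul (egr_Rs hp hGp) 2) J
  have eS := egr_sqrt eR2
  have eL : EGr fun K : V → ℝ => mn μ J ⬝ᵥ (K - J) := egr_sub_right (H663.EGr.dot _) J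
  have eΦ : EGr fun K : V → ℝ => Lg μ K - Lg μ (K - J) :=
    (egr_Lg hp hGp).sub (egr_sub_right (egr_Lg hp hGp) J)
  have hle : Ech μ' J P (fun K => Lg μ K - Lg μ (K - J)) ≤
      Ech μ' J P (fun K => (((Lg μ J - Lg μ 0) + A * Rs μ ((2 : ℝ) • (K - J))) +
        B * √(Rs μ ((2 : ℝ) • (K - J)))) + mn μ J ⬝ᵥ (K - J)) := by
    refine Ech_mono hμ J P eΦ ((((EGr.const _).add (eR2.cmul A)).add (eS.cmul B)).add eL)
      fun K => ?_
    have h1 := fb_point hp hep hK J (K - J)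
    have e1 : J + (K - J) = K := by abel
    rw [e1] at h1
    have h2 : Lg μ K - Lg μ (K - J) = (Rs μ K - Rs μ (K - J)) + qf (Gm μ) J / 2 +
        (Gm μ *ᵥ J) ⬝ᵥ (K - J) := by
      have h3 := qf_add_vec (H789.Cm_symm μ 0) J (K - J)
      rw [e1] at h3
      have h4 : bf (Cm μ 0) J (K - J) = (Gm μ *ᵥ J) ⬝ᵥ (K - J) := by
        rw [bf_comm (H789.Cm_symm μ 0), bf_eq, dotProduct_comm]
        rfl
      unfold Rs
      rw [← h4]
      change _ = _ at h3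
      unfold Gm
      linarith
    have h5 : mn μ J ⬝ᵥ (K - J) = gR μ J ⬝ᵥ (K - J) + (Gm μ *ᵥ J) ⬝ᵥ (K - J) := by
      unfold gR
      rw [← add_dotProduct, sub_add_cancel]
    have h6 : Lg μ J - Lg μ 0 = Rs μ J + qf (Gm μ) J / 2 := by
      unfold Rs
      ring
    rw [h2, h5, h6, hA, hB]
    linarith
  rw [Ech_add hμ J P (((EGr.const _).add (eR2.cmul A)).add (eS.cmul B)) eL,
    Ech_add hμ J P ((EGr.const _).add (eR2.cmul A)) (eS.cmul B),
    Ech_add hμ J P (EGr.const _) (eR2.cmul A), Ech_const hμ, Ech_cmul, Ech_cmul,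
    ech_noise hμ] at hle
  have h7 := ech_sqrt_le hμ P J eR2 fun K => H789.Rs_nonneg hp hep hK _
  have h8 := mul_le_mul_of_nonneg_left h7 (Real.sqrt_nonneg (2 * (Real.exp (Tq μ J) - 1)))
  rw [← hB] at h8
  linarith

/-- **LOWERING IN ONE STEP** -/
theorem fb (hμ : EM μ') (hG : GT μ') (hE : Ev μ') (P : Matrix I V ℝ)
    (hK : PK (post μ' P)) (J : V → ℝ) :
    Rs μ' J ≤ Rs (post μ' P) J +
      (Rs (post μ' P) ((2 : ℝ) • J) + 1) * eta μ' P J +
      √(2 * (Real.exp (Tq (post μ' P) J) - 1)) * √(eta μ' P J) +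
      Ex μ' J (li (Pᵀ *ᵥ (P *ᵥ mn (post μ' P) J))) := by
  have hp := em_post hμ P
  have hep := ev_post hE P
  have h1 := fb_Lg hμ hG hE P hK J
  have h2 := qf_mass_mono hμ P (fun J u => H789.qf_mono hp hep hK J u) J
  have h3 : Rs μ' J = Lg μ' J - Lg μ' 0 - qf (Gm μ') J / 2 := rfl
  have h4 : Rs (post μ' P) J = Lg (post μ' P) J - Lg (post μ' P) 0 - qf (Gm (post μ' P)) J / 2 :=
    rfl
  linarith

/-- **RAISING A MASS**: for every direction, `R(K)` of the posterior against the prior. If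
`J = K - Pᵀ P G K`, `G` the posterior covariance (`K = B J`), then
`R_post(K) ≤ R_prior(J) + (qf G' J - <K, G J>) / 2` -/
theorem raise (hμ : EM μ') (hE : Ev μ') (P : Matrix I V ℝ)
    (hK : PK (post μ' P)) {J K : V → ℝ} (hJ : J = K - Pᵀ *ᵥ (P *ᵥ (Gm (post μ' P) *ᵥ K))) :
    Rs (post μ' P) K ≤ Rs μ' J + (qf (Gm μ') J - bf (Gm (post μ' P)) K J) / 2 := by
  have hp := em_post hμ P
  have hep := ev_post hE P
  set μ := post μ' P with hμd
  set w : V → ℝ := -(Gm μ *ᵥ K) with hw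
  set a : I → ℝ := P *ᵥ w with ha
  have h0 := ch_norm hμ 0 P
  have h1 := ch_norm hμ J P
  have i0 := ch_int hμ 0 P (EGr.const (V := V) 1)
  simp only [one_mul] at i0
  -- the shifted integrand
  have hag : ∀ g : I → ℝ, ∑ i, a i * g i = w ⬝ᵥ (Pᵀ *ᵥ g) := fun g => by
    rw [dotProduct_mulVec, vecMul_transpose]
    rfl
  set W : (I → ℝ) → ℝ := fun g => Real.exp (w ⬝ᵥ (Pᵀ *ᵥ g)) * Zs μ (K + Pᵀ *ᵥ g) with hW
  have iW : Integrable W (gau I) := by
    have e1 : EGr fun J' : V → ℝ => Real.exp (w ⬝ᵥ (J' - K)) :=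
      egr_sub_right (H663.EGr.exp_dot w) K
    have h2 := ch_int hμ K P e1
    simp only [add_sub_cancel_left] at h2
    exact h2
  have hshift : ∫ g, W g ∂(gau I) = Real.exp (qf (Pᵀ * P) w / 2) * Zs μ' J := by
    have h2 := gau_exp_mul a fun g => Zs μ (K + Pᵀ *ᵥ g)
    simp only [hag] at h2
    rw [hW, h2, ← h1, qf_gram]
    congr 1
    refine integral_congr_ae (Filter.Eventually.of_forall fun g => ?_)
    simp only
    congr 1
    rw [mulVec_add, hJ, ha, hw, mulVec_neg, mulVec_neg]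
    abel
  have iWn : Integrable (fun g => W (-g)) (gau I) :=
    (gau_neg.integrable_comp_emb (MeasurableEquiv.neg (I → ℝ)).measurableEmbedding).2 iW
  have hWn : ∫ g, W (-g) ∂(gau I) = ∫ g, W g ∂(gau I) := gau_integral_neg W
  set A := Rs μ K + qf (Gm μ) K / 2 with hA
  have key : Real.exp A * Zs μ' 0 ≤ Real.exp (qf (Pᵀ * P) w / 2) * Zs μ' J := by
    rw [← hshift, ← h0]
    have h2 : ∫ g, W g ∂(gau I) = ∫ g, (1 / 2 : ℝ) * (W g + W (-g)) ∂(gau I) := by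
      rw [integral_const_mul, integral_add iW iWn, hWn]
      ring
    rw [h2, ← integral_const_mul]
    refine integral_mono (i0.const_mul _) ((iW.add iWn).const_mul _) fun g => ?_
    simp only [zero_add, hW, mulVec_neg, dotProduct_neg]
    set z := Pᵀ *ᵥ g with hz
    have hpar := H789.Rs_par hp hep hK K z
    rw [← sub_eq_add_neg, ← exp_Lg' hp z, ← exp_Lg' hp (K + z), ← exp_Lg' hp (K - z),
      ← Real.exp_add, ← Real.exp_add, ← Real.exp_add]
    have hwz : w ⬝ᵥ z = -bf (Gm μ) K z := by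
      rw [hw, neg_dotProduct, dotProduct_comm, ← bf_eq, bf_comm (H663.Gm_symm μ)]
    have q1 := qf_add_vec (H789.Cm_symm μ 0) K z
    have q2 := qf_sub_vec (H789.Cm_symm μ 0) K z
    have e1 : w ⬝ᵥ z + Lg μ (K + z) = Lg μ 0 + qf (Gm μ) K / 2 + qf (Gm μ) z / 2 +
        Rs μ (K + z) := by
      rw [hwz]
      unfold Rs Gm
      rw [q1]
      ring
    have e2 : -(w ⬝ᵥ z) + Lg μ (K - z) = Lg μ 0 + qf (Gm μ) K / 2 + qf (Gm μ) z / 2 +
        Rs μ (K - z) := by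
      rw [hwz]
      unfold Rs Gm
      rw [q2]
      ring
    have e3 : A + Lg μ z = Lg μ 0 + qf (Gm μ) K / 2 + qf (Gm μ) z / 2 + (Rs μ K + Rs μ z) := by
      rw [hA]
      have : Lg μ z = Rs μ z + Lg μ 0 + qf (Gm μ) z / 2 := by
        unfold Rs
        ring
      rw [this]
      ring
    rw [e1, e2, e3]
    set c := Lg μ 0 + qf (Gm μ) K / 2 + qf (Gm μ) z / 2 with hc
    have h4 : c + (Rs μ K + Rs μ z) ≤ ((c + Rs μ (K + z)) + (c + Rs μ (K - z))) / 2 := by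
      linarith
    refine (Real.exp_le_exp.2 h4).trans ?_
    set x := c + Rs μ (K + z) with hx
    set y := c + Rs μ (K - z) with hy
    have h5 : Real.exp ((x + y) / 2) = Real.exp (x / 2) * Real.exp (y / 2) := by
      rw [← Real.exp_add]
      congr 1
      ring
    have h6 : Real.exp x = Real.exp (x / 2) ^ 2 := by
      rw [← Real.exp_nat_mul]
      congr 1
      push_cast
      ring
    have h7 : Real.exp y = Real.exp (y / 2) ^ 2 := by
      rw [← Real.exp_nat_mul]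
      congr 1
      push_cast
      ring
    rw [h5, h6, h7]
    nlinarith [sq_nonneg (Real.exp (x / 2) - Real.exp (y / 2))]
  have h3 : Real.log (Real.exp A * Zs μ' 0) ≤
      Real.log (Real.exp (qf (Pᵀ * P) w / 2) * Zs μ' J) :=
    Real.log_le_log (mul_pos (Real.exp_pos _) (Zs_pos hμ 0)) key
  rw [Real.log_mul (Real.exp_pos _).ne' (Zs_pos hμ 0).ne', Real.log_exp,
    Real.log_mul (Real.exp_pos _).ne' (Zs_pos hμ J).ne', Real.log_exp, ← Lg_def, ← Lg_def] at h3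
  have h8 : qf (Pᵀ * P) w = qf (Gm μ) K - bf (Gm μ) K J := by
    have h9 : bf (Gm μ) K J = qf (Gm μ) K - bf (Gm μ) K (Pᵀ *ᵥ (P *ᵥ (Gm μ *ᵥ K))) := by
      rw [hJ]
      simp only [qf_eq, bf_eq, mulVec_sub, dotProduct_sub]
    have h10 : bf (Gm μ) K (Pᵀ *ᵥ (P *ᵥ (Gm μ *ᵥ K))) = qf (Pᵀ * P) w := by
      have h11 : bf (Gm μ) K (Pᵀ *ᵥ (P *ᵥ (Gm μ *ᵥ K))) =
          (Gm μ *ᵥ K) ⬝ᵥ (Pᵀ *ᵥ (P *ᵥ (Gm μ *ᵥ K))) := by
        rw [bf_comm (H663.Gm_symm μ), bf_eq, dotProduct_comm]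
      rw [h11, hw, qf_neg, qf_gram, dotProduct_mulVec, vecMul_transpose]
      unfold dotProduct
      exact Finset.sum_congr rfl fun i _ => (sq _).symm
    rw [h9, h10]
    ring
  unfold Rs at hA ⊢
  rw [h8] at h3
  linarith

end

end Vale.Agent.P159.H692
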