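import Vale.Agent.P159.H363.Inst
import Vale.Agent.P159.H363.Vb8

/-!
P159 / GLUE V (helper889, row 5487), lemmas HSB and VVP (helper692).

`hsb`: the relative Hilbert-Schmidt distance of the laws of two translation invariant matrices from
the sup distance of their step kernels. `vvp`: the variance increase `vv` is Lipschitz in the
relative Hilbert-Schmidt distance, with a constant which depends on `c` only.
-/

set_option linter.unusedSectionVars false

namespace Vale.Agent.P159.H692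

open Finset Matrix
open Vale.Agent.P159.TM.H764 (EE cN dt)
open Vale.Agent.P159.TM.Spec (V)
open Vale.Agent.P159.H864 (TI sym)
open Vale.Agent.P159.H462 (Dom Gam ti_Gam sym_Gam EE_pos EE_gap EE_nonneg sum_high N_pos')
open Vale.Agent.P159.H363 (rel vv)

noncomputable section

variable {N : ℕ} [NeZero N] {A B D : Matrix (V N) (V N) ℝ} {ν c s σ η : ℝ}

lemma TI_diag00 (hD : TI D) : D 0 0 = ((N : ℝ) ^ 2)⁻¹ * ∑ k, sym D k := by
  rw [hD.inversion 0 0]
  congr 1
  refine Finset.sum_congr rfl fun k _ => ?_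
  rw [sub_zero, H864.dt_zero, TM.H764.cN_zero, mul_one]

/-- Parseval for translation invariant matrices -/
lemma parseval_TI (hD : TI D) : ∑ k, sym D k ^ 2 = (N : ℝ) ^ 2 * ∑ z, D 0 z ^ 2 := by
  have h1 := TI_diag00 (hD.mul hD)
  have h2 : (D * D) 0 0 = ∑ z, D 0 z ^ 2 := by
    rw [Matrix.mul_apply]
    refine Finset.sum_congr rfl fun z _ => ?_
    rw [hD.sy z 0]
    ring
  have h3 : ∀ k, sym (D * D) k = sym D k ^ 2 := fun k => by
    rw [H864.sym_mul hD hD]
    ring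
  rw [h2] at h1
  simp_rw [h3] at h1
  rw [h1, ← mul_assoc, mul_inv_cancel₀ (H864.N_pos (N := N)).ne', one_mul]

/-- `nu / sym A <= 1 + nu N^2 / (16 c)` -/
lemma Dom.inv_le (h : Dom A ν c) {k : V N} (hk : k ≠ 0) :
    ν / sym A k ≤ 1 + ν * (N : ℝ) ^ 2 / (16 * c) := by
  have hE := EE_pos hk
  have hν := h.hν
  have hc := h.hc
  have hN := N_pos' (N := N)
  have h0 : 0 < ν * (c * EE k) / (ν + c * EE k) := by positivity
  have h1 := h.ge k
  have h2 : ν / sym A k ≤ ν / (ν * (c * EE k) / (ν + c * EE k)) :=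
    div_le_div_of_nonneg_left hν.le h0 h1
  have h3 : ν / (ν * (c * EE k) / (ν + c * EE k)) = 1 + ν / (c * EE k) := by
    field_simp
    ring
  have h4 : ν / (c * EE k) ≤ ν * (N : ℝ) ^ 2 / (16 * c) := by
    rw [div_le_div_iff₀ (by positivity) (by positivity)]
    have h5 := EE_gap hk
    rw [div_le_iff₀ (by positivity)] at h5
    have h6 : ν * (16 * c) ≤ ν * (EE k * (N : ℝ) ^ 2 * c) := by
      refine mul_le_mul_of_nonneg_left ?_ hν.le
      nlinarith
    calc ν * (16 * c) ≤ ν * (EE k * (N : ℝ) ^ 2 * c) := h6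
      _ = ν * (N : ℝ) ^ 2 * (c * EE k) := by ring
  rw [h3] at h2
  linarith

lemma Dom.pos (h : Dom A ν c) {k : V N} (hk : k ≠ 0) : 0 < sym A k := by
  have hE := EE_pos hk
  have hν := h.hν
  have hc := h.hc
  exact (by positivity : 0 < ν * (c * EE k) / (ν + c * EE k)).trans_le (h.ge k)

/-- **HSB** -/
theorem hsb (hA : Dom A ν c) (hB : TI B)
    (hσ : ∀ z, |(1 - ν⁻¹ • A) 0 z - (1 - ν⁻¹ • B) 0 z| ≤ σ) :
    ∑ k, rel B A k ^ 2 ≤ ((1 + ν * (N : ℝ) ^ 2 / (16 * c)) * ((N : ℝ) ^ 2 * σ)) ^ 2 := by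
  have hν := hA.hν
  set D : Matrix (V N) (V N) ℝ := (1 - ν⁻¹ • A) - (1 - ν⁻¹ • B) with hD
  have hT : TI D := (TI.one.sub (hA.ti.smul _)).sub (TI.one.sub (hB.smul _))
  have hs : ∀ k, sym D k = (sym B k - sym A k) / ν := by
    intro k
    rw [hD, H864.sym_sub, H864.sym_sub, H864.sym_sub, H864.sym_smul, H864.sym_smul, H864.sym_one]
    field_simp
    ring
  set L : ℝ := 1 + ν * (N : ℝ) ^ 2 / (16 * c) with hL
  have hL0 : 0 ≤ L := by
    have := hA.hc
    positivity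
  have h1 : ∀ k, rel B A k ^ 2 ≤ L ^ 2 * sym D k ^ 2 := by
    intro k
    by_cases hk : k = 0
    · have e : rel B A k = 0 := by
        unfold Vale.Agent.P159.H363.rel
        rw [if_pos hk]
      rw [e]
      have := sq_nonneg (sym D k)
      nlinarith [sq_nonneg L]
    · have hp := Dom.pos hA hk
      have e : rel B A k = ν / sym A k * sym D k := by
        unfold Vale.Agent.P159.H363.rel
        rw [if_neg hk, hs]
        field_simp
      rw [e, mul_pow]
      refine mul_le_mul_of_nonneg_right ?_ (sq_nonneg _)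
      exact pow_le_pow_left₀ (by positivity) (Dom.inv_le hA hk) 2
  refine (Finset.sum_le_sum fun k _ => h1 k).trans ?_
  rw [← Finset.mul_sum, parseval_TI hT]
  have h2 : ∑ z, D 0 z ^ 2 ≤ (N : ℝ) ^ 2 * σ ^ 2 := by
    have h3 : ∀ z, D 0 z ^ 2 ≤ σ ^ 2 := by
      intro z
      rw [← sq_abs]
      refine pow_le_pow_left₀ (abs_nonneg _) ?_ 2
      rw [hD, Matrix.sub_apply]
      exact hσ z
    refine (Finset.sum_le_sum fun z _ => h3 z).trans (le_of_eq ?_)
    rw [Finset.sum_const, Finset.card_univ, nsmul_eq_mul]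
    congr 1
    exact TM.H764.card_V
  calc L ^ 2 * ((N : ℝ) ^ 2 * ∑ z, D 0 z ^ 2) ≤ L ^ 2 * ((N : ℝ) ^ 2 * ((N : ℝ) ^ 2 * σ ^ 2)) := by
        gcongr
    _ = _ := by ring

lemma rel_zero' : rel A B (0 : V N) = 0 := by
  unfold Vale.Agent.P159.H363.rel
  rw [if_pos rfl]

lemma rel_le_of_sum (hη : 0 ≤ η) (h : ∑ k, rel A B k ^ 2 ≤ η ^ 2) (k : V N) : |rel A B k| ≤ η := by
  have h1 : rel A B k ^ 2 ≤ η ^ 2 :=
    (Finset.single_le_sum (f := fun k => rel A B k ^ 2) (fun _ _ => pow_two_nonneg _)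
      (Finset.mem_univ k)).trans h
  exact abs_le_of_sq_le_sq h1 hη

/-- the other order of `rel`, no hypothesis on `B` -/
theorem rel_other (hA : Dom A ν c) {X : ℝ} (hX : 0 ≤ X) (hX2 : X ≤ 1 / 2)
    (h : ∑ k, rel B A k ^ 2 ≤ X ^ 2) : ∑ k, rel A B k ^ 2 ≤ (2 * X) ^ 2 := by
  have h1 : ∀ k, rel A B k ^ 2 ≤ 4 * rel B A k ^ 2 := by
    intro k
    by_cases hk : k = 0
    · rw [hk, rel_zero', rel_zero']
      norm_num
    · have h2 := (rel_le_of_sum hX h k).trans hX2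
      have hp := Dom.pos hA hk
      have e1 : rel B A k = sym B k / sym A k - 1 := by
        unfold Vale.Agent.P159.H363.rel
        rw [if_neg hk]
      have e2 : rel A B k = sym A k / sym B k - 1 := by
        unfold Vale.Agent.P159.H363.rel
        rw [if_neg hk]
      have h3 : 1 / 2 ≤ sym B k / sym A k := by
        have := (abs_le.1 h2).1
        rw [e1] at this
        linarith
      have hq : 0 < sym B k := by
        rw [le_div_iff₀ hp] at h3
        linarith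
      have e3 : rel A B k = -(rel B A k) * (sym A k / sym B k) := by
        rw [e1, e2]
        field_simp
        ring
      have h4 : sym A k / sym B k ≤ 2 := by
        rw [le_div_iff₀ hp] at h3
        rw [div_le_iff₀ hq]
        linarith
      have h5 : (sym A k / sym B k) ^ 2 ≤ 2 ^ 2 := pow_le_pow_left₀ (by positivity) h4 2
      rw [e3, mul_pow, neg_sq]
      have := mul_le_mul_of_nonneg_left h5 (sq_nonneg (rel B A k))
      linarith
  refine (Finset.sum_le_sum fun k _ => h1 k).trans ?_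
  rw [← Finset.mul_sum, mul_pow]
  linarith

/-- **HSB, the other order** -/
theorem hsb' (hA : Dom A ν c) (hB : TI B)
    (hσ : ∀ z, |(1 - ν⁻¹ • A) 0 z - (1 - ν⁻¹ • B) 0 z| ≤ σ)
    (hX : (1 + ν * (N : ℝ) ^ 2 / (16 * c)) * ((N : ℝ) ^ 2 * σ) ≤ 1 / 2) :
    ∑ k, rel A B k ^ 2 ≤ (2 * ((1 + ν * (N : ℝ) ^ 2 / (16 * c)) * ((N : ℝ) ^ 2 * σ))) ^ 2 := by
  refine rel_other hA ?_ hX (hsb hA hB hσ)
  have h0 := (abs_nonneg _).trans (hσ 0)
  have := hA.hν
  have := hA.hc
  positivity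

/-! ### VVP -/

/-- a smaller constant -/
lemma Dom.weak {c' : ℝ} (h : Dom A ν c) (hc' : 0 < c') (h1 : c' ≤ c) : Dom A ν c' where
  ti := h.ti
  hν := h.hν
  hc := hc'
  nn := h.nn
  le := h.le
  zero := h.zero
  ge k := by
    refine le_trans ?_ (h.ge k)
    have hν := h.hν
    have hE := EE_nonneg k
    have h2 : c' * EE k ≤ c * EE k := mul_le_mul_of_nonneg_right h1 hE
    have h3 : 0 ≤ c' * EE k := by positivity
    rw [div_le_div_iff₀ (by linarith) (by linarith)]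
    nlinarith [mul_le_mul_of_nonneg_left h2 (sq_nonneg ν)]

/-- the increase of the variance in Fourier space -/
theorem vv_eq (hA : Dom A ν c) (s : ℝ) : vv s ν A =
    ((N : ℝ) ^ 2)⁻¹ * ∑ k, (1 - sym A k / ν) ^ 2 * (s * (1 + s * sym A k)⁻¹) := by
  have hS : TI (1 - ν⁻¹ • A) := H363.ti_S hA
  have h1 : TI ((1 - ν⁻¹ • A) * Gam s A * (1 - ν⁻¹ • A)) := (hS.mul (ti_Gam s A)).mul hS
  unfold Vale.Agent.P159.H363.vv
  rw [TI_diag00 h1]
  congr 1
  refine Finset.sum_congr rfl fun k _ => ?_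
  rw [H864.sym_mul (hS.mul (ti_Gam s A)) hS, H864.sym_mul hS (ti_Gam s A), sym_Gam, H864.sym_sub,
    H864.sym_smul, H864.sym_one]
  ring

/-- one mode -/
lemma vv_mode {a b E : ℝ} (hν : 0 < ν) (hc : 0 < c) (hs : 0 < s) (hE : 0 < E) (ha2 : a ≤ ν)
    (hb2 : b ≤ ν) (ha : ν * (c * E) / (ν + c * E) ≤ a) (hb : ν * (c * E) / (ν + c * E) ≤ b)
    (hr : |a / b - 1| ≤ 1 / 2) :
    |(1 - a / ν) ^ 2 * (s * (1 + s * a)⁻¹) - (1 - b / ν) ^ 2 * (s * (1 + s * b)⁻¹)| ≤
      |a / b - 1| * (6 / c * E⁻¹) := by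
  have hcE : 0 < c * E := by positivity
  have h0 : 0 < ν * (c * E) / (ν + c * E) := by positivity
  have a0 : 0 < a := h0.trans_le ha
  have b0 : 0 < b := h0.trans_le hb
  obtain ⟨r, hrd⟩ : ∃ r, r = |a / b - 1| := ⟨_, rfl⟩
  have r0 : 0 ≤ r := by rw [hrd]; exact abs_nonneg _
  rw [← hrd] at hr ⊢
  -- differences
  have hab : |a - b| = b * r := by
    have e : a - b = b * (a / b - 1) := by
      field_simp
    rw [hrd, e, abs_mul, abs_of_pos b0]
  have h2 : b ≤ 2 * a := by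
    have h3 : |a - b| ≤ b / 2 := by
      rw [hab]
      nlinarith
    have := (abs_le.1 h3).1
    linarith
  -- the factors `S`
  have sa0 : 0 ≤ 1 - a / ν := by
    rw [sub_nonneg, div_le_one hν]
    exact ha2
  have sb0 : 0 ≤ 1 - b / ν := by
    rw [sub_nonneg, div_le_one hν]
    exact hb2
  have sS : ∀ x, ν * (c * E) / (ν + c * E) ≤ x → 1 - x / ν ≤ ν / (ν + c * E) := by
    intro x hx
    have h3 : c * E / (ν + c * E) ≤ x / ν := by
      rw [le_div_iff₀ hν]
      refine le_trans (le_of_eq ?_) hx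
      ring
    have h4 : ν / (ν + c * E) = 1 - c * E / (ν + c * E) := by
      field_simp
      ring
    rw [h4]
    linarith
  have sa := sS a ha
  have sb := sS b hb
  have hq : ν / (ν + c * E) / ν ≤ (c * E)⁻¹ := by
    have e : ν / (ν + c * E) / ν = (ν + c * E)⁻¹ := by field_simp
    rw [e]
    exact inv_anti₀ hcE (by linarith)
  have sa' : (1 - a / ν) / ν ≤ (c * E)⁻¹ := (div_le_div_of_nonneg_right sa hν.le).trans hq
  have sb' : (1 - b / ν) / ν ≤ (c * E)⁻¹ := (div_le_div_of_nonneg_right sb hν.le).trans hq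
  -- the second factor
  have k1 : s * (1 + s * a)⁻¹ * b ≤ 2 := by
    have e : s * (1 + s * a)⁻¹ * b = s * b / (1 + s * a) := by
      field_simp
    rw [e, div_le_iff₀ (by positivity)]
    have := mul_le_mul_of_nonneg_left h2 hs.le
    linarith
  have k2 : s * (1 + s * b)⁻¹ * b ≤ 1 := by
    have e : s * (1 + s * b)⁻¹ * b = s * b / (1 + s * b) := by
      field_simp
    rw [e, div_le_iff₀ (by positivity)]
    linarith
  have k3 : 0 ≤ s * (1 + s * a)⁻¹ := by positivity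
  have k4 : 0 ≤ s * (1 + s * b)⁻¹ := by positivity
  have hSb : (1 - b / ν) ^ 2 / b ≤ (c * E)⁻¹ := by
    have h5 : (1 - b / ν) ^ 2 ≤ (ν / (ν + c * E)) ^ 2 := pow_le_pow_left₀ sb0 sb 2
    have h6 : (1 - b / ν) ^ 2 / b ≤ (ν / (ν + c * E)) ^ 2 / (ν * (c * E) / (ν + c * E)) :=
      div_le_div₀ (by positivity) h5 h0 hb
    refine h6.trans ?_
    have e : (ν / (ν + c * E)) ^ 2 / (ν * (c * E) / (ν + c * E)) = ν / (ν + c * E) * (c * E)⁻¹ := by
      field_simp
    rw [e]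
    have h7 : ν / (ν + c * E) ≤ 1 := by
      rw [div_le_one (by linarith)]
      linarith
    have h8 : 0 ≤ (c * E)⁻¹ := by positivity
    nlinarith
  have key : (1 - a / ν) ^ 2 * (s * (1 + s * a)⁻¹) - (1 - b / ν) ^ 2 * (s * (1 + s * b)⁻¹) =
      ((1 - a / ν) / ν + (1 - b / ν) / ν) * (b - a) * (s * (1 + s * a)⁻¹) +
        (1 - b / ν) ^ 2 * ((b - a) * (s * (1 + s * a)⁻¹) * (s * (1 + s * b)⁻¹)) := by
    have h5 : s * (1 + s * a)⁻¹ - s * (1 + s * b)⁻¹ =
        (b - a) * (s * (1 + s * a)⁻¹) * (s * (1 + s * b)⁻¹) := by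
      field_simp
      ring
    rw [← h5]
    field_simp
    ring
  rw [key]
  have m1 : |((1 - a / ν) / ν + (1 - b / ν) / ν) * (b - a) * (s * (1 + s * a)⁻¹)| ≤
      r * (4 * (c * E)⁻¹) := by
    rw [abs_mul, abs_mul, abs_of_nonneg k3, abs_sub_comm b a, hab,
      abs_of_nonneg (by positivity : 0 ≤ (1 - a / ν) / ν + (1 - b / ν) / ν)]
    have h5 : (1 - a / ν) / ν + (1 - b / ν) / ν ≤ 2 * (c * E)⁻¹ := by linarith
    have h6 : ((1 - a / ν) / ν + (1 - b / ν) / ν) * (s * (1 + s * a)⁻¹ * b) ≤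
        2 * (c * E)⁻¹ * 2 := mul_le_mul h5 k1 (by positivity) (by positivity)
    calc ((1 - a / ν) / ν + (1 - b / ν) / ν) * (b * r) * (s * (1 + s * a)⁻¹)
        = r * (((1 - a / ν) / ν + (1 - b / ν) / ν) * (s * (1 + s * a)⁻¹ * b)) := by ring
      _ ≤ r * (2 * (c * E)⁻¹ * 2) := mul_le_mul_of_nonneg_left h6 r0
      _ = _ := by ring
  have m2 : |(1 - b / ν) ^ 2 * ((b - a) * (s * (1 + s * a)⁻¹) * (s * (1 + s * b)⁻¹))| ≤
      r * (2 * (c * E)⁻¹) := by
    rw [abs_mul, abs_mul, abs_mul, abs_of_nonneg k3, abs_of_nonneg k4, abs_sub_comm b a, hab,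
      abs_of_nonneg (sq_nonneg (1 - b / ν))]
    have h5 : (s * (1 + s * a)⁻¹ * b) * (s * (1 + s * b)⁻¹ * b) ≤ 2 * 1 :=
      mul_le_mul k1 k2 (by positivity) (by norm_num)
    have h6 : (1 - b / ν) ^ 2 / b * ((s * (1 + s * a)⁻¹ * b) * (s * (1 + s * b)⁻¹ * b)) ≤
        (c * E)⁻¹ * (2 * 1) := mul_le_mul hSb h5 (by positivity) (by positivity)
    calc (1 - b / ν) ^ 2 * (b * r * (s * (1 + s * a)⁻¹) * (s * (1 + s * b)⁻¹))
        = r * ((1 - b / ν) ^ 2 / b * ((s * (1 + s * a)⁻¹ * b) * (s * (1 + s * b)⁻¹ * b))) := by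
          field_simp
      _ ≤ r * ((c * E)⁻¹ * (2 * 1)) := mul_le_mul_of_nonneg_left h6 r0
      _ = _ := by ring
  refine (abs_add_le _ _).trans ((add_le_add m1 m2).trans (le_of_eq ?_))
  field_simp
  ring

/-- **VVP**: the increase of the variance is Lipschitz in the relative distance, the constant
depends on `c` only -/
theorem vvp (hA : Dom A ν c) (hB : Dom B ν c) (hs : 0 < s) (hη : 0 ≤ η) (hη2 : η ≤ 1 / 2)
    (hr : ∑ k, rel A B k ^ 2 ≤ η ^ 2) : |vv s ν A - vv s ν B| ≤ 7 / c * η := by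
  have hν := hA.hν
  have hc := hA.hc
  have hN := N_pos' (N := N)
  rw [vv_eq hA, vv_eq hB, ← mul_sub, ← Finset.sum_sub_distrib, abs_mul,
    abs_of_nonneg (inv_nonneg.2 (sq_nonneg (N : ℝ)))]
  set g : V N → ℝ := fun k => if k = 0 then 0 else (EE k)⁻¹ with hg
  have h1 : ∀ k, |(1 - sym A k / ν) ^ 2 * (s * (1 + s * sym A k)⁻¹) -
      (1 - sym B k / ν) ^ 2 * (s * (1 + s * sym B k)⁻¹)| ≤ |rel A B k| * (6 / c * g k) := by
    intro k
    by_cases hk : k = 0
    · rw [hk, hA.zero, hB.zero, sub_self, abs_zero, rel_zero', abs_zero, zero_mul]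
    · have h2 := rel_le_of_sum hη hr k
      have e : rel A B k = sym A k / sym B k - 1 := by
        unfold Vale.Agent.P159.H363.rel
        rw [if_neg hk]
      rw [e] at h2 ⊢
      have e2 : g k = (EE k)⁻¹ := by
        rw [hg]
        simp only [if_neg hk]
      rw [e2]
      exact vv_mode hν hc hs (EE_pos hk) (hA.le k) (hB.le k) (hA.ge k) (hB.ge k)
        (h2.trans hη2)
  have h2 : |∑ k, ((1 - sym A k / ν) ^ 2 * (s * (1 + s * sym A k)⁻¹) -
      (1 - sym B k / ν) ^ 2 * (s * (1 + s * sym B k)⁻¹))| ≤ 6 / c * ∑ k, |rel A B k| * g k := by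
    refine (Finset.abs_sum_le_sum_abs _ _).trans ((Finset.sum_le_sum fun k _ => h1 k).trans
      (le_of_eq ?_))
    rw [Finset.mul_sum]
    exact Finset.sum_congr rfl fun k _ => by ring
  have h3 : ∑ k, g k ^ 2 ≤ 5 / 4 * (N : ℝ) ^ 4 := by
    have h4 := sum_high (N := N) (ν := 16 / (N : ℝ) ^ 2) (by positivity)
    have h5 : ∑ k, g k ^ 2 ≤
        ∑ k ∈ univ.filter (fun k : V N => 16 / (N : ℝ) ^ 2 ≤ EE k), (EE k ^ 2)⁻¹ := by
      rw [Finset.sum_filter]
      refine Finset.sum_le_sum fun k _ => ?_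
      by_cases hk : k = 0
      · rw [hg]
        simp only [if_pos hk]
        split_ifs
        · have : 0 ≤ (EE k ^ 2)⁻¹ := inv_nonneg.2 (sq_nonneg _)
          simpa using this
        · norm_num
      · rw [if_pos (EE_gap hk), hg]
        simp only [if_neg hk]
        rw [inv_pow]
    refine h5.trans (h4.trans (le_of_eq ?_))
    field_simp
    ring
  have h4 : ∑ k, |rel A B k| * g k ≤ η * (9 / 8 * (N : ℝ) ^ 2) := by
    have h5 := Finset.sum_mul_sq_le_sq_mul_sq Finset.univ (fun k => |rel A B k|) g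
    simp only [sq_abs] at h5
    have h6 : (∑ k, |rel A B k| * g k) ^ 2 ≤ (η * (9 / 8 * (N : ℝ) ^ 2)) ^ 2 := by
      refine h5.trans ?_
      have h7 : (∑ k, rel A B k ^ 2) * ∑ k, g k ^ 2 ≤ η ^ 2 * (5 / 4 * (N : ℝ) ^ 4) :=
        mul_le_mul hr h3 (Finset.sum_nonneg fun _ _ => sq_nonneg _) (sq_nonneg _)
      refine h7.trans ?_
      have h8 : 0 ≤ η ^ 2 * (N : ℝ) ^ 4 := by positivity
      nlinarith
    exact (abs_le_of_sq_le_sq' h6 (by positivity)).2
  have h5 : ((N : ℝ) ^ 2)⁻¹ * (6 / c * (η * (9 / 8 * (N : ℝ) ^ 2))) ≤ 7 / c * η := by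
    have e : ((N : ℝ) ^ 2)⁻¹ * (6 / c * (η * (9 / 8 * (N : ℝ) ^ 2))) = 27 / 4 / c * η := by
      field_simp
      ring
    rw [e]
    have : 27 / 4 / c ≤ 7 / c := div_le_div_of_nonneg_right (by norm_num) hc.le
    exact mul_le_mul_of_nonneg_right this hη
  refine le_trans ?_ h5
  refine mul_le_mul_of_nonneg_left ?_ (by positivity)
  refine h2.trans ?_
  exact mul_le_mul_of_nonneg_left h4 (by positivity)

end

end Vale.Agent.P159.H692
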