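import Vale.Agent.P159.H692.Fn7

/-!
P159, helper692, FN part 8: PU11(b), the functionals `R` and `T` of the scalar masses from those of
the cell masses, integer and neutral model.
-/

namespace Vale.Agent.P159.H692

open Finset Matrix MeasureTheory Filter Topology
open Vale.Agent.P159.TM.H104 (EM Ex Cv Lg li nh Gr)
open Vale.Agent.P159.H37
open Vale.Agent.P159.TM.Spec (V)
open Vale.Agent.P159.TM.SpecC (wT)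
open Vale.Agent.P159.H963 (GrI pin ntr nM GW MF gw_wT nwt nMC)
open Vale.Agent.P159.H159 (Ms lim_Ex lim_Gm MasN)
open Vale.Agent.P159.H864 (MC)

noncomputable section

section abs

variable {V : Type*} [Fintype V] {I : Type*} [Fintype I] {μ' : (V → ℤ) → ℝ}

lemma Tq_le_Rs {μ : (V → ℤ) → ℝ} (hμ : EM μ) (he : Ev μ) (hK : PK μ) (J : V → ℝ) :
    Tq μ J ≤ Rs μ ((2 : ℝ) • J) := by
  have h1 := H789.Rs_nonneg hμ he hK J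
  rw [H789.Tq_eq]
  linarith

/-- `R` of the prior from the comparison of the free energies -/
theorem Rs_le_of_Lg (hμ : EM μ') (hE : Ev μ') (P : Matrix I V ℝ) (hK : PK (post μ' P)) (J : V → ℝ)
    {d : ℝ} (h : (Lg μ' J - Lg μ' 0) - (Lg (post μ' P) J - Lg (post μ' P) 0) ≤ d) :
    Rs μ' J ≤ Rs (post μ' P) J + d := by
  have hp := em_post hμ P
  have hep := ev_post hE P
  have h2 := qf_mass_mono hμ P (fun J u => H789.qf_mono hp hep hK J u) J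
  have h3 : Rs μ' J = Lg μ' J - Lg μ' 0 - qf (Gm μ') J / 2 := rfl
  have h4 : Rs (post μ' P) J = Lg (post μ' P) J - Lg (post μ' P) 0 - qf (Gm (post μ' P)) J / 2 :=
    rfl
  linarith

/-- `T` of the prior -/
theorem Tq_le_of_Lg (μ μ₁ : (V → ℤ) → ℝ) (J : V → ℝ) {d : ℝ}
    (h0 : 0 ≤ (Lg μ J - Lg μ 0) - (Lg μ₁ J - Lg μ₁ 0))
    (h : (Lg μ ((2 : ℝ) • J) - Lg μ 0) - (Lg μ₁ ((2 : ℝ) • J) - Lg μ₁ 0) ≤ d) :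
    Tq μ J ≤ Tq μ₁ J + d := by
  unfold Tq
  linarith

/-- `T` of the posterior -/
theorem Tq_ge_of_Lg (μ μ₁ : (V → ℤ) → ℝ) (J : V → ℝ) {d : ℝ}
    (h0 : 0 ≤ (Lg μ ((2 : ℝ) • J) - Lg μ 0) - (Lg μ₁ ((2 : ℝ) • J) - Lg μ₁ 0))
    (h : (Lg μ J - Lg μ 0) - (Lg μ₁ J - Lg μ₁ 0) ≤ d) :
    Tq μ₁ J ≤ Tq μ J + 4 * d := by
  unfold Tq
  linarith

lemma num5 {C R T Z y : ℝ} (hC : 0 ≤ C) (hR : R ≤ 1) (hT : T ≤ R) (hZ : 0 ≤ Z) (hy : 0 ≤ y) :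
    C * (R + Real.exp (T / 2) + 1) * Z * y ≤ 4 * C * Z * y := by
  have h1 : Real.exp (T / 2) ≤ 2 := by
    have h2 : Real.exp (T / 2) ≤ Real.exp (1 / 2) := Real.exp_le_exp.2 (by linarith)
    have h3 : Real.exp (1 / 2) ≤ 5 / 3 := H663.exp_half_lt
    linarith
  have h4 : C * (R + Real.exp (T / 2) + 1) ≤ 4 * C := by nlinarith
  exact mul_le_mul_of_nonneg_right (mul_le_mul_of_nonneg_right h4 hZ) hy

end abs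

/-- **PU11(b), integer model**: `wt N b τ` (scalar mass `τ ≤ t`) against the mass
`t (1-P) + τ P`, cells of side `2ⁿ`, `N` a multiple of `2ⁿ` and of `2ᵖ ≥ ξ(t)/2` -/
theorem pu11 {b : ℝ} (hb : 0 ≤ b) : ∃ C c : ℝ, 0 ≤ C ∧ 0 < c ∧ c ≤ 1 ∧
    ∀ (N : ℕ) [NeZero N] (n p : ℕ), 2 ^ n ∣ N → 2 ^ p ∣ N →
    ∀ t : ℝ, 0 < t → t * ((2 : ℝ) ^ n) ^ 2 ≤ 1 → 1 < t * 4 ^ (p + 1) →
    ∀ s τ : ℝ, 0 < s → s ≤ t → 0 < τ → τ ≤ t →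
    ∀ (J : V N → ℝ) (U : ℝ),
      Lg (wM (wT b N) (MC N (2 ^ n) s τ)) ((2 : ℝ) • J) -
        Lg (wM (wT b N) (MC N (2 ^ n) s τ)) 0 ≤ U →
      Rs (wM (wT b N) (MC N (2 ^ n) t τ)) ((2 : ℝ) • J) ≤ 1 →
    0 ≤ (Lg (wM (wT b N) (MC N (2 ^ n) s τ)) J - Lg (wM (wT b N) (MC N (2 ^ n) s τ)) 0) -
        (Lg (wM (wT b N) (MC N (2 ^ n) t τ)) J - Lg (wM (wT b N) (MC N (2 ^ n) t τ)) 0) ∧
    (Lg (wM (wT b N) (MC N (2 ^ n) s τ)) J - Lg (wM (wT b N) (MC N (2 ^ n) s τ)) 0) -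
        (Lg (wM (wT b N) (MC N (2 ^ n) t τ)) J - Lg (wM (wT b N) (MC N (2 ^ n) t τ)) 0) ≤
      C * ((1 + U) ^ 6 * (t * (N : ℝ) ^ 2)) * ((2 : ℝ) ^ n * √t) ^ c ∧
    Rs (wM (wT b N) (MC N (2 ^ n) s τ)) J ≤ Rs (wM (wT b N) (MC N (2 ^ n) t τ)) J +
      C * ((1 + U) ^ 6 * (t * (N : ℝ) ^ 2)) * ((2 : ℝ) ^ n * √t) ^ c := by
  obtain ⟨C, c, hC, hc, hc1, h⟩ := fine_b_MC hb
  refine ⟨4 * C, c, by positivity, hc, hc1, ?_⟩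
  intro N _ n p hn hpN t ht htn hp s τ hs hst hτ hτt J U hU hR
  obtain ⟨h0, h1⟩ := h N n p hn hpN t ht htn hp s τ hs hst hτ hτt J U hU
  have hE := H864.em_wTM hb (lt_min hs hτ) fun u => qf_MC_min hn (s := s) (τ := τ) u
  have hEv : Ev (wM (wT b N) (MC N (2 ^ n) s τ)) := H864.ev_wTM _
  have hpost : post (wM (wT b N) (MC N (2 ^ n) s τ)) (Pf N (2 ^ n) (t - s)) =
      wM (wT b N) (MC N (2 ^ n) t τ) := by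
    rw [post_wM, Pf_gram hn (sub_nonneg.2 hst), ← MC_add_fine]
  have ht' : 0 < t := ht
  have hE1 := H864.em_wTM hb (lt_min ht' hτ) fun u => qf_MC_min hn (s := t) (τ := τ) u
  have hEv1 : Ev (wM (wT b N) (MC N (2 ^ n) t τ)) := H864.ev_wTM _
  have hK1 : PK (wM (wT b N) (MC N (2 ^ n) t τ)) :=
    H789.pk_wM_wT' hb (lt_min ht' hτ) fun u => qf_MC_min hn (s := t) (τ := τ) u
  have hU0 : 0 ≤ U := by
    have := H340.lg_zero_le hE hEv ((2 : ℝ) • J)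
    linarith
  have hst' : 0 < √t := Real.sqrt_pos.2 ht
  have hx0 : 0 < ((2 : ℝ) ^ n * √t) ^ c := Real.rpow_pos_of_pos (by positivity) _
  have h2 : C * (Rs (wM (wT b N) (MC N (2 ^ n) t τ)) ((2 : ℝ) • J) +
          Real.exp (Tq (wM (wT b N) (MC N (2 ^ n) t τ)) J / 2) + 1) *
        ((1 + U) ^ 6 * (t * (N : ℝ) ^ 2)) * ((2 : ℝ) ^ n * √t) ^ c ≤
      4 * C * ((1 + U) ^ 6 * (t * (N : ℝ) ^ 2)) * ((2 : ℝ) ^ n * √t) ^ c :=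
    num5 hC hR (Tq_le_Rs hE1 hEv1 hK1 J) (by positivity) hx0.le
  have h3 := h1.trans h2
  refine ⟨h0, h3, ?_⟩
  have h4 := Rs_le_of_Lg hE hEv (Pf N (2 ^ n) (t - s)) (hpost ▸ hK1) J le_rfl
  rw [hpost] at h4
  linarith

/-- **PU11(b), neutral model**: the masses `s (1-P) + τ P` (`s = τ` is the scalar mass) against
`t (1-P) + τ P` -/
theorem pu11_N {b : ℝ} (hb : 0 ≤ b) : ∃ C c : ℝ, 0 ≤ C ∧ 0 < c ∧ c ≤ 1 ∧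
    ∀ (N : ℕ) [NeZero N] (n p : ℕ), 2 ^ n ∣ N → 2 ^ p ∣ N →
    ∀ t : ℝ, 0 < t → t * ((2 : ℝ) ^ n) ^ 2 ≤ 1 → 1 < t * 4 ^ (p + 1) →
    ∀ s τ : ℝ, 0 < s → s ≤ t → 0 < τ → τ ≤ t →
    ∀ (x₀ : V N) (J : V N → ℝ), H963.Neu J → ∀ U : ℝ,
      Lg (nM (wT b N) (MC N (2 ^ n) s τ) τ x₀) ((2 : ℝ) • J) -
        Lg (nM (wT b N) (MC N (2 ^ n) s τ) τ x₀) 0 ≤ U →
      Rs (nMC N (2 ^ n) b t τ x₀) ((2 : ℝ) • J) ≤ 1 →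
    0 ≤ (Lg (nM (wT b N) (MC N (2 ^ n) s τ) τ x₀) J - Lg (nM (wT b N) (MC N (2 ^ n) s τ) τ x₀) 0) -
        (Lg (nMC N (2 ^ n) b t τ x₀) J - Lg (nMC N (2 ^ n) b t τ x₀) 0) ∧
    (Lg (nM (wT b N) (MC N (2 ^ n) s τ) τ x₀) J - Lg (nM (wT b N) (MC N (2 ^ n) s τ) τ x₀) 0) -
        (Lg (nMC N (2 ^ n) b t τ x₀) J - Lg (nMC N (2 ^ n) b t τ x₀) 0) ≤
      C * ((1 + U) ^ 6 * (t * (N : ℝ) ^ 2)) * ((2 : ℝ) ^ n * √t) ^ c ∧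
    Rs (nM (wT b N) (MC N (2 ^ n) s τ) τ x₀) J ≤ Rs (nMC N (2 ^ n) b t τ x₀) J +
      C * ((1 + U) ^ 6 * (t * (N : ℝ) ^ 2)) * ((2 : ℝ) ^ n * √t) ^ c := by
  obtain ⟨C, c, hC, hc, hc1, h⟩ := fine_b_nM hb
  refine ⟨4 * C, c, by positivity, hc, hc1, ?_⟩
  intro N _ n p hn hpN t ht htn hp s τ hs hst hτ hτt x₀ J hJ U hU hR
  obtain ⟨h0, h1⟩ := h N n p hn hpN t ht htn hp s τ hs hst hτ hτt x₀ J hJ U hU
  have hw := gw_wT (N := N) hb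
  have hF := mf_MC' (N := N) hn hs hτ
  have hF1 := mf_MC' (N := N) hn ht hτ
  have hE := hw.em_nM hF x₀
  have hEv := hw.ev_nM (MC N (2 ^ n) s τ) τ x₀
  have hE1 : EM (nMC N (2 ^ n) b t τ x₀) := hw.em_nM hF1 x₀
  have hEv1 : Ev (nMC N (2 ^ n) b t τ x₀) := hw.ev_nM _ τ x₀
  have hK1 : PK (nMC N (2 ^ n) b t τ x₀) := hw.pk_nM hF1 x₀
  have hpost : post (nM (wT b N) (MC N (2 ^ n) s τ) τ x₀) (Pf N (2 ^ n) (t - s)) =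
      nMC N (2 ^ n) b t τ x₀ := by
    rw [H963.post_nM, Pf_gram hn (sub_nonneg.2 hst), ← MC_add_fine]
    rfl
  have hU0 : 0 ≤ U := by
    have := H340.lg_zero_le hE hEv ((2 : ℝ) • J)
    linarith
  have hst' : 0 < √t := Real.sqrt_pos.2 ht
  have hx0 : 0 < ((2 : ℝ) ^ n * √t) ^ c := Real.rpow_pos_of_pos (by positivity) _
  have h2 : C * (Rs (nMC N (2 ^ n) b t τ x₀) ((2 : ℝ) • J) +
          Real.exp (Tq (nMC N (2 ^ n) b t τ x₀) J / 2) + 1) *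
        ((1 + U) ^ 6 * (t * (N : ℝ) ^ 2)) * ((2 : ℝ) ^ n * √t) ^ c ≤
      4 * C * ((1 + U) ^ 6 * (t * (N : ℝ) ^ 2)) * ((2 : ℝ) ^ n * √t) ^ c :=
    num5 hC hR (Tq_le_Rs hE1 hEv1 hK1 J) (by positivity) hx0.le
  have h3 := h1.trans h2
  refine ⟨h0, h3, ?_⟩
  have h4 := Rs_le_of_Lg hE hEv (Pf N (2 ^ n) (t - s)) (hpost ▸ hK1) J le_rfl
  rw [hpost] at h4
  linarith

/-- **PU11(b), neutral model, scalar mass** -/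
theorem pu11_nwt {b : ℝ} (hb : 0 ≤ b) : ∃ C c : ℝ, 0 ≤ C ∧ 0 < c ∧ c ≤ 1 ∧
    ∀ (N : ℕ) [NeZero N] (n p : ℕ), 2 ^ n ∣ N → 2 ^ p ∣ N →
    ∀ t : ℝ, 0 < t → t * ((2 : ℝ) ^ n) ^ 2 ≤ 1 → 1 < t * 4 ^ (p + 1) →
    ∀ τ : ℝ, 0 < τ → τ ≤ t →
    ∀ (x₀ : V N) (J : V N → ℝ), H963.Neu J → ∀ U : ℝ,
      Lg (nwt N b τ x₀) ((2 : ℝ) • J) - Lg (nwt N b τ x₀) 0 ≤ U →
      Rs (nMC N (2 ^ n) b t τ x₀) ((2 : ℝ) • J) ≤ 1 →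
    0 ≤ (Lg (nwt N b τ x₀) J - Lg (nwt N b τ x₀) 0) -
        (Lg (nMC N (2 ^ n) b t τ x₀) J - Lg (nMC N (2 ^ n) b t τ x₀) 0) ∧
    (Lg (nwt N b τ x₀) J - Lg (nwt N b τ x₀) 0) -
        (Lg (nMC N (2 ^ n) b t τ x₀) J - Lg (nMC N (2 ^ n) b t τ x₀) 0) ≤
      C * ((1 + U) ^ 6 * (t * (N : ℝ) ^ 2)) * ((2 : ℝ) ^ n * √t) ^ c ∧
    Rs (nwt N b τ x₀) J ≤ Rs (nMC N (2 ^ n) b t τ x₀) J +
      C * ((1 + U) ^ 6 * (t * (N : ℝ) ^ 2)) * ((2 : ℝ) ^ n * √t) ^ c := by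
  obtain ⟨C, c, hC, hc, hc1, h⟩ := pu11_N hb
  refine ⟨C, c, hC, hc, hc1, ?_⟩
  intro N _ n p hn hpN t ht htn hp τ hτ hτt x₀ J hJ U hU hR
  have h1 := h N n p hn hpN t ht htn hp τ τ hτ hτt hτ hτt x₀ J hJ U
  rw [H864.MC_self N (2 ^ n) τ] at h1
  exact h1 hU hR

end

end Vale.Agent.P159.H692
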