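import Vale.Agent.P159.H972.Lk3

/-!
P159 / LINKW# (helper692): the letters of the sharp form (plan of helper282): the pyramid with the
finer smoothing scale `2 ^ (u - 4 clog u)`, the torus step with the error exponent `p`, the drop.
-/

set_option linter.unusedSectionVars false

namespace Vale.Agent.P159.H692

open Finset Matrix
open Vale.Agent.P159.TM.Spec (V)
open Vale.Agent.P159.H864 (hsq)
open Vale.Agent.P159.H963 (Pin)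
open Vale.Agent.P159.H859 (smz)
open Vale.Agent.P159.H972 (Par tn em)

noncomputable section

/-- the smoothed pyramid of the start level `u`, fine smoothing -/
def fv (u : ℕ) : ℤ × ℤ → ℝ :=
  smz (2 ^ (u - 4 * Nat.clog 2 u)) (H859.pf (4 * 2 ^ u) (4 * 2 ^ u) ((2 ^ u : ℕ) : ℤ))

/-- (K2#) the torus step -/
def KTv (P : Par) (b p C1 : ℝ) (N0 : ℕ) (ε : ℕ → ℝ) : Prop :=
  ∀ m, N0 ≤ m → ∀ r r', P.TT m (ε m) r → P.TT m (ε m) r' →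
    ∀ u, u ≤ m → m ≤ 2 * u → (4 : ℝ) ^ (m - u) ≤ (m : ℝ) ^ C1 → ∀ a, 0 ≤ a → a ≤ 2 →
    |Xf (2 ^ r) b (tn m) a (em (2 ^ r) (fv u)) - Xf (2 ^ r') b (tn m) a (em (2 ^ r') (fv u))| ≤
      (m : ℝ) ^ (-p) * 4 ^ u

/-- (K3#) the drop -/
def KDv (P : Par) (b p3 : ℝ) (N0 : ℕ) (ε : ℕ → ℝ) : Prop :=
  ∀ n, N0 ≤ n → ∀ m, n + P.w (ε n) ≤ m → m ≤ n + 4 * P.w (ε n) → ∀ r, P.TT n (ε n) r →
    m + P.kE P.es ≤ r → ∀ u, u ≤ n →
    (((2 ^ r : ℕ) : ℝ) ^ 2)⁻¹ * ∑ k ∈ univ.erase (0 : V (2 ^ r)),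
      hsq (em (2 ^ r) (fv u)) k * (Pin (2 ^ r) b (tn n) k - Pin (2 ^ r) b (tn m) k) ≤
      ε n ^ p3 * 4 ^ u

end

end Vale.Agent.P159.H692
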