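import Vale.Agent.P159.H692.Dk3
import Vale.Agent.P159.H972.Lk5
import Vale.Agent.P159.H30.Tk9
import Vale.Agent.P159.H816.Ty2

/-!
P159 / LINKW (helper692): the inputs `KP`, `KT`, `KD` of helper972's `chain_end` as families, from
(K1) of helper340, (K2) of helper30, (K3) and helper816's `fam_typA`.
-/

set_option linter.unusedSectionVars false

namespace Vale.Agent.P159.H692

open Finset Matrix
open Vale.Agent.P159.H239 (Fam)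
open Vale.Agent.P159.H972

noncomputable section

variable {b b1 b2 pf : ℝ}

lemma fu_eq (u : ℕ) : fu u = H859.smz (H30.sj u) (H859.pf (4 * 2 ^ u) (4 * 2 ^ u) (2 ^ u)) := by
  unfold fu H30.sj
  push_cast
  rfl

lemma fu_eq' (u : ℕ) : fu u =
    H859.smz (2 ^ (u - 2 * Nat.clog 2 u)) (H859.pf (4 * 2 ^ u) (4 * 2 ^ u) (2 ^ u)) := by
  unfold fu
  push_cast
  rfl

/-- (K1) -/
theorem kp_fam (hb : 0 < b) (hh : 0 < helicity b) (hs : 1 / helicity b < 5 / 2) :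
    ∃ c1 : ℝ, 1 ≤ c1 ∧ ∀ b1 b2 pf : ℝ, Fam b1 b2 pf fun P N0 => ∀ (s : ℝ) (ε Y a : ℕ → ℝ),
      Chn P b s N0 ε Y a → KP P b c1 N0 ε a := by
  obtain ⟨c1, hc1, h⟩ := H340.fam_lkP hb hh hs
  refine ⟨c1, hc1, fun b1 b2 pf => (h b1 b2 pf).imp fun P N0 _ _ _ _ h1 => ?_⟩
  intro s ε Y a hC n hn r hr a0 d hd
  obtain ⟨τ, a', -, -, hG⟩ := hC.good n hn
  exact (h1 n (ε n) τ a' hn (hC.εpos hn) (hC.es n hn) (hG _ le_rfl (hC.es n hn))).prf r hr (a n)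
    a0 d (hC.fl n hn r hr) hd

/-- (K2) -/
theorem kt_fam (hb1 : 0 < b1) (b2 pf : ℝ) {s C1 : ℝ} (hs : 0 < s) (hC1 : 0 ≤ C1) :
    Fam b1 b2 pf fun P N0 => ∀ (b : ℝ) (ε Y a : ℕ → ℝ),
      Chn P b s N0 ε Y a → KT P b s C1 N0 ε := by
  refine (H30.k2 hb1 b2 pf (σ := 2 * s) (C₁ := C1) (p := s) (by linarith) hC1 hs.le
    (by linarith)).imp fun P N0 _ _ _ _ h => ?_
  intro b ε Y a hC m hm r r' hr hr' u hu hu' h4 a0 ha0 ha2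
  rw [fu_eq]
  exact h b m u r r' (ε m) (ε m) (Y m) a0 hm (hC.good m hm) (hC.yb m hm) (hC.yε m hm) le_rfl
    (hC.es m hm) (hC.e1 m hm) hr hr' hu hu' h4 ha0 ha2

/-- (K3) -/
theorem kd_fam (hb1 : 0 < b1) (h1 : b1 ≤ b) (hpf : 0 < pf) (hh : 0 < helicity b)
    (hs : 1 / helicity b < 5 / 2) {p3 : ℝ} (hp3 : p3 < 1) :
    Fam b1 b2 pf fun P N0 => ∀ (s : ℝ) (ε Y a : ℕ → ℝ),
      Chn P b s N0 ε Y a → KD P b p3 N0 ε := by
  refine (fam_k3 (hb1.trans_le h1) hh hs hp3 (H816.fam_typA hb1 h1 hpf)).imp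
    fun P N0 hA _ _ _ h => ?_
  intro s ε Y a hC n hn m hm hm' r hr hmr u hu
  have hS : SI P b N0 n m (ε n) (Y n) :=
    ⟨hn, hC.good n hn, hC.yb n hn, hC.yε n hn, hC.es n hn, hm, hm'⟩
  have hk : 3 ≤ P.kE (ε n) := hA.hk.trans (lg_anti P.th0.le (hC.εpos hn) (hC.es n hn))
  have hfit : Fit (2 ^ r) (fu u) := fu_fit (by have := hr.1; omega)
  rw [fu_eq'] at hfit ⊢
  exact h n m (ε n) (Y n) hS r hr (by omega) _ _ u _ hu (Nat.sub_le _ _) hfit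

/-- **the inputs of `chain_end`**, no hypothesis left -/
theorem lk_in (hb1 : 0 < b1) (h1 : b1 ≤ b) (hpf : 0 < pf) (hh : 0 < helicity b)
    (hs : 1 / helicity b < 5 / 2) :
    ∃ c1 : ℝ, 1 ≤ c1 ∧ ∀ s C1 p3 : ℝ, 0 < s → 0 ≤ C1 → p3 < 1 →
      Fam b1 b2 pf fun P N0 => ∀ ε Y a : ℕ → ℝ, Chn P b s N0 ε Y a →
        KP P b c1 N0 ε a ∧ KT P b s C1 N0 ε ∧ KD P b p3 N0 ε := by
  obtain ⟨c1, hc1, h⟩ := kp_fam (hb1.trans_le h1) hh hs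
  refine ⟨c1, hc1, fun s C1 p3 hs0 hC1 hp3 => ?_⟩
  refine (((h b1 b2 pf).and (kt_fam hb1 b2 pf hs0 hC1)).and
    (kd_fam hb1 h1 hpf hh hs hp3)).imp fun P N0 _ _ _ _ hh' => ?_
  intro ε Y a hC
  exact ⟨hh'.1.1 s ε Y a hC, hh'.1.2 b ε Y a hC, hh'.2 s ε Y a hC⟩

end

end Vale.Agent.P159.H692
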