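import Vale.Agent.P159.H692.Lks0
import Vale.Agent.P159.H513.Eta15

/-!
P159 / LINKW, sum forms (helper692): from `stiff (2 ^ i) b - S ≤ i ^ (-s)` for every `s < 1` the sum
form of helper282 (`xi_up`) and helper513's `LkS`.
-/

namespace Vale.Agent.P159.H692

open Finset Filter Topology

noncomputable section

/-- helper513's form -/
theorem lkS_of {b S : ℝ}
    (h : ∀ s : ℝ, s < 1 → ∀ᶠ i : ℕ in atTop, stiff (2 ^ i) b - S ≤ (i : ℝ) ^ (-s)) :
    H513.LkS b S := by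
  intro e he
  obtain ⟨n0, h1⟩ := rate_all h he
  exact ⟨n0, fun n hn => (h1 n hn).2⟩

/-- helper282's form -/
theorem hL_of {b S : ℝ}
    (h : ∀ s : ℝ, s < 1 → ∀ᶠ i : ℕ in atTop, stiff (2 ^ i) b - S ≤ (i : ℝ) ^ (-s)) :
    ∀ e : ℝ, 0 < e → ∀ᶠ N : ℕ in atTop, ∑ j ∈ range N, (stiff (2 ^ j) b - S) ≤ (N : ℝ) ^ e := by
  intro e he
  obtain ⟨n0, h1⟩ := rate_all h he
  exact eventually_atTop.2 ⟨n0, fun n hn => (h1 n hn).1⟩

end

end Vale.Agent.P159.H692
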