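import Vale.Agent.P159.H692.Ch4
import Vale.Agent.P159.H692.LkF
import Vale.Agent.P159.H692.Lks
import Vale.Agent.P159.H340.Le1

/-!
P159 / **LINKW**, last file (helper692).  From the flow of the master (`SFlow`): the stiffness of the
squares of side `2 ^ i` at the critical point is at most `2 / π + i ^ (-s)` for all large `i`, for
every `s < 1 - 2 c`; the sum forms for the consumers (helper282, helper513).
-/

set_option linter.unusedSectionVars false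

namespace Vale.Agent.P159.H692

open Filter Topology Finset
open Vale.Agent.P159.H801 (SFlow Ev)

noncomputable section

variable {b b1 b2 pf σ c s qx : ℝ} {Q : ℕ}

/-- the exponents of the chain -/
lemma exps_link (hc2 : c < 1 / 8) (hc : 0 ≤ c) (hs : s < 1 - 2 * c) :
    ∃ t p : ℝ, 3 / 4 ≤ t ∧ t < 1 - 2 * c ∧ p < 1 ∧ 7 / 8 ≤ p ∧ s < t * p := by
  obtain ⟨u, hu⟩ : ∃ u, u = max s (3 / 4) := ⟨_, rfl⟩
  have hu1 : s ≤ u := by rw [hu]; exact le_max_left _ _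
  have hu2 : 3 / 4 ≤ u := by rw [hu]; exact le_max_right _ _
  have hu3 : u < 1 - 2 * c := by rw [hu]; exact max_lt hs (by linarith)
  obtain ⟨t, ht⟩ : ∃ t, t = (u + (1 - 2 * c)) / 2 := ⟨_, rfl⟩
  have ht1 : u < t := by rw [ht]; linarith
  have ht2 : t < 1 - 2 * c := by rw [ht]; linarith
  have ht0 : 0 < t := by linarith
  have hq1 : u / t < 1 := (div_lt_one ht0).2 ht1
  have hq2 : 3 / 4 ≤ u / t := by
    rw [le_div_iff₀ ht0]
    nlinarith
  have hq3 : u / t * t = u := div_mul_cancel₀ _ ht0.ne'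
  refine ⟨t, (u / t + 1) / 2, by linarith, ht2, by linarith, by linarith, ?_⟩
  have : t * ((u / t + 1) / 2) = (u + t) / 2 := by
    calc t * ((u / t + 1) / 2) = (u / t * t + t) / 2 := by ring
      _ = _ := by rw [hq3]
  rw [this]
  linarith

/-- **LINKW** in the order of constants -/
theorem lks_flow (hb1 : 0 < b1) (hY : helicity b = 2 / Real.pi) (h1 : b1 ≤ b) (h2 : b ≤ b2)
    (hσ : 0 < σ) (hσ1 : σ ≤ 1 / 4) (hpf : 1 ≤ (2 - 3 * σ) * pf) (hc : 0 ≤ c) (hc2 : c < 1 / 8)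
    (hs : s < 1 - 2 * c) :
    Ev b1 b2 pf Q fun P c1 => ∀ (q2 : ℝ) (a y ε xs : ℕ → ℝ) (c' r q A : ℝ) (N : ℕ),
      SFlow P b σ c c1 q2 qx a y ε xs c' r q A N →
      ∀ᶠ i : ℕ in atTop, stiff (2 ^ i) b - 2 / Real.pi ≤ (i : ℝ) ^ (-s) := by
  have hb : 0 < b := hb1.trans_le h1
  obtain ⟨t, p, ht1, ht2, hp1, hp2, hst⟩ := exps_link hc2 hc hs
  obtain ⟨C1, hC1, hrate⟩ := H340.Le.link_rate hb
  have hh : 0 < helicity b := by
    rw [hY]
    exact div_pos two_pos Real.pi_pos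
  have hh2 : 1 / helicity b < 5 / 2 := by
    rw [hY, one_div_div]
    linarith [Real.pi_lt_four]
  obtain ⟨k1, hk1, hin⟩ := lk_in (b2 := b2) hb1 h1 (show 0 < p by linarith) hh hh2
  have hF := hin t C1 (1 / 2) (by linarith) hC1 (by norm_num)
  refine (chn_ev (Q := Q) (qx := qx) hb1 hY h1 h2 hσ hσ1 hpf (by nlinarith) hp1 hc ht1 ht2
    hF).mono ?_
  intro P c1 _ h q2 a y ε xs c' r q A N F
  obtain ⟨P', -, -, -, p3, -, -, ε', Y', a', hev⟩ := h q2 a y ε xs c' r q A N F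
  obtain ⟨N0, hC, hS⟩ := hev.exists
  obtain ⟨g1, g2, g3⟩ := hS ε' Y' a' hC
  exact hrate P' t N0 ε' Y' a' hC k1 (1 / 2) hk1 g1 g2 g3 le_rfl s (by rw [p3]; exact hst)

/-- what the master gives to a consumer: any conclusion `Z` which follows from the flow -/
def MasterZ (b b1 b2 qx : ℝ) (Q : ℕ) : Prop :=
  ∀ c : ℝ, 0 < c → c ≤ 1 / 80 → ∀ Z : Prop,
    (Ev b1 b2 (9 / 10) Q fun P c1 => ∀ (q2 : ℝ) (a y ε xs : ℕ → ℝ) (c' r q A : ℝ) (N : ℕ),
      SFlow P b (1 / 20) c c1 q2 qx a y ε xs c' r q A N → Z) → Z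

/-- **LINKW**: every exponent -/
theorem lks_all (hb1 : 0 < b1) (hY : helicity b = 2 / Real.pi) (h1 : b1 ≤ b) (h2 : b ≤ b2)
    (H : MasterZ b b1 b2 qx Q) :
    ∀ s : ℝ, s < 1 → ∀ᶠ i : ℕ in atTop, stiff (2 ^ i) b - 2 / Real.pi ≤ (i : ℝ) ^ (-s) := by
  intro s hs
  have hc0 : 0 < min (1 / 80 : ℝ) ((1 - s) / 4) := lt_min (by norm_num) (by linarith)
  have hc1 : min (1 / 80 : ℝ) ((1 - s) / 4) ≤ 1 / 80 := min_le_left _ _
  have hc2 : min (1 / 80 : ℝ) ((1 - s) / 4) ≤ (1 - s) / 4 := min_le_right _ _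
  exact H _ hc0 hc1 _ (lks_flow hb1 hY h1 h2 (by norm_num) (by norm_num) (by norm_num) hc0.le
    (by linarith) (by linarith))

/-- **LINKW**, helper513's form -/
theorem lkS_master (hb1 : 0 < b1) (hY : helicity b = 2 / Real.pi) (h1 : b1 ≤ b) (h2 : b ≤ b2)
    (H : MasterZ b b1 b2 qx Q) : H513.LkS b (2 / Real.pi) :=
  lkS_of (lks_all hb1 hY h1 h2 H)

/-- **LINKW**, helper282's form -/
theorem hL_master (hb1 : 0 < b1) (hY : helicity b = 2 / Real.pi) (h1 : b1 ≤ b) (h2 : b ≤ b2)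
    (H : MasterZ b b1 b2 qx Q) :
    ∀ e : ℝ, 0 < e → ∀ᶠ N : ℕ in atTop,
      ∑ j ∈ range N, (stiff (2 ^ j) b - 2 / Real.pi) ≤ (N : ℝ) ^ e :=
  hL_of (lks_all hb1 hY h1 h2 H)

end

end Vale.Agent.P159.H692
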