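import Vale.Agent.P159.H692.LkF
import Vale.Agent.P159.H692.LkV

/-!
P159 / LINKW# (helper692): the inputs `KP`, `KTv`, `KDv` of the sharp chain as families, no
hypothesis left.
-/

set_option linter.unusedSectionVars false

namespace Vale.Agent.P159.H692

open Finset Matrix
open Vale.Agent.P159.H239 (Fam)
open Vale.Agent.P159.H972

noncomputable section

variable {b b1 b2 pf : ℝ}

/-- the fine smoothing scale -/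
def sv (u : ℕ) : ℕ := 2 ^ (u - 4 * Nat.clog 2 u)

lemma sv_pos (u : ℕ) : 1 ≤ sv u := Nat.one_le_two_pow

lemma sv_le (u : ℕ) : sv u ≤ 2 ^ u := Nat.pow_le_pow_right (by norm_num) (Nat.sub_le _ _)

lemma fv_eq (u : ℕ) : fv u =
    H859.smz (sv u) (H859.pf (4 * 2 ^ u) (4 * 2 ^ u) ((2 ^ u : ℕ) : ℤ)) := rfl

lemma fv_eq' (u : ℕ) : fv u =
    H859.smz (2 ^ (u - 4 * Nat.clog 2 u)) (H859.pf (4 * 2 ^ u) (4 * 2 ^ u) (2 ^ u)) := by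
  unfold fv
  push_cast
  rfl

lemma fv_fit {u r : ℕ} (hr : u + 3 ≤ r) : Fit (2 ^ r) (fv u) := by
  have h1 : 2 ^ (u - 4 * Nat.clog 2 u) ≤ 2 ^ u := Nat.pow_le_pow_right (by norm_num) (by omega)
  have h2 : 2 ^ (u + 3) ≤ 2 ^ r := Nat.pow_le_pow_right (by norm_num) hr
  have h3 : 2 ^ (u + 3) = 8 * 2 ^ u := by rw [pow_add]; ring
  have h4 : 0 < 2 ^ u := Nat.two_pow_pos u
  have h1' : ((2 ^ (u - 4 * Nat.clog 2 u) : ℕ) : ℤ) ≤ ((2 ^ u : ℕ) : ℤ) := by exact_mod_cast h1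
  have h2' : 8 * ((2 ^ u : ℕ) : ℤ) ≤ ((2 ^ r : ℕ) : ℤ) := by
    rw [h3] at h2
    exact_mod_cast h2
  have h4' : (0 : ℤ) < ((2 ^ u : ℕ) : ℤ) := by exact_mod_cast h4
  have h5 : (2 : ℤ) ^ u = ((2 ^ u : ℕ) : ℤ) := by push_cast; rfl
  refine fit_smz ?_ ?_ ?_ ?_ <;> rw [h5] <;> omega

/-- the smoothing scale is polynomially smaller than the radius -/
lemma sv_mul {u : ℕ} (hu : 1 ≤ u) :
    (4 : ℝ) ^ u ≤ (4 * (u : ℝ) ^ 2) ^ 2 * ((sv u : ℕ) * 2 ^ u) := by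
  have h1 : ((4 : ℝ) ^ Nat.clog 2 u) ≤ 4 * (u : ℝ) ^ 2 := by
    exact_mod_cast H30.clog_sq (u := u) hu
  have h2 : (2 : ℝ) ^ (4 * Nat.clog 2 u) = ((4 : ℝ) ^ Nat.clog 2 u) ^ 2 := by
    rw [← pow_mul, show (4 : ℝ) = 2 ^ 2 by norm_num, ← pow_mul]
    congr 1
    ring
  have h3 : (2 : ℝ) ^ u ≤ 2 ^ (4 * Nat.clog 2 u) * (sv u : ℕ) := by
    unfold sv
    push_cast
    rw [← pow_add]
    exact pow_le_pow_right₀ (by norm_num) (by omega)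
  have h4 : (4 : ℝ) ^ u = 2 ^ u * 2 ^ u := by
    rw [← mul_pow]
    norm_num
  rw [h4]
  calc (2 : ℝ) ^ u * 2 ^ u ≤ (2 ^ (4 * Nat.clog 2 u) * (sv u : ℕ)) * 2 ^ u := by gcongr
    _ = ((4 : ℝ) ^ Nat.clog 2 u) ^ 2 * ((sv u : ℕ) * 2 ^ u) := by rw [h2]; ring
    _ ≤ _ := by gcongr

/-- (K2#) -/
theorem ktv_fam (hb1 : 0 < b1) (b2 pf : ℝ) {s p C1 : ℝ} (hs : 0 < s) (hp0 : 0 ≤ p)
    (hp : p < 2 * s) (hC1 : 0 ≤ C1) :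
    Fam b1 b2 pf fun P N0 => ∀ (b : ℝ) (ε Y a : ℕ → ℝ),
      Chn P b s N0 ε Y a → KTv P b p C1 N0 ε := by
  have hκ : 0 < (2 * s - p) / (2 * (2 * s)) := div_pos (by linarith) (by linarith)
  have hκ1 : (2 * s - p) / (2 * (2 * s)) ≤ 1 := by
    rw [div_le_one (by linarith)]
    linarith
  have hpκ : p < 2 * s * (1 - (2 * s - p) / (2 * (2 * s))) := by
    have : 2 * s * (1 - (2 * s - p) / (2 * (2 * s))) = (2 * s + p) / 2 := by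
      field_simp
      ring
    rw [this]
    linarith
  have h0 : Fam b1 b2 pf fun (_ : Par) N0 => 16 ≤ N0 :=
    ⟨0, fun _ _ => ⟨1, one_pos, fun _ _ _ => ⟨0, fun _ _ => ⟨1, one_pos, fun _ _ _ => ⟨0,
      fun _ _ => ⟨1, one_pos, fun _ _ _ => ⟨1, one_pos, fun _ _ _ => ⟨0, fun _ _ _ =>
      ⟨1, one_pos, fun _ _ _ => ⟨16, fun _ h => h⟩⟩⟩⟩⟩⟩⟩⟩⟩⟩
  refine ((H30.k2_fam hb1 b2 pf (σ := 2 * s) (C₁ := C1 + 5) hκ hκ1 (by linarith)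
    (by linarith) hpκ).and h0).imp fun P N0 hA _ _ _ hh => ?_
  obtain ⟨h, h16⟩ := hh
  intro b ε Y a hC m hm r r' hr hr' u hu hu' h4 a0 ha0 ha2
  have hm16' : 16 ≤ m := h16.trans hm
  have hε := hC.εpos hm
  have hk : 3 ≤ P.kE (ε m) := hA.hk.trans (lg_anti P.th0.le hε (hC.es m hm))
  have hm16 : (16 : ℝ) ≤ m := by exact_mod_cast h16.trans hm
  have hm0 : (0 : ℝ) < m := by linarith
  have h5 : (4 : ℝ) ^ m ≤ (m : ℝ) ^ (C1 + 5) * ((sv u : ℕ) * 2 ^ u) := by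
    have h6 : (4 : ℝ) ^ m = 4 ^ (m - u) * 4 ^ u := by
      rw [← pow_add, Nat.sub_add_cancel hu]
    have h7 : (m : ℝ) ^ (C1 + 5) = (m : ℝ) ^ C1 * (m : ℝ) ^ 5 := by
      rw [Real.rpow_add hm0]
      norm_num
    have h8 : (4 * (u : ℝ) ^ 2) ^ 2 ≤ (m : ℝ) ^ 5 := by
      have h9 : (u : ℝ) ≤ m := by exact_mod_cast hu
      have h10 : (4 * (u : ℝ) ^ 2) ^ 2 ≤ (4 * (m : ℝ) ^ 2) ^ 2 := by gcongr
      have h11 : (4 * (m : ℝ) ^ 2) ^ 2 = 16 * (m : ℝ) ^ 4 := by ring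
      have h12 : (m : ℝ) ^ 5 = m * (m : ℝ) ^ 4 := by ring
      have h13 : 0 < (m : ℝ) ^ 4 := by positivity
      rw [h12]
      nlinarith
    have h11 : (0 : ℝ) ≤ (sv u : ℕ) * 2 ^ u := by positivity
    have h12 : (0 : ℝ) ≤ (m : ℝ) ^ C1 := Real.rpow_nonneg hm0.le _
    rw [h6, h7]
    calc (4 : ℝ) ^ (m - u) * 4 ^ u ≤
          (m : ℝ) ^ C1 * ((4 * (u : ℝ) ^ 2) ^ 2 * ((sv u : ℕ) * 2 ^ u)) :=
          mul_le_mul h4 (sv_mul (by omega)) (by positivity) h12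
      _ ≤ (m : ℝ) ^ C1 * ((m : ℝ) ^ 5 * ((sv u : ℕ) * 2 ^ u)) := by gcongr
      _ = _ := by ring
  rw [fv_eq]
  have f1 : Fit (2 ^ r) (H859.smz (sv u) (H859.pf (4 * 2 ^ u) (4 * 2 ^ u) ((2 ^ u : ℕ) : ℤ))) := by
    rw [← fv_eq]
    exact fv_fit (by have := hr.1; omega)
  have f2 : Fit (2 ^ r') (H859.smz (sv u) (H859.pf (4 * 2 ^ u) (4 * 2 ^ u) ((2 ^ u : ℕ) : ℤ))) := by
    rw [← fv_eq]
    exact fv_fit (by have := hr'.1; omega)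
  exact h b m u (sv u) r r' (ε m) (ε m) (Y m) a0 (4 * 2 ^ u) (4 * 2 ^ u) hm (hC.good m hm)
    (hC.yb m hm) (hC.yε m hm) le_rfl (hC.es m hm) (hC.e1 m hm) hr hr' hu (sv_pos u) (sv_le u) h5
    ha0 ha2 f1 f2

/-- (K3#) -/
theorem kdv_fam (hb1 : 0 < b1) (h1 : b1 ≤ b) (hpf : 0 < pf) (hh : 0 < helicity b)
    (hs : 1 / helicity b < 5 / 2) {p3 : ℝ} (hp3 : p3 < 1) :
    Fam b1 b2 pf fun P N0 => ∀ (s : ℝ) (ε Y a : ℕ → ℝ),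
      Chn P b s N0 ε Y a → KDv P b p3 N0 ε := by
  refine (fam_k3 (hb1.trans_le h1) hh hs hp3 (H816.fam_typA hb1 h1 hpf)).imp
    fun P N0 hA _ _ _ h => ?_
  intro s ε Y a hC n hn m hm hm' r hr hmr u hu
  have hS : SI P b N0 n m (ε n) (Y n) :=
    ⟨hn, hC.good n hn, hC.yb n hn, hC.yε n hn, hC.es n hn, hm, hm'⟩
  have hk : 3 ≤ P.kE (ε n) := hA.hk.trans (lg_anti P.th0.le (hC.εpos hn) (hC.es n hn))
  have hfit : Fit (2 ^ r) (fv u) := fv_fit (by have := hr.1; omega)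
  rw [fv_eq'] at hfit ⊢
  exact h n m (ε n) (Y n) hS r hr (by omega) _ _ u _ hu (Nat.sub_le _ _) hfit

/-- **the inputs of the sharp chain**, no hypothesis left -/
theorem lk_inv (hb1 : 0 < b1) (h1 : b1 ≤ b) (hpf : 0 < pf) (hh : 0 < helicity b)
    (hs : 1 / helicity b < 5 / 2) :
    ∃ c1 : ℝ, 1 ≤ c1 ∧ ∀ s p C1 p3 : ℝ, 0 < s → 0 ≤ p → p < 2 * s → 0 ≤ C1 → p3 < 1 →
      Fam b1 b2 pf fun P N0 => ∀ ε Y a : ℕ → ℝ, Chn P b s N0 ε Y a →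
        KP P b c1 N0 ε a ∧ KTv P b p C1 N0 ε ∧ KDv P b p3 N0 ε := by
  obtain ⟨c1, hc1, h⟩ := kp_fam (hb1.trans_le h1) hh hs
  refine ⟨c1, hc1, fun s p C1 p3 hs0 hp0 hp hC1 hp3 => ?_⟩
  refine (((h b1 b2 pf).and (ktv_fam hb1 b2 pf hs0 hp0 hp hC1)).and
    (kdv_fam hb1 h1 hpf hh hs hp3)).imp fun P N0 _ _ _ _ hh' => ?_
  intro ε Y a hC
  exact ⟨hh'.1.1 s ε Y a hC, hh'.1.2 b ε Y a hC, hh'.2 s ε Y a hC⟩

end

end Vale.Agent.P159.H692
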