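import Vale.Agent.P159.H692.Lk1

/-!
P159 / LINKW, steps (C1), (C2), (C4) (helper692): size of the local form `Xf` from the flat profile,
mass step, final use.
-/

set_option linter.unusedSectionVars false

namespace Vale.Agent.P159.H692

open Finset Matrix
open Vale.Agent.P159.H37
open Vale.Agent.P159.TM.H764 (EE hatu)
open Vale.Agent.P159.TM.Spec (V)
open Vale.Agent.P159.TM.SpecC (wT)
open Vale.Agent.P159.H864 (TI sym hsq hsq_nonneg lapM ti_lapM sym_lapM qf_eq_sum sum_hsq)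
open Vale.Agent.P159.H963 (nwt Pin Gn Gnh ti_Gn Gnh_zero Gnh_pos Pin_nonneg)
open Vale.Agent.P159.H972 (FL)
open Vale.Agent.P159.H462 (hatu_mulVec EE_pos EE_zero)

noncomputable section

variable {N : ℕ} [NeZero N] {b t t' a c0 c1 δ η B C : ℝ}

/-- hypotheses on the profile at mass `t`: two sided bound and flatness in quartic form -/
structure PrF (N : ℕ) [NeZero N] (b t a c0 c1 δ η : ℝ) : Prop where
  lo : ∀ k : V N, k ≠ 0 → c0 * EE k ≤ Pin N b t k
  up : ∀ k : V N, k ≠ 0 → Pin N b t k ≤ c1 * EE k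
  fl : ∀ k : V N, k ≠ 0 → |Pin N b t k - a * EE k| ≤ (δ + η * (EE k / t)) * EE k

/-- the flat profile in the letters of `FL`, stiffness `a'` close to `a` -/
theorem PrF.of_FL {a' d : ℝ} (ht : 0 < t) (h : FL b t a' η N) (hd : |a' - a| ≤ d)
    (lo : ∀ k : V N, k ≠ 0 → c0 * EE k ≤ Pin N b t k)
    (up : ∀ k : V N, k ≠ 0 → Pin N b t k ≤ c1 * EE k) :
    PrF N b t a c0 c1 (2 * η + d) (2 * η) where
  lo := lo
  up := up
  fl k hk := by
    have h1 := h.flat ht hk
    have hE := EE_pos hk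
    have h2 : Pin N b t k - a * EE k = (Pin N b t k - a' * EE k) + (a' - a) * EE k := by ring
    rw [h2]
    refine (abs_add_le _ _).trans ?_
    rw [abs_mul, abs_of_pos hE]
    have h3 := mul_le_mul_of_nonneg_right hd hE.le
    have h4 : (2 * η + d + 2 * η * (EE k / t)) * EE k =
        2 * η * (1 + EE k / t) * EE k + d * EE k := by ring
    rw [h4]
    linarith

lemma hsq_add_le (g h : V N → ℝ) (k : V N) : hsq (g + h) k ≤ 2 * hsq g k + 2 * hsq h k := by
  have h1 : hatu (g + h) k = hatu g k + hatu h k := by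
    unfold TM.H764.hatu
    rw [← Finset.sum_add_distrib]
    refine Finset.sum_congr rfl fun x _ => ?_
    rw [Pi.add_apply]
    push_cast
    ring
  unfold hsq
  rw [h1, Complex.normSq_apply, Complex.normSq_apply, Complex.normSq_apply, Complex.add_re,
    Complex.add_im]
  nlinarith [sq_nonneg ((hatu g k).re - (hatu h k).re), sq_nonneg ((hatu g k).im - (hatu h k).im)]

/-- sums over `k /= 0` of nonnegative terms -/
lemma sum_erase_le {F : V N → ℝ} (h0 : 0 ≤ F 0) :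
    ((N : ℝ) ^ 2)⁻¹ * ∑ k ∈ univ.erase (0 : V N), F k ≤ ((N : ℝ) ^ 2)⁻¹ * ∑ k, F k := by
  refine mul_le_mul_of_nonneg_left ?_ (inv_nonneg.2 H864.N_pos.le)
  rw [sum_split0 F]
  linarith

lemma four_D (f : V N → ℝ) : ((N : ℝ) ^ 2)⁻¹ * ∑ k, EE k * hsq f k = qf lapM f := by
  rw [qf_eq_sum ti_lapM]
  simp_rw [sym_lapM]

lemma four_L (f : V N → ℝ) :
    ((N : ℝ) ^ 2)⁻¹ * ∑ k, EE k ^ 2 * hsq f k = ∑ x, (lapM *ᵥ f) x ^ 2 := by
  rw [← sum_hsq (lapM *ᵥ f)]
  simp_rw [hsq_mulVec ti_lapM, sym_lapM]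

lemma D_nonneg (f : V N → ℝ) : 0 ≤ qf lapM f := by
  rw [← four_D]
  refine mul_nonneg (inv_nonneg.2 H864.N_pos.le) (Finset.sum_nonneg fun k _ => ?_)
  refine mul_nonneg ?_ (hsq_nonneg f k)
  by_cases hk : k = 0
  · rw [hk, EE_zero]
  · exact (EE_pos hk).le

lemma EE_nn (k : V N) : 0 ≤ EE k := by
  by_cases hk : k = 0
  · rw [hk, EE_zero]
  · exact (EE_pos hk).le

/-- **(C1)**: the size of the form from the profile. `f = g + h`: `g` smooth, `h` small -/
theorem xf_c1 (hb : 0 < b) (ht : 0 < t) (h : PrF N b t a c0 c1 δ η) (hc0 : 0 < c0) (ha : 0 ≤ a)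
    (hc1 : 0 ≤ c1) (hη : 0 ≤ η) (hδ : 0 ≤ δ) (hC1 : 1 ≤ C) (hC : a ≤ C * c0) (g u : V N → ℝ) :
    |Xf N b t a (g + u)| ≤ C * (δ * qf lapM (g + u) + 2 * (η / t) * ∑ x, (lapM *ᵥ g) x ^ 2 +
      2 * (a + c1) * qf lapM u) := by
  rw [Xf_eq hb ht, abs_mul, abs_of_nonneg (inv_nonneg.2 H864.N_pos.le)]
  have h1 : ∀ k ∈ univ.erase (0 : V N), |hsq (g + u) k * Yk t a (EE k) (Pin N b t k)| ≤
      C * (δ * (EE k * hsq (g + u) k) + 2 * (η / t) * (EE k ^ 2 * hsq g k) +
        2 * (a + c1) * (EE k * hsq u k)) := by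
    intro k hk
    have hk0 := (Finset.mem_erase.1 hk).1
    have hE := EE_pos hk0
    have hlo := h.lo k hk0
    have hup := h.up k hk0
    have hP : 0 ≤ Pin N b t k := (by positivity : 0 ≤ c0 * EE k).trans hlo
    have haE : 0 ≤ a * EE k := mul_nonneg ha hE.le
    have h2 : t + a * EE k ≤ C * (t + Pin N b t k) := by
      have h3 : a * EE k ≤ C * (c0 * EE k) := by
        calc a * EE k ≤ C * c0 * EE k := mul_le_mul_of_nonneg_right hC hE.le
          _ = _ := by ring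
      have h4 : C * (c0 * EE k) ≤ C * Pin N b t k := mul_le_mul_of_nonneg_left hlo (by linarith)
      nlinarith
    have h3 := Yk_abs (a := a) (E := EE k) (by linarith : 0 < t + Pin N b t k) (by linarith) h2
    have h4 : |a * EE k - Pin N b t k| ≤ δ * EE k + η / t * EE k ^ 2 := by
      rw [abs_sub_comm]
      refine (h.fl k hk0).trans (le_of_eq ?_)
      field_simp
    have h5 : |a * EE k - Pin N b t k| ≤ (a + c1) * EE k := by
      rw [abs_le]
      have e1 : 0 ≤ c1 * EE k := mul_nonneg hc1 hE.le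
      constructor <;> nlinarith
    have hq := hsq_nonneg (g + u) k
    have hg := hsq_nonneg g k
    have hu := hsq_nonneg u k
    have hs := hsq_add_le g u k
    have h6 : hsq (g + u) k * |a * EE k - Pin N b t k| ≤
        δ * (EE k * hsq (g + u) k) + 2 * (η / t) * (EE k ^ 2 * hsq g k) +
          2 * (a + c1) * (EE k * hsq u k) := by
      set m := |a * EE k - Pin N b t k| - δ * EE k with hm
      have m1 : m ≤ η / t * EE k ^ 2 := by rw [hm]; linarith
      have m2 : m ≤ (a + c1) * EE k := by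
        rw [hm]
        have : 0 ≤ δ * EE k := mul_nonneg hδ hE.le
        linarith
      have m3 : 0 ≤ η / t * EE k ^ 2 := by positivity
      have m4 : 0 ≤ (a + c1) * EE k := mul_nonneg (by linarith) hE.le
      have e0 : hsq (g + u) k * |a * EE k - Pin N b t k| =
          δ * (EE k * hsq (g + u) k) + hsq (g + u) k * m := by rw [hm]; ring
      have e1 : hsq (g + u) k * m ≤ 2 * hsq g k * (η / t * EE k ^ 2) +
          2 * hsq u k * ((a + c1) * EE k) := by
        by_cases hm0 : 0 ≤ m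
        · have k1 := mul_le_mul_of_nonneg_right hs hm0
          have k2 := mul_le_mul_of_nonneg_left m1 (by linarith : 0 ≤ 2 * hsq g k)
          have k3 := mul_le_mul_of_nonneg_left m2 (by linarith : 0 ≤ 2 * hsq u k)
          linarith
        · have k1 : hsq (g + u) k * m ≤ 0 := mul_nonpos_of_nonneg_of_nonpos hq (by linarith)
          have k2 : 0 ≤ 2 * hsq g k * (η / t * EE k ^ 2) := mul_nonneg (by linarith) m3
          have k3 : 0 ≤ 2 * hsq u k * ((a + c1) * EE k) := mul_nonneg (by linarith) m4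
          linarith
      rw [e0]
      linarith
    rw [abs_mul, abs_of_nonneg hq]
    calc hsq (g + u) k * |Yk t a (EE k) (Pin N b t k)|
        ≤ hsq (g + u) k * (C * |a * EE k - Pin N b t k|) := mul_le_mul_of_nonneg_left h3 hq
      _ = C * (hsq (g + u) k * |a * EE k - Pin N b t k|) := by ring
      _ ≤ _ := mul_le_mul_of_nonneg_left h6 (by linarith)
  have h2 : |∑ k ∈ univ.erase (0 : V N), hsq (g + u) k * Yk t a (EE k) (Pin N b t k)| ≤
      ∑ k ∈ univ.erase (0 : V N), C * (δ * (EE k * hsq (g + u) k) +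
        2 * (η / t) * (EE k ^ 2 * hsq g k) + 2 * (a + c1) * (EE k * hsq u k)) :=
    (Finset.abs_sum_le_sum_abs _ _).trans (Finset.sum_le_sum h1)
  refine (mul_le_mul_of_nonneg_left h2 (inv_nonneg.2 H864.N_pos.le)).trans ?_
  refine (sum_erase_le ?_).trans (le_of_eq ?_)
  · have := EE_nn (0 : V N)
    have h3 := hsq_nonneg (g + u) (0 : V N)
    have h4 := hsq_nonneg g (0 : V N)
    have h5 := hsq_nonneg u (0 : V N)
    positivity
  · rw [← four_D, ← four_L, ← four_D u]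
    simp_rw [← Finset.mul_sum, Finset.sum_add_distrib, ← Finset.mul_sum]
    ring

lemma sq_small {δ y B r : ℝ} (r0 : 0 ≤ r) (hy : 0 ≤ y) (hB : 0 ≤ B) (h1 : r ≤ δ + y)
    (h2 : r ≤ B) : r ^ 2 ≤ 2 * (δ ^ 2 + B * y) := by
  by_cases hrδ : r ≤ δ
  · have h3 : r ^ 2 ≤ δ ^ 2 := pow_le_pow_left₀ r0 hrδ 2
    have h4 : 0 ≤ B * y := mul_nonneg hB hy
    linarith [sq_nonneg δ]
  · push Not at hrδ
    by_cases hδ0 : 0 ≤ δ
    · have s0 : 0 ≤ r - δ := by linarith
      have s3 : (r - δ) * (r - δ) ≤ B * y :=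
        mul_le_mul (by linarith) (by linarith) s0 hB
      nlinarith [sq_nonneg (r - 2 * δ)]
    · push Not at hδ0
      have s3 : r * r ≤ B * y := mul_le_mul h2 (by linarith) r0 hB
      nlinarith [sq_nonneg δ]

/-- the second order term of one mode in a mass step -/
lemma sq_mode {t t' a c0 c1 δ η E P : ℝ} (ht' : 0 < t') (htt : t' ≤ t) (hE : 0 < E) (hc0 : 0 < c0)
    (hlo : c0 * E ≤ P) (hup : P ≤ c1 * E) (ha : 0 ≤ a) (hc1 : 0 ≤ c1) (hη : 0 ≤ η)
    (hfl : |P - a * E| ≤ (δ + η * (E / t)) * E) :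
    (a * E - P) ^ 2 / ((t' + P) * (t + P)) ≤ 2 / c0 ^ 2 * (δ ^ 2 + (a + c1) * η * (E / t)) := by
  have ht : 0 < t := ht'.trans_le htt
  have hc0E : 0 < c0 * E := by positivity
  have hP : 0 < P := hc0E.trans_le hlo
  have haE : 0 ≤ a * E := mul_nonneg ha hE.le
  have h6 : |a * E - P| ≤ (a + c1) * E := by
    have e1 : 0 ≤ c1 * E := mul_nonneg hc1 hE.le
    rw [abs_le, add_mul]
    constructor <;> linarith
  obtain ⟨r, hr⟩ : ∃ r, r = |a * E - P| / E := ⟨_, rfl⟩
  have r0 : 0 ≤ r := by rw [hr]; positivity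
  have r1 : r ≤ δ + η * (E / t) := by
    rw [hr, div_le_iff₀ hE, abs_sub_comm]
    exact hfl
  have r2 : r ≤ a + c1 := by
    rw [hr, div_le_iff₀ hE]
    exact h6
  have r3 : |a * E - P| = r * E := by
    rw [hr]
    field_simp
  have y0 : 0 ≤ η * (E / t) := by positivity
  have r4 := sq_small r0 y0 (by linarith) r1 r2
  have h7 : (a * E - P) ^ 2 = r ^ 2 * E ^ 2 := by
    rw [← sq_abs, r3]
    ring
  rw [h7, div_le_iff₀ (by positivity)]
  have h8 : (c0 * E) * (c0 * E) ≤ (t' + P) * (t + P) :=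
    mul_le_mul (by linarith) (by linarith) hc0E.le (by positivity)
  have h9 : 0 ≤ 2 / c0 ^ 2 * (δ ^ 2 + (a + c1) * η * (E / t)) := by
    have : 0 ≤ (a + c1) * η * (E / t) := by positivity
    positivity
  have h10 := mul_le_mul_of_nonneg_right r4 (sq_nonneg E)
  refine h10.trans (le_trans (le_of_eq ?_) (mul_le_mul_of_nonneg_left h8 h9))
  field_simp

/-- one mode in a mass step -/
lemma mode2 {t t' a c0 c1 δ η E P P' C q : ℝ} (ht' : 0 < t') (htt : t' ≤ t) (hE : 0 < E)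
    (hc0 : 0 < c0) (hlo : c0 * E ≤ P) (hup : P ≤ c1 * E) (hlo' : c0 * E ≤ P') (hPP : P' ≤ P)
    (ha : 0 ≤ a) (hc1 : 0 ≤ c1) (hη : 0 ≤ η) (hC1 : 1 ≤ C) (hC : a ≤ C * c0)
    (hfl : |P - a * E| ≤ (δ + η * (E / t)) * E) (hq : 0 ≤ q) :
    q * Yk t' a E P' ≤ q * Yk t a E P + C ^ 2 * (q * (P - P')) +
      2 / c0 ^ 2 * (δ ^ 2 * (t * q) + (a + c1) * η * (E * q)) := by
  have ht : 0 < t := ht'.trans_le htt
  have hP : 0 < P := (by positivity : 0 < c0 * E).trans_le hlo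
  have hP' : 0 ≤ P' := (by positivity : 0 ≤ c0 * E).trans hlo'
  have haE : 0 ≤ a * E := mul_nonneg ha hE.le
  have h2 : t' + a * E ≤ C * (t' + P') := by
    have h3 : a * E ≤ C * (c0 * E) := by
      calc a * E ≤ C * c0 * E := mul_le_mul_of_nonneg_right hC hE.le
        _ = _ := by ring
    have h4 : C * (c0 * E) ≤ C * P' := mul_le_mul_of_nonneg_left hlo' (by linarith)
    have h5 : t' ≤ C * t' := le_mul_of_one_le_left ht'.le hC1
    linarith
  have h3 := Yk_mass ht' htt hP' hPP (by linarith) h2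
  have h4 := sq_mode ht' htt hE hc0 hlo hup ha hc1 hη hfl
  have h6 : 0 ≤ (a * E - P) ^ 2 / ((t' + P) * (t + P)) := by positivity
  have h5 : (t - t') * ((a * E - P) ^ 2 / ((t' + P) * (t + P))) ≤
      t * (2 / c0 ^ 2 * (δ ^ 2 + (a + c1) * η * (E / t))) :=
    mul_le_mul (by linarith) h4 h6 ht.le
  have e : t * (2 / c0 ^ 2 * (δ ^ 2 + (a + c1) * η * (E / t))) =
      2 / c0 ^ 2 * (δ ^ 2 * t + (a + c1) * η * E) := by
    field_simp
  rw [e] at h5
  have h7 : Yk t' a E P' ≤ Yk t a E P + C ^ 2 * (P - P') +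
      2 / c0 ^ 2 * (δ ^ 2 * t + (a + c1) * η * E) := by linarith
  refine (mul_le_mul_of_nonneg_left h7 hq).trans (le_of_eq ?_)
  ring

/-- **(C2)**: the mass step -/
theorem xf_c2 (hb : 0 < b) (ht' : 0 < t') (htt : t' ≤ t) (h : PrF N b t a c0 c1 δ η) (hc0 : 0 < c0)
    (ha : 0 ≤ a) (hc1 : 0 ≤ c1) (hη : 0 ≤ η) (hC1 : 1 ≤ C) (hC : a ≤ C * c0)
    (lo' : ∀ k : V N, k ≠ 0 → c0 * EE k ≤ Pin N b t' k)
    (mono : ∀ k : V N, k ≠ 0 → Pin N b t' k ≤ Pin N b t k) (f : V N → ℝ) :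
    Xf N b t' a f ≤ Xf N b t a f +
      C ^ 2 * (((N : ℝ) ^ 2)⁻¹ * ∑ k ∈ univ.erase (0 : V N),
        hsq f k * (Pin N b t k - Pin N b t' k)) +
      2 / c0 ^ 2 * (δ ^ 2 * (t * ∑ x, f x ^ 2) + (a + c1) * η * qf lapM f) := by
  have ht : 0 < t := ht'.trans_le htt
  rw [Xf_eq hb ht, Xf_eq hb ht']
  have h1 : ∀ k ∈ univ.erase (0 : V N), hsq f k * Yk t' a (EE k) (Pin N b t' k) ≤
      hsq f k * Yk t a (EE k) (Pin N b t k) +
        C ^ 2 * (hsq f k * (Pin N b t k - Pin N b t' k)) +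
        2 / c0 ^ 2 * (δ ^ 2 * (t * hsq f k) + (a + c1) * η * (EE k * hsq f k)) := by
    intro k hk
    have hk0 := (Finset.mem_erase.1 hk).1
    exact mode2 ht' htt (EE_pos hk0) hc0 (h.lo k hk0) (h.up k hk0) (lo' k hk0) (mono k hk0) ha hc1
      hη hC1 hC (h.fl k hk0) (hsq_nonneg f k)
  have h2 := mul_le_mul_of_nonneg_left (Finset.sum_le_sum h1)
    (inv_nonneg.2 (H864.N_pos (N := N)).le)
  refine h2.trans ?_
  rw [Finset.sum_add_distrib, Finset.sum_add_distrib, mul_add, mul_add, ← Finset.mul_sum,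
    ← Finset.mul_sum, mul_left_comm _ (C ^ 2)]
  refine add_le_add_right ?_ _
  rw [mul_left_comm]
  refine mul_le_mul_of_nonneg_left ?_ (by positivity)
  refine (sum_erase_le ?_).trans (le_of_eq ?_)
  · have := EE_nn (0 : V N)
    have h3 := hsq_nonneg f (0 : V N)
    positivity
  · rw [← sum_hsq f, ← four_D]
    simp_rw [Finset.sum_add_distrib, ← Finset.mul_sum]
    ring

/-- the mass step with the drop `Pin t - Pin t' <= del EE` -/
theorem xf_c2' {del : ℝ} (hb : 0 < b) (ht' : 0 < t') (htt : t' ≤ t) (h : PrF N b t a c0 c1 δ η)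
    (hc0 : 0 < c0) (ha : 0 ≤ a) (hc1 : 0 ≤ c1) (hη : 0 ≤ η) (hC1 : 1 ≤ C) (hC : a ≤ C * c0)
    (hdel : 0 ≤ del)
    (lo' : ∀ k : V N, k ≠ 0 → c0 * EE k ≤ Pin N b t' k)
    (mono : ∀ k : V N, k ≠ 0 → Pin N b t' k ≤ Pin N b t k)
    (drop : ∀ k : V N, k ≠ 0 → Pin N b t k - Pin N b t' k ≤ del * EE k) (f : V N → ℝ) :
    Xf N b t' a f ≤ Xf N b t a f + C ^ 2 * del * qf lapM f +
      2 / c0 ^ 2 * (δ ^ 2 * (t * ∑ x, f x ^ 2) + (a + c1) * η * qf lapM f) := by
  have h1 := xf_c2 hb ht' htt h hc0 ha hc1 hη hC1 hC lo' mono f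
  have h2 : ((N : ℝ) ^ 2)⁻¹ * ∑ k ∈ univ.erase (0 : V N),
      hsq f k * (Pin N b t k - Pin N b t' k) ≤ del * qf lapM f := by
    have h3 : ∑ k ∈ univ.erase (0 : V N), hsq f k * (Pin N b t k - Pin N b t' k) ≤
        ∑ k ∈ univ.erase (0 : V N), del * (EE k * hsq f k) := by
      refine Finset.sum_le_sum fun k hk => ?_
      have h4 := mul_le_mul_of_nonneg_left (drop k (Finset.mem_erase.1 hk).1) (hsq_nonneg f k)
      refine h4.trans (le_of_eq ?_)
      ring
    refine (mul_le_mul_of_nonneg_left h3 (inv_nonneg.2 H864.N_pos.le)).trans ?_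
    refine (sum_erase_le ?_).trans (le_of_eq ?_)
    · have := EE_nn (0 : V N)
      have h3 := hsq_nonneg f (0 : V N)
      positivity
    · rw [← four_D, ← Finset.mul_sum]
      ring
  have h3 := mul_le_mul_of_nonneg_left h2 (sq_nonneg C)
  linarith

/-- **(C4)**: the use of the form: the neutral covariance of the local source `lap f` -/
theorem xf_c4 (hb : 0 < b) (ht : 0 < t) (ha : 0 < a) (f : V N → ℝ) :
    qf (Gn N b t) (lapM *ᵥ f) ≤ qf lapM f / a + (Xf N b t a f + t * ∑ x, f x ^ 2) / a ^ 2 := by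
  have h0 : sym (Gn N b t) 0 = 0 := Gnh_zero N b t
  have h1 : qf (Gn N b t) (lapM *ᵥ f) = ((N : ℝ) ^ 2)⁻¹ *
      ∑ k ∈ univ.erase (0 : V N), Gnh N b t k * (EE k ^ 2 * hsq f k) := by
    rw [qf_eq_sum (ti_Gn hb.le ht)]
    simp_rw [hsq_mulVec ti_lapM, sym_lapM]
    rw [sum_split0 fun k => sym (Gn N b t) k * (EE k ^ 2 * hsq f k), h0, zero_mul, zero_add]
    rfl
  have h2 : qf lapM f / a + (Xf N b t a f + t * ∑ x, f x ^ 2) / a ^ 2 =
      ((N : ℝ) ^ 2)⁻¹ * (∑ k ∈ univ.erase (0 : V N), hsq f k *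
        ((Yk t a (EE k) (Pin N b t k) + t + a * EE k) / a ^ 2)) +
        ((N : ℝ) ^ 2)⁻¹ * (t * hsq f 0 / a ^ 2) := by
    rw [Xf_eq hb ht, ← four_D, ← sum_hsq f, sum_split0 fun k => EE k * hsq f k,
      sum_split0 fun k => hsq f k, EE_zero]
    have h3 : ∑ k ∈ univ.erase (0 : V N), hsq f k *
        ((Yk t a (EE k) (Pin N b t k) + t + a * EE k) / a ^ 2) =
        (∑ k ∈ univ.erase (0 : V N), hsq f k * Yk t a (EE k) (Pin N b t k)) / a ^ 2 +
        t * (∑ k ∈ univ.erase (0 : V N), hsq f k) / a ^ 2 +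
        (∑ k ∈ univ.erase (0 : V N), EE k * hsq f k) / a := by
      rw [Finset.mul_sum, Finset.sum_div, Finset.sum_div, Finset.sum_div,
        ← Finset.sum_add_distrib, ← Finset.sum_add_distrib]
      refine Finset.sum_congr rfl fun k _ => ?_
      field_simp
    rw [h3]
    field_simp
    ring
  rw [h1, h2]
  have h3 : 0 ≤ ((N : ℝ) ^ 2)⁻¹ * (t * hsq f 0 / a ^ 2) := by
    have := hsq_nonneg f 0
    positivity
  have h4 : ∑ k ∈ univ.erase (0 : V N), Gnh N b t k * (EE k ^ 2 * hsq f k) ≤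
      ∑ k ∈ univ.erase (0 : V N), hsq f k *
        ((Yk t a (EE k) (Pin N b t k) + t + a * EE k) / a ^ 2) := by
    refine Finset.sum_le_sum fun k hk => ?_
    have hk0 := (Finset.mem_erase.1 hk).1
    have hE := EE_pos hk0
    have hG := Gnh_pos hb ht hk0
    have h5 : t + Pin N b t k = (Gnh N b t k)⁻¹ := by unfold Pin; ring
    have h6 : 0 < t + Pin N b t k := by rw [h5]; positivity
    have h7 : Yk t a (EE k) (Pin N b t k) + t + a * EE k = (t + a * EE k) ^ 2 * Gnh N b t k := by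
      rw [Yk_eq h6, h5, div_inv_eq_mul]
      ring
    rw [h7]
    have h8 : EE k ^ 2 ≤ (t + a * EE k) ^ 2 / a ^ 2 := by
      rw [le_div_iff₀ (by positivity), ← mul_pow]
      refine pow_le_pow_left₀ (by positivity) ?_ 2
      linarith
    have h9 := mul_le_mul_of_nonneg_left h8 (mul_nonneg hG.le (hsq_nonneg f k))
    calc Gnh N b t k * (EE k ^ 2 * hsq f k) = Gnh N b t k * hsq f k * EE k ^ 2 := by ring
      _ ≤ _ := h9
      _ = _ := by ring
  have h5 := mul_le_mul_of_nonneg_left h4 (inv_nonneg.2 (H864.N_pos (N := N)).le)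
  linarith

end

end Vale.Agent.P159.H692
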