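import Vale.Agent.P159.H692.FB

/-!
P159, helper692, FN part 1: ONE HAAR LEVEL, abstract.
`f : C → V → ℝ` a frame of the level, `Y a = ∑ c, a c • f c`, `blk : C → K` the blocks, `A` the matrix of
the quadratic form (free blocks minus covariance) in the coefficients. Law `ν` of the source `z` with
sixth moments (`M6`).
-/

namespace Vale.Agent.P159.H692

open Finset Matrix MeasureTheory
open Vale.Agent.P159.TM.H104 (EM Ex Cv Lg li nh Gr)
open Vale.Agent.P159.H37

noncomputable section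

/-! ### sixth moments -/

section mom

variable {V : Type*} [Fintype V]

/-- sixth moments of all linear functionals -/
structure M6 (ν : Measure (V → ℝ)) (τ : ℝ) : Prop where
  pos : 0 < τ
  int : ∀ v : V → ℝ, Integrable (fun z => (v ⬝ᵥ z) ^ 6) ν
  le : ∀ v : V → ℝ, ∫ z, (v ⬝ᵥ z) ^ 6 ∂ν ≤ (τ * ∑ x, v x ^ 2) ^ 3

variable {ν : Measure (V → ℝ)} [IsProbabilityMeasure ν] {τ : ℝ}

omit [IsProbabilityMeasure ν] in
lemma meas_dot (v : V → ℝ) : Measurable fun z : V → ℝ => v ⬝ᵥ z := by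
  unfold dotProduct
  fun_prop

lemma M6.int2 (h : M6 ν τ) (v : V → ℝ) : Integrable (fun z => (v ⬝ᵥ z) ^ 2) ν := by
  refine ((integrable_const (1 : ℝ)).add (h.int v)).mono' ((meas_dot v).pow_const 2).aestronglyMeasurable
    (Filter.Eventually.of_forall fun z => ?_)
  rw [Real.norm_eq_abs, abs_of_nonneg (sq_nonneg _)]
  simp only [Pi.add_apply]
  set x := (v ⬝ᵥ z) ^ 2 with hx
  have hx0 : 0 ≤ x := sq_nonneg _
  have e : (v ⬝ᵥ z) ^ 6 = x ^ 3 := by rw [hx]; ring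
  rw [e]
  nlinarith [sq_nonneg (x - 1), mul_nonneg hx0 (sq_nonneg (x - 1))]

lemma M6.int4 (h : M6 ν τ) (v : V → ℝ) : Integrable (fun z => (v ⬝ᵥ z) ^ 4) ν := by
  refine ((integrable_const (1 : ℝ)).add (h.int v)).mono' ((meas_dot v).pow_const 4).aestronglyMeasurable
    (Filter.Eventually.of_forall fun z => ?_)
  rw [Real.norm_eq_abs, abs_of_nonneg (by positivity)]
  simp only [Pi.add_apply]
  set x := (v ⬝ᵥ z) ^ 2 with hx
  have hx0 : 0 ≤ x := sq_nonneg _
  have e : (v ⬝ᵥ z) ^ 6 = x ^ 3 := by rw [hx]; ring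
  have e4 : (v ⬝ᵥ z) ^ 4 = x ^ 2 := by rw [hx]; ring
  rw [e, e4]
  nlinarith [sq_nonneg (x - 1), mul_nonneg hx0 (sq_nonneg (x - 1))]

lemma M6.le2 (h : M6 ν τ) (v : V → ℝ) : ∫ z, (v ⬝ᵥ z) ^ 2 ∂ν ≤ τ * ∑ x, v x ^ 2 := by
  set m := ∫ z, (v ⬝ᵥ z) ^ 2 ∂ν with hm
  have hm0 : 0 ≤ m := integral_nonneg fun z => sq_nonneg _
  have h1 : m ^ 3 ≤ ∫ z, (v ⬝ᵥ z) ^ 6 ∂ν := by
    have h2 : ∫ z, (3 * m ^ 2 * (v ⬝ᵥ z) ^ 2 - 2 * m ^ 3) ∂ν ≤ ∫ z, (v ⬝ᵥ z) ^ 6 ∂ν := by
      refine integral_mono (((h.int2 v).const_mul _).sub (integrable_const _)) (h.int v)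
        fun z => ?_
      simp only
      set x := (v ⬝ᵥ z) ^ 2 with hx
      have hx0 : 0 ≤ x := sq_nonneg _
      have e : (v ⬝ᵥ z) ^ 6 = x ^ 3 := by rw [hx]; ring
      rw [e]
      nlinarith [mul_nonneg hx0 (sq_nonneg (x - m)), mul_nonneg hm0 (sq_nonneg (x - m))]
    rw [integral_sub ((h.int2 v).const_mul _) (integrable_const _), integral_const_mul, ← hm] at h2
    simp only [integral_const, probReal_univ, smul_eq_mul, one_mul] at h2
    nlinarith
  have h3 := h1.trans (h.le v)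
  have h4 : 0 ≤ τ * ∑ x, v x ^ 2 := mul_nonneg h.pos.le (Finset.sum_nonneg fun _ _ => sq_nonneg _)
  exact le_of_pow_le_pow_left₀ (by norm_num) h4 h3

lemma M6.le4 (h : M6 ν τ) (v : V → ℝ) : ∫ z, (v ⬝ᵥ z) ^ 4 ∂ν ≤ (τ * ∑ x, v x ^ 2) ^ 2 := by
  set s := τ * ∑ x, v x ^ 2 with hs
  have hs0 : 0 ≤ s := mul_nonneg h.pos.le (Finset.sum_nonneg fun _ _ => sq_nonneg _)
  have h2 := h.le2 v
  have h6 := h.le v
  rw [← hs] at h2 h6
  have key : ∀ e : ℝ, 0 < e → ∫ z, (v ⬝ᵥ z) ^ 4 ∂ν ≤ (e * s + e⁻¹ * s ^ 3) / 2 := by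
    intro e he
    have h3 : ∫ z, (v ⬝ᵥ z) ^ 4 ∂ν ≤
        ∫ z, (e / 2 * (v ⬝ᵥ z) ^ 2 + e⁻¹ / 2 * (v ⬝ᵥ z) ^ 6) ∂ν := by
      refine integral_mono (h.int4 v) (((h.int2 v).const_mul _).add ((h.int v).const_mul _))
        fun z => ?_
      simp only
      set x := (v ⬝ᵥ z) ^ 2 with hx
      have hx0 : 0 ≤ x := sq_nonneg _
      have e6 : (v ⬝ᵥ z) ^ 6 = x ^ 3 := by rw [hx]; ring
      have e4 : (v ⬝ᵥ z) ^ 4 = x ^ 2 := by rw [hx]; ring
      rw [e6, e4]
      have h5 : e / 2 * x + e⁻¹ / 2 * x ^ 3 - x ^ 2 = e⁻¹ / 2 * x * (x - e) ^ 2 := by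
        field_simp
        ring
      have h6 : 0 ≤ e⁻¹ / 2 * x * (x - e) ^ 2 := by positivity
      linarith
    rw [integral_add ((h.int2 v).const_mul _) ((h.int v).const_mul _), integral_const_mul,
      integral_const_mul] at h3
    have h7 := mul_le_mul_of_nonneg_left h2 (show 0 ≤ e / 2 by positivity)
    have h8 := mul_le_mul_of_nonneg_left h6 (show 0 ≤ e⁻¹ / 2 by positivity)
    linarith
  rcases hs0.eq_or_lt with h0 | h0
  · have h3 := key 1 one_pos
    rw [← h0] at h3 ⊢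
    simpa using h3
  · have h3 := key s h0
    have e : (s * s + s⁻¹ * s ^ 3) / 2 = s ^ 2 := by
      field_simp
      ring
    rwa [e] at h3

end mom

/-! ### traces -/

section tr

variable {C : Type*} [Fintype C]

/-- `tr (A S) ≤ τ tr A` for `A ≥ 0`, `S ≤ τ` -/
theorem trace_le_of_form {A : Matrix C C ℝ} (hA : Aᵀ = A) (hA0 : ∀ a, 0 ≤ qf A a)
    {S : Matrix C C ℝ} {τ : ℝ} (hS : ∀ a, qf S a ≤ τ * ∑ c, a c ^ 2) :
    ∑ c, ∑ d, A c d * S c d ≤ τ * ∑ c, A c c := by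
  classical
  have hps : A.PosSemidef := by
    refine Matrix.PosSemidef.of_dotProduct_mulVec_nonneg ?_ fun x => ?_
    · unfold Matrix.IsHermitian
      rw [conjTranspose_eq_transpose_of_trivial, hA]
    · have := hA0 x
      rw [qf_eq] at this
      simpa using this
  obtain ⟨m, B, hB⟩ := Matrix.posSemidef_iff_eq_sum_vecMulVec.1 hps
  have e1 : ∀ c d, A c d = ∑ j, B j c * B j d := fun c d => by
    rw [hB, Matrix.sum_apply]
    rfl
  calc ∑ c, ∑ d, A c d * S c d = ∑ j, qf S (B j) := by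
        unfold qf
        rw [Finset.sum_comm (s := (univ : Finset (Fin m)))]
        refine Finset.sum_congr rfl fun c _ => ?_
        rw [Finset.sum_comm (s := (univ : Finset (Fin m)))]
        refine Finset.sum_congr rfl fun d _ => ?_
        rw [e1, Finset.sum_mul]
        exact Finset.sum_congr rfl fun j _ => by ring
    _ ≤ ∑ j, τ * ∑ c, B j c ^ 2 := Finset.sum_le_sum fun j _ => hS _
    _ = τ * ∑ c, A c c := by
        rw [← Finset.mul_sum, Finset.sum_comm]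
        congr 1
        exact Finset.sum_congr rfl fun c _ => by
          rw [e1]
          exact Finset.sum_congr rfl fun j _ => sq _

end tr

/-! ### one level -/

section level

variable {V : Type*} [Fintype V] {C K : Type*} [Fintype C] [Fintype K] [DecidableEq K]

/-- synthesis -/
def Yf (f : C → V → ℝ) (a : C → ℝ) : V → ℝ := ∑ c, a c • f c

omit [Fintype V] in
lemma Yf_smul (f : C → V → ℝ) (s : ℝ) (a : C → ℝ) : Yf f (s • a) = s • Yf f a := by
  unfold Yf
  rw [Finset.smul_sum]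
  exact Finset.sum_congr rfl fun c _ => by rw [Pi.smul_apply, smul_assoc]

omit [Fintype V] in
lemma Yf_add (f : C → V → ℝ) (a b : C → ℝ) : Yf f (a + b) = Yf f a + Yf f b := by
  unfold Yf
  rw [← Finset.sum_add_distrib]
  exact Finset.sum_congr rfl fun c _ => by rw [Pi.add_apply, add_smul]

lemma dot_Yf (f : C → V → ℝ) (a : C → ℝ) (z : V → ℝ) : Yf f a ⬝ᵥ z = ∑ c, a c * (f c ⬝ᵥ z) := by
  unfold Yf
  rw [sum_dotProduct]
  exact Finset.sum_congr rfl fun c _ => by rw [smul_dotProduct, smul_eq_mul]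

/-- the hypotheses of one Haar level -/
structure HL (μ : (V → ℤ) → ℝ) (f : C → V → ℝ) (blk : C → K) (A : Matrix C C ℝ)
    (t r C0 κ : ℝ) : Prop where
  ht : 0 < t
  htr : t * r ^ 2 ≤ 1
  hC0 : 0 ≤ C0
  hκ : 0 < κ
  sym : Aᵀ = A
  psd : ∀ a, 0 ≤ qf A a
  small : ∀ a : C → ℝ, (∀ c, |a c| ≤ κ) →
    Rs μ (Yf f a) ≤ qf A a / 2 + C0 * r ^ 4 * ∑ k, (∑ c with blk c = k, a c ^ 2) ^ 2
  crude : ∀ a, qf A a ≤ C0 * r ^ 2 * ∑ c, a c ^ 2
  large : ∀ a, Rs μ (Yf f a) ≤ (∑ c, a c ^ 2) / (2 * t)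
  frame : ∀ a, ∑ x, Yf f a x ^ 2 ≤ ∑ c, a c ^ 2

variable {μ : (V → ℤ) → ℝ} {f : C → V → ℝ} {blk : C → K} {A : Matrix C C ℝ} {t r C0 κ : ℝ}

/-- every frame vector has norm at most one -/
lemma HL.norm_le (h : HL μ f blk A t r C0 κ) (c : C) : ∑ x, f c x ^ 2 ≤ 1 := by
  classical
  have h1 := h.frame (Pi.single c 1)
  have e : Yf f (Pi.single c 1) = f c := by
    unfold Yf
    rw [Finset.sum_eq_single c]
    · rw [Pi.single_eq_same, one_smul]
    · intro d _ hd
      rw [Pi.single_eq_of_ne hd, zero_smul]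
    · simp
  rw [e] at h1
  refine h1.trans (le_of_eq ?_)
  rw [Finset.sum_eq_single c]
  · simp
  · intro d _ hd
    rw [Pi.single_eq_of_ne hd]
    simp
  · simp

/-- pointwise bound on one level -/
theorem HL.point (hμ : EM μ) (he : Ev μ) (hK : PK μ) (h : HL μ f blk A t r C0 κ) {nK : ℝ}
    (hn : ∀ k, (((univ : Finset C).filter fun c => blk c = k).card : ℝ) ≤ nK) (lam : ℝ)
    (a : C → ℝ) :
    Rs μ (lam • Yf f a) ≤ 2 * lam ^ 2 * qf A a +
      32 * (C0 + 1) * lam ^ 6 / (t * κ ^ 4) * ∑ c, a c ^ 6 +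
      8 * C0 * r ^ 4 * nK * lam ^ 4 * ∑ c, a c ^ 4 := by
  classical
  set b : C → ℝ := (2 * lam) • a with hb
  set bs : C → ℝ := fun c => if |b c| ≤ κ then b c else 0 with hbs
  set bl : C → ℝ := fun c => if |b c| ≤ κ then 0 else b c with hbl
  have hsum : b = bs + bl := by
    funext c
    simp only [hbs, hbl, Pi.add_apply]
    split_ifs <;> simp
  have e1 : lam • Yf f a = (1 / 2 : ℝ) • Yf f bs + (1 / 2 : ℝ) • Yf f bl := by
    rw [← smul_add, ← Yf_add, ← hsum, hb, Yf_smul, smul_smul]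
    congr 1
    ring
  have h1 := (H789.Rs_convex hμ he hK).2 (Set.mem_univ (Yf f bs)) (Set.mem_univ (Yf f bl))
    (show (0 : ℝ) ≤ 1 / 2 by norm_num) (show (0 : ℝ) ≤ 1 / 2 by norm_num) (by norm_num)
  rw [← e1] at h1
  simp only [smul_eq_mul] at h1
  have h2 := h.small bs (fun c => by
    simp only [hbs]
    split_ifs with h3
    · exact h3
    · rw [abs_zero]; exact h.hκ.le)
  have h3 := h.large bl
  have ht := h.ht
  have hκ := h.hκ
  have hC0 := h.hC0
  have hr4 : 0 ≤ r ^ 4 := by positivity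
  -- the quadratic form of the small part
  have h4 : qf A bs ≤ 2 * qf A b + 2 * qf A bl := by
    have e2 : bs = b - bl := by rw [hsum]; abel
    have h5 := H789.qf_par A b bl
    have h6 := h.psd (b + bl)
    rw [e2]
    linarith
  have h5 := h.crude bl
  -- the large part
  have h6 : ∑ c, bl c ^ 2 ≤ (κ ^ 4)⁻¹ * ∑ c, b c ^ 6 := by
    rw [Finset.mul_sum]
    refine Finset.sum_le_sum fun c _ => ?_
    simp only [hbl]
    split_ifs with h7
    · rw [zero_pow (by norm_num)]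
      positivity
    · have h8 : κ ^ 4 ≤ b c ^ 4 := by
        have h9 : κ ≤ |b c| := (not_le.1 h7).le
        have h10 := pow_le_pow_left₀ hκ.le h9 4
        have h11 : |b c| ^ 4 = b c ^ 4 := by
          rw [show (4 : ℕ) = 2 * 2 from rfl, pow_mul, pow_mul, sq_abs]
        rwa [h11] at h10
      rw [inv_mul_eq_div, le_div_iff₀ (by positivity)]
      nlinarith [sq_nonneg (b c)]
  -- the blocks
  have h7 : ∑ k, (∑ c with blk c = k, bs c ^ 2) ^ 2 ≤ nK * ∑ c, b c ^ 4 := by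
    have h8 : ∀ k, (∑ c with blk c = k, bs c ^ 2) ^ 2 ≤ nK * ∑ c with blk c = k, b c ^ 4 := by
      intro k
      have h9 := sq_sum_le_card_mul_sum_sq
        (s := (univ : Finset C).filter fun c => blk c = k) (f := fun c => bs c ^ 2)
      refine h9.trans ?_
      have h10 : ∑ c with blk c = k, (bs c ^ 2) ^ 2 ≤ ∑ c with blk c = k, b c ^ 4 := by
        refine Finset.sum_le_sum fun c _ => ?_
        simp only [hbs]
        split_ifs
        · exact le_of_eq (by ring)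
        · rw [zero_pow (by norm_num), zero_pow (by norm_num)]
          positivity
      have h11 : 0 ≤ ∑ c with blk c = k, b c ^ 4 := Finset.sum_nonneg fun c _ => by positivity
      calc _ ≤ (((univ : Finset C).filter fun c => blk c = k).card : ℝ) *
            ∑ c with blk c = k, b c ^ 4 := mul_le_mul_of_nonneg_left h10 (Nat.cast_nonneg _)
        _ ≤ _ := mul_le_mul_of_nonneg_right (hn k) h11
    refine (Finset.sum_le_sum fun k _ => h8 k).trans (le_of_eq ?_)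
    rw [← Finset.mul_sum]
    congr 1
    exact Finset.sum_fiberwise _ _ _
  have hbl0 : 0 ≤ ∑ c, bl c ^ 2 := Finset.sum_nonneg fun _ _ => sq_nonneg _
  have h8 : C0 * r ^ 4 * ∑ k, (∑ c with blk c = k, bs c ^ 2) ^ 2 ≤
      C0 * r ^ 4 * (nK * ∑ c, b c ^ 4) := mul_le_mul_of_nonneg_left h7 (by positivity)
  have h9 : C0 * r ^ 2 * ∑ c, bl c ^ 2 ≤ C0 / t * ∑ c, bl c ^ 2 := by
    refine mul_le_mul_of_nonneg_right ?_ hbl0
    rw [le_div_iff₀ ht]
    have := mul_le_mul_of_nonneg_left h.htr hC0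
    linarith
  have h10 : (C0 / t / 2 + 1 / (4 * t)) * ∑ c, bl c ^ 2 ≤
      (C0 + 1) / (2 * t) * ((κ ^ 4)⁻¹ * ∑ c, b c ^ 6) := by
    have h11 : C0 / t / 2 + 1 / (4 * t) ≤ (C0 + 1) / (2 * t) := by
      rw [div_div, div_add_div _ _ (by positivity) (by positivity), div_le_div_iff₀ (by positivity)
        (by positivity)]
      nlinarith [mul_pos ht ht]
    exact (mul_le_mul_of_nonneg_right h11 hbl0).trans
      (mul_le_mul_of_nonneg_left h6 (by positivity))
  have e2 : qf A b = 4 * lam ^ 2 * qf A a := by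
    rw [hb, qf_smul]
    ring
  have e3 : ∑ c, b c ^ 6 = 64 * lam ^ 6 * ∑ c, a c ^ 6 := by
    rw [Finset.mul_sum]
    refine Finset.sum_congr rfl fun c _ => ?_
    simp only [hb, Pi.smul_apply, smul_eq_mul]
    ring
  have e4 : ∑ c, b c ^ 4 = 16 * lam ^ 4 * ∑ c, a c ^ 4 := by
    rw [Finset.mul_sum]
    refine Finset.sum_congr rfl fun c _ => ?_
    simp only [hb, Pi.smul_apply, smul_eq_mul]
    ring
  have h11 : (∑ c, bl c ^ 2) / (2 * t) / 2 = 1 / (4 * t) * ∑ c, bl c ^ 2 := by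
    field_simp
    ring
  have h12 : Rs μ (lam • Yf f a) ≤ qf A b / 2 +
      (C0 / t / 2 + 1 / (4 * t)) * ∑ c, bl c ^ 2 + C0 * r ^ 4 * (nK * ∑ c, b c ^ 4) / 2 := by
    have e5 : (C0 / t / 2 + 1 / (4 * t)) * ∑ c, bl c ^ 2 =
        C0 / t * (∑ c, bl c ^ 2) / 2 + (∑ c, bl c ^ 2) / (2 * t) / 2 := by
      rw [h11]
      ring
    rw [e5]
    linarith
  have e6 : (C0 + 1) / (2 * t) * ((κ ^ 4)⁻¹ * ∑ c, b c ^ 6) =
      32 * (C0 + 1) * lam ^ 6 / (t * κ ^ 4) * ∑ c, a c ^ 6 := by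
    rw [e3]
    field_simp
    ring
  have e7 : C0 * r ^ 4 * (nK * ∑ c, b c ^ 4) / 2 =
      8 * C0 * r ^ 4 * nK * lam ^ 4 * ∑ c, a c ^ 4 := by
    rw [e4]
    ring
  rw [e6] at h10
  rw [e7, e2] at h12
  linarith

lemma continuous_Rs (hμ : EM μ) : Continuous (Rs μ) := by
  unfold Rs qf
  refine ((TM.H104.continuous_Lg hμ).sub continuous_const).sub ?_
  fun_prop

variable {ν : Measure (V → ℝ)} [IsProbabilityMeasure ν] {τ : ℝ}

/-- **expectation on one level** -/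
theorem HL.mean (hμ : EM μ) (he : Ev μ) (hK : PK μ) (h : HL μ f blk A t r C0 κ)
    (hν : M6 ν τ) {nK : ℝ}
    (hn : ∀ k, (((univ : Finset C).filter fun c => blk c = k).card : ℝ) ≤ nK) (hnK : 0 ≤ nK)
    (lam : ℝ) :
    Integrable (fun z => Rs μ (lam • Yf f fun c => f c ⬝ᵥ z)) ν ∧
    ∫ z, Rs μ (lam • Yf f fun c => f c ⬝ᵥ z) ∂ν ≤ 2 * lam ^ 2 * τ * ∑ c, A c c +
      32 * (C0 + 1) * lam ^ 6 / (t * κ ^ 4) * (Fintype.card C * τ ^ 3) +
      8 * C0 * r ^ 4 * nK * lam ^ 4 * (Fintype.card C * τ ^ 2) := by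
  classical
  have hcross : ∀ c d : C, Integrable (fun z => (f c ⬝ᵥ z) * (f d ⬝ᵥ z)) ν := by
    intro c d
    refine ((hν.int2 (f c)).add (hν.int2 (f d))).mono'
      (((meas_dot (f c)).mul (meas_dot (f d))).aestronglyMeasurable)
      (Filter.Eventually.of_forall fun z => ?_)
    rw [Real.norm_eq_abs, abs_le]
    simp only [Pi.add_apply]
    constructor <;> nlinarith [sq_nonneg (f c ⬝ᵥ z + f d ⬝ᵥ z), sq_nonneg (f c ⬝ᵥ z - f d ⬝ᵥ z)]
  have iA : Integrable (fun z => qf A fun c => f c ⬝ᵥ z) ν := by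
    unfold qf
    refine integrable_finsetSum _ fun c _ => integrable_finsetSum _ fun d _ => ?_
    exact ((hcross c d).const_mul (A c d)).congr
      (Filter.Eventually.of_forall fun z => by simp only; ring)
  have i6 : Integrable (fun z => ∑ c, (f c ⬝ᵥ z) ^ 6) ν :=
    integrable_finsetSum _ fun c _ => hν.int (f c)
  have i4 : Integrable (fun z => ∑ c, (f c ⬝ᵥ z) ^ 4) ν :=
    integrable_finsetSum _ fun c _ => hν.int4 (f c)
  have iA' := iA.const_mul (2 * lam ^ 2)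
  have i6' := i6.const_mul (32 * (C0 + 1) * lam ^ 6 / (t * κ ^ 4))
  have i4' := i4.const_mul (8 * C0 * r ^ 4 * nK * lam ^ 4)
  have iA6 : Integrable (fun z => 2 * lam ^ 2 * (qf A fun c => f c ⬝ᵥ z) +
      32 * (C0 + 1) * lam ^ 6 / (t * κ ^ 4) * ∑ c, (f c ⬝ᵥ z) ^ 6) ν := iA'.add i6'
  have iR : Integrable (fun z => 2 * lam ^ 2 * (qf A fun c => f c ⬝ᵥ z) +
      32 * (C0 + 1) * lam ^ 6 / (t * κ ^ 4) * ∑ c, (f c ⬝ᵥ z) ^ 6 +
      8 * C0 * r ^ 4 * nK * lam ^ 4 * ∑ c, (f c ⬝ᵥ z) ^ 4) ν := iA6.add i4'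
  have hpt := fun z : V → ℝ => h.point hμ he hK hn lam fun c => f c ⬝ᵥ z
  have hmeas : Measurable fun z : V → ℝ => Rs μ (lam • Yf f fun c => f c ⬝ᵥ z) := by
    refine (continuous_Rs hμ).measurable.comp ?_
    refine measurable_pi_lambda _ fun x => ?_
    simp only [Yf, Pi.smul_apply, Finset.sum_apply, smul_eq_mul, dotProduct]
    fun_prop
  have iL : Integrable (fun z => Rs μ (lam • Yf f fun c => f c ⬝ᵥ z)) ν := by
    refine iR.mono' hmeas.aestronglyMeasurable (Filter.Eventually.of_forall fun z => ?_)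
    rw [Real.norm_eq_abs, abs_of_nonneg (H789.Rs_nonneg hμ he hK _)]
    exact hpt z
  refine ⟨iL, (integral_mono iL iR hpt).trans ?_⟩
  rw [integral_add iA6 i4', integral_add iA' i6', integral_const_mul, integral_const_mul,
    integral_const_mul]
  have hτ := hν.pos
  have hC0 := h.hC0
  have ht := h.ht
  have hκ := h.hκ
  -- the quadratic form
  have hA : ∫ z, qf A (fun c => f c ⬝ᵥ z) ∂ν ≤ τ * ∑ c, A c c := by
    set S : Matrix C C ℝ := Matrix.of fun c d => ∫ z, (f c ⬝ᵥ z) * (f d ⬝ᵥ z) ∂ν with hS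
    have e1 : ∫ z, qf A (fun c => f c ⬝ᵥ z) ∂ν = ∑ c, ∑ d, A c d * S c d := by
      unfold qf
      rw [integral_finsetSum _ fun c _ => integrable_finsetSum _ fun d _ =>
        ((hcross c d).const_mul (A c d)).congr
          (Filter.Eventually.of_forall fun z => by simp only; ring)]
      refine Finset.sum_congr rfl fun c _ => ?_
      rw [integral_finsetSum _ fun d _ => ((hcross c d).const_mul (A c d)).congr
          (Filter.Eventually.of_forall fun z => by simp only; ring)]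
      refine Finset.sum_congr rfl fun d _ => ?_
      rw [hS, Matrix.of_apply, ← integral_const_mul]
      congr 1
      funext z
      ring
    rw [e1]
    refine trace_le_of_form h.sym h.psd fun a => ?_
    have e2 : qf S a = ∫ z, (Yf f a ⬝ᵥ z) ^ 2 ∂ν := by
      have e3 : ∀ z : V → ℝ, (Yf f a ⬝ᵥ z) ^ 2 =
          ∑ c, ∑ d, a c * a d * ((f c ⬝ᵥ z) * (f d ⬝ᵥ z)) := by
        intro z
        rw [dot_Yf, sq, Finset.sum_mul_sum]
        exact Finset.sum_congr rfl fun c _ => Finset.sum_congr rfl fun d _ => by ring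
      simp only [e3]
      rw [integral_finsetSum _ fun c _ => integrable_finsetSum _ fun d _ =>
        (hcross c d).const_mul _]
      unfold qf
      refine Finset.sum_congr rfl fun c _ => ?_
      rw [integral_finsetSum _ fun d _ => (hcross c d).const_mul _]
      refine Finset.sum_congr rfl fun d _ => ?_
      rw [integral_const_mul, hS, Matrix.of_apply]
      ring
    rw [e2]
    exact (hν.le2 _).trans (mul_le_mul_of_nonneg_left (h.frame a) hτ.le)
  have h6 : ∫ z, ∑ c, (f c ⬝ᵥ z) ^ 6 ∂ν ≤ Fintype.card C * τ ^ 3 := by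
    rw [integral_finsetSum _ fun c _ => hν.int (f c)]
    refine (Finset.sum_le_sum fun c _ => (hν.le (f c)).trans
      (pow_le_pow_left₀ (mul_nonneg hτ.le (Finset.sum_nonneg fun _ _ => sq_nonneg _))
        (mul_le_mul_of_nonneg_left (h.norm_le c) hτ.le) 3)).trans (le_of_eq ?_)
    simp
  have h4 : ∫ z, ∑ c, (f c ⬝ᵥ z) ^ 4 ∂ν ≤ Fintype.card C * τ ^ 2 := by
    rw [integral_finsetSum _ fun c _ => hν.int4 (f c)]
    refine (Finset.sum_le_sum fun c _ => (hν.le4 (f c)).trans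
      (pow_le_pow_left₀ (mul_nonneg hτ.le (Finset.sum_nonneg fun _ _ => sq_nonneg _))
        (mul_le_mul_of_nonneg_left (h.norm_le c) hτ.le) 2)).trans (le_of_eq ?_)
    simp
  have a1 := mul_le_mul_of_nonneg_left hA (show 0 ≤ 2 * lam ^ 2 by positivity)
  have a2 := mul_le_mul_of_nonneg_left h6
    (show 0 ≤ 32 * (C0 + 1) * lam ^ 6 / (t * κ ^ 4) by positivity)
  have a3 := mul_le_mul_of_nonneg_left h4
    (show 0 ≤ 8 * C0 * r ^ 4 * nK * lam ^ 4 by positivity)
  linarith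

end level

end

end Vale.Agent.P159.H692
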