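import Vale.Agent.P159.H789.Bridge

/-!
P159, helper692: the trace form of STAR.  For a family of directions `v i` with real weights `s i`
`(∑ s_i (Cov_J(v_i,v_i) - Cov_0(v_i,v_i)))² ≤ (1/2)(e^{T(J)} - 1) ∑∑ s_i s_j κ₄(v_i,v_i,v_j,v_j)`.
-/

open scoped Topology
open Finset Filter Asymptotics

namespace Vale.Agent.P159.H692

open Vale.Agent.P159.H37
open Vale.Agent.P159.H789 (yy kk PSDK psdk_of_pk yy_taylor T_odd li_negh yy_even kk_taylor bigO_le
  bigO_const_mul_pow tendsto_div_pow cs0 T_two T_four exp_Tq K4_eq)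
open TM.H104 (EM Ex Cv Lg li nh Gr li_neg li_smul li_zero)

variable {V : Type*} [Fintype V] {μ : (V → ℤ) → ℝ}

/-- the partition function at `e p` to fourth order -/
theorem yy_four' (hμ : EM μ) (he : ∀ h, μ (-h) = μ h) (p : V → ℝ) :
    (fun e : ℝ => yy μ (e • p) - (yy μ 0 + e ^ 2 * ((TM.H104.T μ 0 fun h => li p h ^ 2) / 2) +
      e ^ 4 * ((TM.H104.T μ 0 fun h => li p h ^ 4) / 24))) =O[𝓝 0] fun e : ℝ => e ^ 5 := by
  have h1 := yy_taylor hμ 0 p 5
  refine h1.congr_left fun e => ?_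
  have e1 : TM.H104.T μ 0 (fun h => li p h ^ 1) = 0 := T_odd he fun h => by rw [li_negh]; ring
  have e3 : TM.H104.T μ 0 (fun h => li p h ^ 3) = 0 := T_odd he fun h => by rw [li_negh]; ring
  have e0 : TM.H104.T μ 0 (fun h => li p h ^ 0) = yy μ 0 := by simp only [pow_zero, yy]
  simp only [Finset.sum_range_succ, Finset.sum_range_zero, e0, e1, e3, zero_add]
  norm_num [Nat.factorial]
  ring

theorem bigO_cont {q : ℝ → ℝ} (hq : Continuous q) (n : ℕ) :
    (fun e : ℝ => e ^ (n + 1) * q e) =O[𝓝 0] fun e : ℝ => e ^ n := by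
  have h1 : (fun e : ℝ => e * q e) =O[𝓝 0] fun _ : ℝ => (1 : ℝ) :=
    (Continuous.tendsto (by fun_prop) 0).isBigO_one ℝ
  have h2 := (isBigO_refl (fun e : ℝ => e ^ n) (𝓝 0)).mul h1
  refine (h2.congr_left fun e => ?_).congr_right fun e => mul_one _
  ring

/-- products of approximations -/
theorem bigO_mul_approx {f g p q : ℝ → ℝ} {n : ℕ} (hf : (fun e => f e - p e) =O[𝓝 0] fun e => e ^ n)
    (hg : (fun e => g e - q e) =O[𝓝 0] fun e => e ^ n) (hp : Continuous p) (hgc : Continuous g) :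
    (fun e => f e * g e - p e * q e) =O[𝓝 0] fun e : ℝ => e ^ n := by
  have hP : p =O[𝓝 0] fun _ : ℝ => (1 : ℝ) := (hp.tendsto 0).isBigO_one ℝ
  have hG : g =O[𝓝 0] fun _ : ℝ => (1 : ℝ) := (hgc.tendsto 0).isBigO_one ℝ
  have h3 := ((hP.mul hg).congr_right fun e => one_mul _).add
    ((hf.mul hG).congr_right fun e => mul_one _)
  refine h3.congr_left fun e => ?_
  ring

theorem continuous_yy (hμ : EM μ) (p : V → ℝ) : Continuous fun e : ℝ => yy μ (e • p) :=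
  (TM.H104.continuous_T hμ (Gr.const 1)).comp (by fun_prop)

/-- the kernel on a pair of small vectors, relative to the origin, to fourth order -/
theorem kk_pair (hμ : EM μ) (he : ∀ h, μ (-h) = μ h) (a c : V → ℝ) :
    (fun e : ℝ => (kk (yy μ) (e • a) (e • c) * yy μ 0 ^ 2 -
        kk (yy μ) 0 (e • a) * kk (yy μ) 0 (e • c)) -
      e ^ 4 * (yy μ 0 ^ 4 * (1 / 2 * H789.K4 μ a c))) =O[𝓝 0] fun e : ℝ => e ^ 5 := by
  set M : ℝ := yy μ 0 with hM
  have hMp : M ≠ 0 := (TM.H104.T_one_pos hμ 0).ne'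
  set q2 : (V → ℝ) → ℝ := fun p => (TM.H104.T μ 0 fun h => li p h ^ 2) / 2 with hq2
  set q4 : (V → ℝ) → ℝ := fun p => (TM.H104.T μ 0 fun h => li p h ^ 4) / 24 with hq4
  have y := fun p => yy_four' hμ he p
  set P : (V → ℝ) → ℝ → ℝ := fun p e => M + e ^ 2 * q2 p + e ^ 4 * q4 p with hP
  have hPc : ∀ p, Continuous (P p) := fun p => by
    simp only [hP]
    fun_prop
  have yP : ∀ p, (fun e : ℝ => yy μ (e • p) - P p e) =O[𝓝 0] fun e : ℝ => e ^ 5 := fun p => y p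
  have h1 := bigO_mul_approx (yP (a + c)) (yP (a - c)) (hPc _) (continuous_yy hμ _)
  have h2 := bigO_mul_approx (yP a) (yP a) (hPc _) (continuous_yy hμ _)
  have h3 := bigO_mul_approx (yP c) (yP c) (hPc _) (continuous_yy hμ _)
  have h4 := bigO_mul_approx h2 h3 ((hPc a).mul (hPc a))
    ((continuous_yy hμ c).mul (continuous_yy hμ c))
  have h5 := (h1.const_mul_left (M ^ 2)).sub h4
  -- the polynomial remainder
  have c1 := T_two hμ 0 a c
  have c2 := T_four hμ 0 a c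
  have c3 : (TM.H104.T μ 0 fun h => li (a + c) h ^ 2) * (TM.H104.T μ 0 fun h => li (a - c) h ^ 2)
      = ((TM.H104.T μ 0 fun h => li a h ^ 2) + TM.H104.T μ 0 fun h => li c h ^ 2) ^ 2
        - 4 * (TM.H104.T μ 0 fun h => li a h * li c h) ^ 2 := by
    have e1 := H789.T_mul_add hμ 0 a c
    have e2 : (TM.H104.T μ 0 fun h => li (a - c) h ^ 2) = (TM.H104.T μ 0 fun h => li a h ^ 2)
        - 2 * (TM.H104.T μ 0 fun h => li a h * li c h) + TM.H104.T μ 0 fun h => li c h ^ 2 := by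
      rw [sub_eq_add_neg, H789.T_mul_add hμ, H789.T_mul_neg, H789.T_sq_neg]
      ring
    rw [e1, e2]; ring
  set A0 := M ^ 2 with hA0
  set A1 := 2 * M * q2 a with hA1
  set A2 := q2 a ^ 2 + 2 * M * q4 a with hA2
  set A3 := 2 * q2 a * q4 a with hA3
  set A4 := q4 a ^ 2 with hA4
  set C0 := M ^ 2 with hC0
  set C1 := 2 * M * q2 c with hC1
  set C2 := q2 c ^ 2 + 2 * M * q4 c with hC2
  set C3 := 2 * q2 c * q4 c with hC3
  set C4 := q4 c ^ 2 with hC4
  have h6 := bigO_cont (q := fun e => M ^ 2 * (q2 (a + c) * q4 (a - c) + q4 (a + c) * q2 (a - c)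
      + e ^ 2 * (q4 (a + c) * q4 (a - c)))
      - ((A0 * C3 + A1 * C2 + A2 * C1 + A3 * C0)
        + e ^ 2 * (A0 * C4 + A1 * C3 + A2 * C2 + A3 * C1 + A4 * C0)
        + e ^ 4 * (A1 * C4 + A2 * C3 + A3 * C2 + A4 * C1)
        + e ^ 6 * (A2 * C4 + A3 * C3 + A4 * C2) + e ^ 8 * (A3 * C4 + A4 * C3)
        + e ^ 10 * (A4 * C4))) (by fun_prop) 5
  have h7 := h5.add h6
  refine h7.congr_left fun e => ?_
  have k1 : kk (yy μ) (e • a) (e • c) = yy μ (e • (a + c)) * yy μ (e • (a - c)) := by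
    unfold kk
    rw [smul_add, smul_sub]
  have k2 : ∀ p : V → ℝ, kk (yy μ) 0 (e • p) = yy μ (e • p) * yy μ (e • p) := by
    intro p
    unfold kk
    rw [zero_add, zero_sub, yy_even he]
  rw [k1, k2, k2]
  have hK : M ^ 4 * (1 / 2 * H789.K4 μ a c)
      = 1 / 2 * (M ^ 3 * (TM.H104.T μ 0 fun h => li a h ^ 2 * li c h ^ 2)
        - M ^ 2 * ((TM.H104.T μ 0 fun h => li a h ^ 2) * TM.H104.T μ 0 fun h => li c h ^ 2)
        - 2 * M ^ 2 * (TM.H104.T μ 0 fun h => li a h * li c h) ^ 2) := by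
    unfold H789.K4 Ex
    change M ^ 4 * (1 / 2 * ((TM.H104.T μ 0 fun h => li a h ^ 2 * li c h ^ 2) / M -
      (TM.H104.T μ 0 fun h => li a h ^ 2) / M * ((TM.H104.T μ 0 fun h => li c h ^ 2) / M) -
      2 * ((TM.H104.T μ 0 fun h => li a h * li c h) / M) ^ 2)) = _
    field_simp
  rw [hK]
  have d1 : q2 (a + c) + q2 (a - c) = 2 * q2 a + 2 * q2 c := by
    simp only [hq2]
    linarith
  have d2 : q4 (a + c) + q4 (a - c) = 2 * q4 a + 2 * q4 c
      + (TM.H104.T μ 0 fun h => li a h ^ 2 * li c h ^ 2) / 2 := by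
    simp only [hq4]
    linarith
  have d3 : q2 (a + c) * q2 (a - c) = (q2 a + q2 c) ^ 2 - (TM.H104.T μ 0 fun h => li a h * li c h) ^ 2 := by
    simp only [hq2]
    linear_combination c3 / 4
  have d4 : (TM.H104.T μ 0 fun h => li a h ^ 2) = 2 * q2 a := by simp only [hq2]; ring
  have d5 : (TM.H104.T μ 0 fun h => li c h ^ 2) = 2 * q2 c := by simp only [hq2]; ring
  rw [d4, d5]
  simp only [hP, hA0, hA1, hA2, hA3, hA4, hC0, hC1, hC2, hC3, hC4]
  linear_combination (-(e ^ 2 * M ^ 3)) * d1 + (-(e ^ 4 * M ^ 3)) * d2 + (-(e ^ 4 * M ^ 2)) * d3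

theorem bigO_sum {n : ℕ} {f : Fin n → ℝ → ℝ} {g : ℝ → ℝ} (h : ∀ i, f i =O[𝓝 0] g) :
    (fun e : ℝ => ∑ i, f i e) =O[𝓝 0] g := by
  have h1 := IsBigO.sum (s := (univ : Finset (Fin n))) (A := f) (g := g) (l := 𝓝 0) fun i _ => h i
  refine h1.congr_left fun e => ?_
  rw [Finset.sum_apply]

/-- second order expansion of the kernel, in the letters `Cv` -/
theorem kk_two (hμ : EM μ) (J p : V → ℝ) :
    (fun e : ℝ => kk (yy μ) J (e • p) - (yy μ J ^ 2 + e ^ 2 * (yy μ J ^ 2 *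
      Cv μ J (li p) (li p)))) =O[𝓝 0] fun e : ℝ => e ^ 3 := by
  refine (kk_taylor hμ J p).congr_left fun e => ?_
  have hp : yy μ J ≠ 0 := (TM.H104.T_one_pos hμ J).ne'
  have h1 : yy μ J ^ 2 * Cv μ J (li p) (li p)
      = yy μ J * (TM.H104.T μ J fun h => li p h ^ 2) - TM.H104.T μ J (li p) ^ 2 := by
    unfold Cv Ex
    have e1 : (fun h : V → ℤ => li p h * li p h) = fun h => li p h ^ 2 := by
      funext h; ring
    rw [e1]
    change yy μ J ^ 2 * ((TM.H104.T μ J fun h => li p h ^ 2) / yy μ J -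
      TM.H104.T μ J (li p) / yy μ J * (TM.H104.T μ J (li p) / yy μ J)) = _
    field_simp
  rw [h1]

/-- the fourth cumulant form of a family of directions -/
noncomputable def kf (μ : (V → ℤ) → ℝ) {n : ℕ} (v : Fin n → V → ℝ) (s : Fin n → ℝ) : ℝ :=
  ∑ i, ∑ j, s i * s j * H37.K4 μ (v i) (v i) (v j) (v j)

section fam

variable {n : ℕ} (v : Fin n → V → ℝ) (s : Fin n → ℝ)

/-- limit of the second factor in `cs0` -/
theorem fam_quad (hμ : EM μ) (he : ∀ h, μ (-h) = μ h) :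
    (fun e : ℝ => ((∑ i, ∑ j, s i * s j * kk (yy μ) (e • v i) (e • v j)) * yy μ 0 ^ 2 -
      (∑ i, s i * kk (yy μ) 0 (e • v i)) ^ 2) - e ^ 4 * (yy μ 0 ^ 4 * (1 / 2 * kf μ v s)))
      =O[𝓝 0] fun e : ℝ => e ^ 5 := by
  have h1 : ∀ i, (fun e : ℝ => ∑ j, s i * s j *
      ((kk (yy μ) (e • v i) (e • v j) * yy μ 0 ^ 2 -
        kk (yy μ) 0 (e • v i) * kk (yy μ) 0 (e • v j)) -
      e ^ 4 * (yy μ 0 ^ 4 * (1 / 2 * H789.K4 μ (v i) (v j))))) =O[𝓝 0] fun e : ℝ => e ^ 5 :=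
    fun i => bigO_sum fun j => (kk_pair hμ he (v i) (v j)).const_mul_left _
  refine (bigO_sum h1).congr_left fun e => ?_
  unfold kf
  rw [sq (∑ i, s i * kk (yy μ) 0 (e • v i)), Finset.sum_mul_sum, Finset.sum_mul]
  have h2 : e ^ 4 * (yy μ 0 ^ 4 * (1 / 2 * ∑ i, ∑ j, s i * s j *
      H37.K4 μ (v i) (v i) (v j) (v j)))
      = ∑ i, ∑ j, e ^ 4 * (yy μ 0 ^ 4 * (1 / 2 * (s i * s j * H789.K4 μ (v i) (v j)))) := by
    rw [Finset.mul_sum, Finset.mul_sum, Finset.mul_sum]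
    refine Finset.sum_congr rfl fun i _ => ?_
    rw [Finset.mul_sum, Finset.mul_sum, Finset.mul_sum]
    refine Finset.sum_congr rfl fun j _ => ?_
    rw [K4_eq]
  rw [h2, ← Finset.sum_sub_distrib, ← Finset.sum_sub_distrib]
  refine Finset.sum_congr rfl fun i _ => ?_
  rw [Finset.sum_mul, ← Finset.sum_sub_distrib, ← Finset.sum_sub_distrib]
  refine Finset.sum_congr rfl fun j _ => ?_
  ring

/-- limit of the left side in `cs0` -/
theorem fam_lin (hμ : EM μ) (J : V → ℝ) :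
    (fun e : ℝ => ((∑ i, s i * kk (yy μ) J (e • v i)) * yy μ 0 ^ 2 -
      yy μ J ^ 2 * ∑ i, s i * kk (yy μ) 0 (e • v i)) -
      e ^ 2 * (yy μ 0 ^ 2 * yy μ J ^ 2 *
        ∑ i, s i * (Cv μ J (li (v i)) (li (v i)) - Cv μ 0 (li (v i)) (li (v i)))))
      =O[𝓝 0] fun e : ℝ => e ^ 3 := by
  have h1 : ∀ i, (fun e : ℝ =>
      (s i * yy μ 0 ^ 2) * (kk (yy μ) J (e • v i) - (yy μ J ^ 2 + e ^ 2 * (yy μ J ^ 2 *
      Cv μ J (li (v i)) (li (v i))))) - (s i * yy μ J ^ 2) * (kk (yy μ) 0 (e • v i) -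
        (yy μ 0 ^ 2 + e ^ 2 * (yy μ 0 ^ 2 * Cv μ 0 (li (v i)) (li (v i))))))
      =O[𝓝 0] fun e : ℝ => e ^ 3 :=
    fun i => ((kk_two hμ J (v i)).const_mul_left _).sub ((kk_two hμ 0 (v i)).const_mul_left _)
  refine (bigO_sum h1).congr_left fun e => ?_
  rw [Finset.sum_mul, Finset.mul_sum, Finset.mul_sum, Finset.mul_sum, ← Finset.sum_sub_distrib,
    ← Finset.sum_sub_distrib]
  refine Finset.sum_congr rfl fun i _ => ?_
  ring

/-- the fourth cumulant form is nonnegative -/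
theorem kf_nonneg (hμ : EM μ) (he : Ev μ) (hK : PK μ) : 0 ≤ kf μ v s := by
  have hy0 : 0 < yy μ 0 := TM.H104.T_one_pos hμ 0
  have t := tendsto_div_pow (fam_quad v s hμ he)
  have key : 0 ≤ yy μ 0 ^ 4 * (1 / 2 * kf μ v s) := by
    refine ge_of_tendsto t ?_
    filter_upwards [self_mem_nhdsWithin] with e he'
    have he0 : e ≠ 0 := he'
    refine div_nonneg ?_ (by positivity)
    have hd : ∀ a b : ℝ, 0 ≤ a ^ 2 * yy μ 0 ^ 2 + 2 * (a * b * ∑ i, s i * kk (yy μ) 0 (e • v i)) +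
        b ^ 2 * ∑ i, ∑ j, s i * s j * kk (yy μ) (e • v i) (e • v j) := by
      intro a b
      have h1 := psdk_of_pk hK (n + 1) (Fin.cons 0 fun i => e • v i) (Fin.cons a fun i => b * s i)
      simp only [Fin.sum_univ_succ, Fin.cons_zero, Fin.cons_succ, Finset.sum_add_distrib] at h1
      have e1 : kk (yy μ) 0 0 = yy μ 0 ^ 2 := by simp [kk, sq]
      have e2 : ∑ i, a * (b * s i) * kk (yy μ) 0 (e • v i)
          = a * b * ∑ i, s i * kk (yy μ) 0 (e • v i) := by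
        rw [Finset.mul_sum]
        exact Finset.sum_congr rfl fun i _ => by ring
      have e3 : ∑ i, b * s i * a * kk (yy μ) (e • v i) 0
          = a * b * ∑ i, s i * kk (yy μ) 0 (e • v i) := by
        rw [Finset.mul_sum]
        refine Finset.sum_congr rfl fun i _ => ?_
        rw [H789.kk_symm (yy_even he) (e • v i) 0]
        ring
      have e4 : ∑ i, ∑ j, b * s i * (b * s j) * kk (yy μ) (e • v i) (e • v j)
          = b ^ 2 * ∑ i, ∑ j, s i * s j * kk (yy μ) (e • v i) (e • v j) := by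
        rw [Finset.mul_sum]
        refine Finset.sum_congr rfl fun i _ => ?_
        rw [Finset.mul_sum]
        exact Finset.sum_congr rfl fun j _ => by ring
      rw [e1, e2, e3, e4] at h1
      nlinarith
    have := H789.disc hd
    linarith
  have h2 : 0 < yy μ 0 ^ 4 * (1 / 2) := by positivity
  rw [← mul_assoc] at key
  exact (mul_nonneg_iff_of_pos_left h2).1 key

/-- **STAR, trace form.** -/
theorem star_fam (hμ : EM μ) (he : Ev μ) (hK : PK μ) (J : V → ℝ) :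
    (∑ i, s i * (Cv μ J (li (v i)) (li (v i)) - Cv μ 0 (li (v i)) (li (v i)))) ^ 2 ≤
      1 / 2 * (Real.exp (Tq μ J) - 1) * kf μ v s := by
  have hy0 : 0 < yy μ 0 := TM.H104.T_one_pos hμ 0
  have hyJ : 0 < yy μ J := TM.H104.T_one_pos hμ J
  have t1 := tendsto_div_pow (fam_lin v s hμ J)
  have t2 := tendsto_div_pow (fam_quad v s hμ he)
  set M0 := yy μ 0 with hM0
  set MJ := yy μ J with hMJ
  set D := ∑ i, s i * (Cv μ J (li (v i)) (li (v i)) - Cv μ 0 (li (v i)) (li (v i))) with hD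
  have key : (M0 ^ 2 * MJ ^ 2 * D) ^ 2 ≤ (yy μ (J + J) * M0 * M0 ^ 2 - (MJ ^ 2) ^ 2) *
      (M0 ^ 4 * (1 / 2 * kf μ v s)) := by
    refine le_of_tendsto_of_tendsto (t1.pow 2)
      (t2.const_mul (yy μ (J + J) * M0 * M0 ^ 2 - (MJ ^ 2) ^ 2)) ?_
    filter_upwards [self_mem_nhdsWithin] with e he'
    have he0 : e ≠ 0 := he'
    have h1 := cs0 (psdk_of_pk hK) (yy_even he) hy0 J (fun i => e • v i) s
    have e1 : kk (yy μ) J 0 = MJ ^ 2 := by simp [kk, sq, hMJ]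
    have e2 : kk (yy μ) J J = yy μ (J + J) * M0 := by simp [kk, hM0]
    rw [e1, e2, ← hM0] at h1
    have h2 : 0 < (e ^ 2) ^ 2 := by positivity
    have h3 := div_le_div_of_nonneg_right h1 h2.le
    refine (le_of_eq ?_).trans (h3.trans (le_of_eq ?_))
    · rw [div_pow]
    · have : e ^ 4 = (e ^ 2) ^ 2 := by ring
      rw [mul_div_assoc, this]
  rw [exp_Tq hμ]
  have h5 : 1 / 2 * (yy μ (J + J) * M0 ^ 3 / MJ ^ 4 - 1) * kf μ v s =
      (yy μ (J + J) * M0 * M0 ^ 2 - (MJ ^ 2) ^ 2) * (M0 ^ 4 * (1 / 2 * kf μ v s)) /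
        (M0 ^ 4 * MJ ^ 4) := by
    field_simp
  rw [h5, le_div_iff₀ (by positivity)]
  calc D ^ 2 * (M0 ^ 4 * MJ ^ 4) = (M0 ^ 2 * MJ ^ 2 * D) ^ 2 := by ring
    _ ≤ _ := key

end fam

section idx

variable {ι : Type*} [Fintype ι]

/-- the fourth cumulant form of a family with any finite index set -/
noncomputable def kF (μ : (V → ℤ) → ℝ) (v : ι → V → ℝ) (s : ι → ℝ) : ℝ :=
  ∑ i, ∑ j, s i * s j * H37.K4 μ (v i) (v i) (v j) (v j)

lemma kF_eq (v : ι → V → ℝ) (s : ι → ℝ) :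
    kF μ v s = kf μ (fun i => v ((Fintype.equivFin ι).symm i))
      (fun i => s ((Fintype.equivFin ι).symm i)) := by
  unfold kF kf
  rw [← (Fintype.equivFin ι).symm.sum_comp]
  refine Finset.sum_congr rfl fun i _ => ?_
  rw [← (Fintype.equivFin ι).symm.sum_comp]

theorem kF_nonneg (hμ : EM μ) (he : Ev μ) (hK : PK μ) (v : ι → V → ℝ) (s : ι → ℝ) :
    0 ≤ kF μ v s := by
  rw [kF_eq]
  exact kf_nonneg _ _ hμ he hK

/-- **STAR, trace form, any finite index set.** -/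
theorem star_fam' (hμ : EM μ) (he : Ev μ) (hK : PK μ) (J : V → ℝ) (v : ι → V → ℝ) (s : ι → ℝ) :
    (∑ i, s i * (Cv μ J (li (v i)) (li (v i)) - Cv μ 0 (li (v i)) (li (v i)))) ^ 2 ≤
      1 / 2 * (Real.exp (Tq μ J) - 1) * kF μ v s := by
  rw [kF_eq, ← (Fintype.equivFin ι).symm.sum_comp]
  exact star_fam _ _ hμ he hK J

/-- Cauchy-Schwarz for the fourth cumulant form -/
theorem kF_cs {κ : Type*} [Fintype κ] (hμ : EM μ) (he : Ev μ) (hK : PK μ)
    (v : ι → V → ℝ) (s : ι → ℝ) (v' : κ → V → ℝ) (s' : κ → ℝ) :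
    (∑ i, ∑ j, s i * s' j * H37.K4 μ (v i) (v i) (v' j) (v' j)) ^ 2 ≤ kF μ v s * kF μ v' s' := by
  set B : ℝ := ∑ i, ∑ j, s i * s' j * H37.K4 μ (v i) (v i) (v' j) (v' j) with hB
  have hsym : ∀ a b : V → ℝ, H37.K4 μ a a b b = H37.K4 μ b b a a := by
    intro a b
    rw [K4_eq, K4_eq]
    unfold H789.K4
    have e1 : (fun h : V → ℤ => li a h ^ 2 * li b h ^ 2) = fun h => li b h ^ 2 * li a h ^ 2 := by
      funext h; ring
    have e2 : (fun h : V → ℤ => li a h * li b h) = fun h => li b h * li a h := by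
      funext h; ring
    rw [e1, e2]; ring
  refine H789.disc (a := kF μ v s) (b := B) (c := kF μ v' s') fun a b => ?_
  have h1 := kF_nonneg (ι := ι ⊕ κ) hμ he hK (Sum.elim v v')
    (Sum.elim (fun i => a * s i) fun j => b * s' j)
  unfold kF at h1
  simp only [Fintype.sum_sum_type, Sum.elim_inl, Sum.elim_inr, Finset.sum_add_distrib] at h1
  have e1 : ∑ i, ∑ j, a * s i * (a * s j) * H37.K4 μ (v i) (v i) (v j) (v j)
      = a ^ 2 * kF μ v s := by
    unfold kF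
    rw [Finset.mul_sum]
    refine Finset.sum_congr rfl fun i _ => ?_
    rw [Finset.mul_sum]
    exact Finset.sum_congr rfl fun j _ => by ring
  have e2 : ∑ i, ∑ j, a * s i * (b * s' j) * H37.K4 μ (v i) (v i) (v' j) (v' j)
      = a * b * B := by
    rw [hB, Finset.mul_sum]
    refine Finset.sum_congr rfl fun i _ => ?_
    rw [Finset.mul_sum]
    exact Finset.sum_congr rfl fun j _ => by ring
  have e3 : ∑ i, ∑ j, b * s' i * (a * s j) * H37.K4 μ (v' i) (v' i) (v j) (v j)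
      = a * b * B := by
    rw [hB, Finset.sum_comm, Finset.mul_sum]
    refine Finset.sum_congr rfl fun i _ => ?_
    rw [Finset.mul_sum]
    refine Finset.sum_congr rfl fun j _ => ?_
    rw [hsym (v' j) (v i)]; ring
  have e4 : ∑ i, ∑ j, b * s' i * (b * s' j) * H37.K4 μ (v' i) (v' i) (v' j) (v' j)
      = b ^ 2 * kF μ v' s' := by
    unfold kF
    rw [Finset.mul_sum]
    refine Finset.sum_congr rfl fun i _ => ?_
    rw [Finset.mul_sum]
    exact Finset.sum_congr rfl fun j _ => by ring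
  rw [e1, e2, e3, e4] at h1
  linarith

end idx

end Vale.Agent.P159.H692
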