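import Vale.Agent.P159.H239.Fam

/-!
P159 / LINKW (helper692): a second set of parameters.  A family `Fam b1 b2 pf S` holds for some `P`
whose exponent `th` is prescribed (and small) and whose `es` is below any given number.
-/

set_option linter.unusedSectionVars false

namespace Vale.Agent.P159.H692

open Vale.Agent.P159.H972 (Par lg Good YBn StepP' StartP exists_par' w1 w3)
open Vale.Agent.P159.H239 (Fam Sel)

noncomputable section

/-- **parameters with a prescribed `th`** -/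
theorem fam_second {b1 b2 pf : ℝ} {S : Par → ℕ → Prop} (h : Fam b1 b2 pf S) (hpf : 0 < pf)
    (hpf1 : pf ≤ 1) :
    ∃ r : ℝ, 0 < r ∧ ∀ th, 0 < th → th ≤ r → ∀ E : ℝ, 0 < E → ∃ P : Par, P.Adm ∧ P.b1 = b1 ∧
      P.b2 = b2 ∧ P.pf = pf ∧ P.th = th ∧ P.es ≤ E ∧ ∃ N00 : ℕ, ∀ N0, N00 ≤ N0 → S P N0 := by
  obtain ⟨W0, h⟩ := h
  obtain ⟨ys0, hys0, h⟩ := h W0 le_rfl
  obtain ⟨X00, h⟩ := h ys0 hys0 le_rfl
  obtain ⟨r1, hr1, h⟩ := h X00 le_rfl
  obtain ⟨Q0, h⟩ := h (min r1 1) (lt_min hr1 one_pos) (min_le_left _ _)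
  obtain ⟨x1, hx1⟩ : ∃ x1, x1 = min r1 1 := ⟨_, rfl⟩
  rw [← hx1] at h
  have hx0 : 0 < x1 := by rw [hx1]; exact lt_min hr1 one_pos
  have hx11 : x1 ≤ 1 := by rw [hx1]; exact min_le_right _ _
  obtain ⟨r2, hr2, h⟩ := h Q0 le_rfl
  obtain ⟨r3, hr3, h⟩ := h (min r2 (x1 / 200)) (lt_min hr2 (by positivity)) (min_le_left _ _)
  obtain ⟨thp, hthp⟩ : ∃ thp, thp = min r2 (x1 / 200) := ⟨_, rfl⟩
  rw [← hthp] at h
  have ht0 : 0 < thp := by rw [hthp]; exact lt_min hr2 (by positivity)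
  have ht1 : thp ≤ x1 / 200 := by rw [hthp]; exact min_le_right _ _
  refine ⟨min r3 thp, lt_min hr3 ht0, fun th hth0 hth E hE => ?_⟩
  have hth1 : th ≤ thp := hth.trans (min_le_right _ _)
  obtain ⟨C00, h⟩ := h th hth0 (hth.trans (min_le_left _ _))
  obtain ⟨E0, hE0, h⟩ := h (max C00 1) (by positivity) (le_max_left _ _)
  obtain ⟨P, hA, p1, p2, p3, p4, p5, p6, p7, p8, p9, p10, p11, p12, p13⟩ :=
    exists_par' (b1 := b1) (b2 := b2) (W := W0) (ys := ys0) X00 Q0 hth0 hth1 (by linarith) hx11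
      (by linarith) (show 0 < max C00 1 by positivity) hpf hpf1 (lt_min hE hE0)
  exact ⟨P, hA, p6, p7, p5, p1, p12.trans (min_le_left _ _),
    h P ⟨hA, p6, p7, p5, p8, p9, p10, p3, p2, p1, p4, p11, p13⟩ (p12.trans (min_le_right _ _))⟩

/-- windows are short -/
lemma w_small (P : Par) {p κ : ℝ} (hp : 0 < p) (hκ : 0 < κ) :
    ∃ E : ℝ, 0 < E ∧ ∀ e, 0 < e → e ≤ E → e ≤ P.es → (P.w e : ℝ) ≤ κ * e ^ (-p) := by
  obtain ⟨C, hC⟩ : ∃ C, C = (P.thp + 1) / Real.log 2 := ⟨_, rfl⟩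
  have hC0 : 0 < C := by
    rw [hC]
    have h1 := P.thp0
    have h2 := Real.log_pos one_lt_two
    positivity
  have h := tendsto_log_mul_rpow_nhdsGT_zero hp
  have h1 := (h.abs).eventually (gt_mem_nhds (show |(0 : ℝ)| < κ / C by rw [abs_zero]; positivity))
  obtain ⟨E, hE, h2⟩ := mem_nhdsGT_iff_exists_Ioc_subset.1 h1
  refine ⟨E, hE, fun e he he1 hes => ?_⟩
  have h3 : |Real.log e * e ^ p| < κ / C := h2 ⟨he, he1⟩
  have h4 := w3 (P := P) he hes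
  rw [← hC] at h4
  refine h4.trans ?_
  have hp0 : 0 < e ^ p := Real.rpow_pos_of_pos he _
  have h5 : -(Real.log e * e ^ p) ≤ κ / C := (neg_le_abs _).trans h3.le
  rw [le_div_iff₀ hC0] at h5
  rw [one_div, Real.log_inv, Real.rpow_neg he.le, ← div_eq_mul_inv, le_div_iff₀ hp0]
  linarith

end

end Vale.Agent.P159.H692
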