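import Vale.Agent.P159.H692.Ch1
import Vale.Agent.P159.H972.StepG

/-!
P159 / LINKW (helper692): the bootstrap of the `P` half at the critical point.  If the zero
background numbers of the level `n` are at most `n ^ (-D)`, then the states at the level `n` have
size `n ^ (-2 s)` for every `s` with `s (1 + sg) < D`.
-/

set_option linter.unusedSectionVars false

namespace Vale.Agent.P159.H692

open Filter Topology
open Vale.Agent.P159.H972 (Par lg Good YBn StepP' StartP w1 w3)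

noncomputable section

variable {P : Par} {b sg D s : ℝ} {N0 : ℕ}

/-- one halving -/
lemma boot_step (st : StepP' P b sg N0) (hs : 0 < s) {N1 : ℕ}
    (hY : ∀ n, N1 ≤ n → ∀ e, 0 < e → YBn P b n e ((n : ℝ) ^ (-D))) {e1 A : ℝ}
    (hes : e1 ≤ P.es) (hD0 : 0 ≤ D) (hsg : 0 ≤ sg)
    (hw : ∀ e, 0 < e → e ≤ e1 → (P.w e : ℝ) ≤ (2 ^ (1 / (2 * s)) - 1) * e ^ (-(1 / (2 * s))))
    (hg : ∀ e, 0 < e → e ≤ e1 → e ^ (D / s - sg) ≤ e / 2) (hA0 : (N0 : ℝ) ≤ A) (hA1 : (N1 : ℝ) ≤ A)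
    {e : ℝ} (he : 0 < e) (h2e : 2 * e ≤ e1)
    (ih : ∀ n : ℕ, A + (2 * e) ^ (-(1 / (2 * s))) ≤ n → Good P b n (2 * e)) {n : ℕ}
    (hn : A + e ^ (-(1 / (2 * s))) ≤ n) : Good P b n e := by
  obtain ⟨p, hp⟩ : ∃ p, p = 1 / (2 * s) := ⟨_, rfl⟩
  rw [← hp] at hw ih hn
  have hp0 : 0 < p := by rw [hp]; positivity
  have h0 : 0 < 2 * e := by positivity
  have h2es : 2 * e ≤ P.es := h2e.trans hes
  have hX0 : 0 < (2 * e) ^ (-p) := Real.rpow_pos_of_pos h0 _
  have hX : e ^ (-p) = 2 ^ p * (2 * e) ^ (-p) := by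
    rw [Real.mul_rpow (by norm_num) he.le, ← mul_assoc, ← Real.rpow_add two_pos, add_neg_cancel,
      Real.rpow_zero, one_mul]
  have hw2 := hw (2 * e) h0 h2e
  have hA0' : (0 : ℝ) ≤ A := (Nat.cast_nonneg _).trans hA0
  have hwn : P.w (2 * e) ≤ n := by
    have : (P.w (2 * e) : ℝ) ≤ n := by
      rw [hX] at hn
      nlinarith
    exact_mod_cast this
  obtain ⟨m, hm⟩ : ∃ m, n = m + P.w (2 * e) := ⟨n - P.w (2 * e), by omega⟩
  have hmA : A + (2 * e) ^ (-p) ≤ m := by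
    rw [hm, hX] at hn
    push_cast at hn
    nlinarith
  have hm0 : N0 ≤ m := by
    have : (N0 : ℝ) ≤ m := by linarith
    exact_mod_cast this
  have hm1 : N1 ≤ m := by
    have : (N1 : ℝ) ≤ m := by linarith
    exact_mod_cast this
  have hmX : (2 * e) ^ (-p) ≤ m := by linarith
  have hmpos : (0 : ℝ) < m := hX0.trans_le hmX
  -- the number `m ^ (-D) ^ 2 ≤ (2 e) ^ (D / s)`
  have hY2 : ((m : ℝ) ^ (-D)) ^ 2 ≤ (2 * e) ^ (D / s) := by
    have k1 : (m : ℝ) ^ (-D) ≤ ((2 * e) ^ (-p)) ^ (-D) :=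
      Real.rpow_le_rpow_of_nonpos hX0 hmX (by linarith)
    have k2 : ((2 * e) ^ (-p)) ^ (-D) = (2 * e) ^ (p * D) := by
      rw [← Real.rpow_mul h0.le]
      congr 1
      ring
    rw [k2] at k1
    have k3 := pow_le_pow_left₀ (Real.rpow_nonneg hmpos.le _) k1 2
    refine k3.trans (le_of_eq ?_)
    rw [← Real.rpow_natCast, ← Real.rpow_mul h0.le]
    congr 1
    rw [hp]
    push_cast
    field_simp
  have h1e : 2 * e ≤ 1 := h2es.trans (P.es1.trans (by norm_num))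
  have hgg := hg (2 * e) h0 h2e
  have hsplit : (2 * e) ^ (D / s - sg) = (2 * e) ^ (-sg) * (2 * e) ^ (D / s) := by
    rw [← Real.rpow_add h0]
    congr 1
    ring
  have hsg1 : 1 ≤ (2 * e) ^ (-sg) := Real.one_le_rpow_of_pos_of_le_one_of_nonpos h0 h1e (by linarith)
  have hDs : (2 * e) ^ (D / s) ≤ e := by
    have k1 : (2 * e) ^ (D / s) ≤ (2 * e) ^ (-sg) * (2 * e) ^ (D / s) :=
      le_mul_of_one_le_left (Real.rpow_nonneg h0.le _) hsg1
    rw [← hsplit] at k1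
    linarith
  have key := st m n (2 * e) ((m : ℝ) ^ (-D)) hm0 (ih m hmA) (hY m hm1 (2 * e) h0)
    (hY2.trans (hDs.trans (by linarith))) h2es (by omega) (by omega)
  refine key.mono (max_le (by linarith) ?_)
  have k2 : (2 * e) ^ (-sg) * ((m : ℝ) ^ (-D)) ^ 2 ≤ (2 * e) ^ (-sg) * (2 * e) ^ (D / s) :=
    mul_le_mul_of_nonneg_left hY2 (Real.rpow_nonneg h0.le _)
  rw [← hsplit] at k2
  linarith

/-- **bootstrap**, scale form -/
theorem boot_aux (hsg : 0 ≤ sg) (st : StepP' P b sg N0) (hS : StartP P b) (hs : 0 < s)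
    (hD : s * (1 + sg) < D) (hY : ∀ᶠ n : ℕ in atTop, ∀ e, 0 < e → YBn P b n e ((n : ℝ) ^ (-D))) :
    ∃ e1 A : ℝ, 0 < e1 ∧ e1 ≤ P.es ∧ ∀ e, 0 < e → e ≤ e1 → ∀ n : ℕ,
      A + e ^ (-(1 / (2 * s))) ≤ n → Good P b n e := by
  obtain ⟨N1, hN1⟩ := eventually_atTop.1 hY
  have hD0 : 0 < D := by
    have : 0 ≤ s * (1 + sg) := by positivity
    linarith
  obtain ⟨κ, hκ⟩ : ∃ κ : ℝ, κ = 2 ^ (1 / (2 * s)) - 1 := ⟨_, rfl⟩
  have hκ0 : 0 < κ := by
    rw [hκ]
    have := Real.one_lt_rpow one_lt_two (show 0 < 1 / (2 * s) by positivity)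
    linarith
  obtain ⟨E, hE, hw⟩ := w_small P (p := 1 / (2 * s)) (by positivity) hκ0
  obtain ⟨g, hg⟩ : ∃ g : ℝ, g = D / s - sg - 1 := ⟨_, rfl⟩
  have hg0 : 0 < g := by
    rw [hg]
    have : 1 + sg < D / s := by
      rw [lt_div_iff₀ hs]
      linarith
    linarith
  obtain ⟨e1, he1⟩ : ∃ e1, e1 = min P.es (min E ((1 / 2 : ℝ) ^ (1 / g))) := ⟨_, rfl⟩
  have he10 : 0 < e1 := by
    rw [he1]
    exact lt_min P.es0 (lt_min hE (Real.rpow_pos_of_pos (by norm_num) _))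
  have h1 : e1 ≤ P.es := by rw [he1]; exact min_le_left _ _
  have h2 : e1 ≤ E := by rw [he1]; exact (min_le_right _ _).trans (min_le_left _ _)
  have h3 : e1 ≤ (1 / 2 : ℝ) ^ (1 / g) := by
    rw [he1]; exact (min_le_right _ _).trans (min_le_right _ _)
  have hgg : ∀ e, 0 < e → e ≤ e1 → e ^ (D / s - sg) ≤ e / 2 := by
    intro e he hee
    have k1 : e ^ (D / s - sg) = e * e ^ g := by
      nth_rw 2 [← Real.rpow_one e]
      rw [← Real.rpow_add he]
      congr 1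
      rw [hg]
      ring
    have k2 : e ^ g ≤ ((1 / 2 : ℝ) ^ (1 / g)) ^ g := Real.rpow_le_rpow he.le (hee.trans h3) hg0.le
    rw [← Real.rpow_mul (by norm_num), one_div_mul_cancel hg0.ne', Real.rpow_one] at k2
    rw [k1]
    nlinarith
  obtain ⟨n0, hn0⟩ := hS.good (show 0 < e1 / 2 by positivity) (show e1 / 2 ≤ P.es by linarith)
  obtain ⟨A, hA⟩ : ∃ A : ℝ, A = (n0 : ℝ) + N0 + N1 := ⟨_, rfl⟩
  have c1 : (0 : ℝ) ≤ n0 := Nat.cast_nonneg _
  have c2 : (0 : ℝ) ≤ N0 := Nat.cast_nonneg _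
  have c3 : (0 : ℝ) ≤ N1 := Nat.cast_nonneg _
  refine ⟨e1, A, he10, h1, ?_⟩
  have main : ∀ k : ℕ, ∀ e, e1 / 2 ^ (k + 1) ≤ e → e ≤ e1 → ∀ n : ℕ,
      A + e ^ (-(1 / (2 * s))) ≤ n → Good P b n e := by
    intro k
    induction k with
    | zero =>
      intro e hk hee n hn
      have he : 0 < e := (show 0 < e1 / 2 ^ (0 + 1) by positivity).trans_le hk
      have hx : 0 < e ^ (-(1 / (2 * s))) := Real.rpow_pos_of_pos he _
      have : (n0 : ℝ) ≤ n := by linarith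
      refine (hn0 n (by exact_mod_cast this)).mono ?_
      simpa using hk
    | succ k ih =>
      intro e hk hee n hn
      have he : 0 < e := (show 0 < e1 / 2 ^ (k + 1 + 1) by positivity).trans_le hk
      rcases le_or_gt (e1 / 2 ^ (k + 1)) e with h4 | h4
      · exact ih e h4 hee n hn
      · have h5 : e1 / 2 ^ (k + 1) ≤ e1 / 2 := by
          rw [pow_succ]
          have : (1 : ℝ) ≤ 2 ^ k := one_le_pow₀ (by norm_num)
          apply div_le_div_of_nonneg_left he10.le (by norm_num)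
          linarith
        have h6 : e1 / 2 ^ (k + 1) ≤ 2 * e := by
          rw [pow_succ, ← div_div] at hk
          linarith
        exact boot_step st hs hN1 h1 hD0.le hsg
          (fun e h h' => by rw [← hκ]; exact hw e h (h'.trans h2) (h'.trans h1)) hgg (by linarith)
          (by linarith) he (by linarith) (ih (2 * e) h6 (by linarith)) hn
  intro e he hee n hn
  obtain ⟨k, hk⟩ : ∃ k : ℕ, e1 / e < 2 ^ k := pow_unbounded_of_one_lt _ one_lt_two
  refine main k e ?_ hee n hn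
  rw [div_lt_iff₀ he] at hk
  rw [div_le_iff₀ (by positivity), pow_succ]
  have : 0 < e * 2 ^ k := by positivity
  linarith

/-- **bootstrap**: the states at the critical point -/
theorem boot (hsg : 0 ≤ sg) (st : StepP' P b sg N0) (hS : StartP P b) (hs : 0 < s)
    (hD : s * (1 + sg) < D) (hY : ∀ᶠ n : ℕ in atTop, ∀ e, 0 < e → YBn P b n e ((n : ℝ) ^ (-D))) :
    ∀ᶠ n : ℕ in atTop, Good P b n ((n : ℝ) ^ (-(2 * s))) := by
  obtain ⟨s2, h1, h2⟩ : ∃ s2, s < s2 ∧ s2 * (1 + sg) < D := by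
    refine ⟨(s + D / (1 + sg)) / 2, ?_, ?_⟩
    · have : s < D / (1 + sg) := by rw [lt_div_iff₀ (by linarith)]; exact hD
      linarith
    · have h3 : s < D / (1 + sg) := by rw [lt_div_iff₀ (by linarith)]; exact hD
      rw [← lt_div_iff₀ (by linarith)]
      linarith
  have hs2 : 0 < s2 := hs.trans h1
  obtain ⟨e1, A, he1, hes, hG⟩ := boot_aux hsg st hS hs2 h2 hY
  have t1 : Tendsto (fun n : ℕ => (n : ℝ) ^ (-(2 * s))) atTop (𝓝 0) :=
    (tendsto_rpow_neg_atTop (by positivity)).comp tendsto_natCast_atTop_atTop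
  have t2 : Tendsto (fun n : ℕ => (n : ℝ) ^ (-(1 - s / s2))) atTop (𝓝 0) :=
    (tendsto_rpow_neg_atTop (by
      have : s / s2 < 1 := by rw [div_lt_one hs2]; exact h1
      linarith)).comp tendsto_natCast_atTop_atTop
  have t3 : Tendsto (fun n : ℕ => A / (n : ℝ)) atTop (𝓝 0) :=
    tendsto_const_nhds.div_atTop tendsto_natCast_atTop_atTop
  filter_upwards [t1.eventually (ge_mem_nhds he1),
    t2.eventually (ge_mem_nhds (show (0 : ℝ) < 1 / 2 by norm_num)),
    t3.eventually (ge_mem_nhds (show (0 : ℝ) < 1 / 2 by norm_num)), eventually_gt_atTop 0]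
    with n k1 k2 k3 k4
  have hn : (0 : ℝ) < n := by exact_mod_cast k4
  refine hG _ (Real.rpow_pos_of_pos hn _) k1 n ?_
  rw [← Real.rpow_mul hn.le]
  have e2 : -(2 * s) * -(1 / (2 * s2)) = 1 + -(1 - s / s2) := by
    field_simp
    ring
  rw [e2, Real.rpow_add hn, Real.rpow_one]
  rw [div_le_iff₀ hn] at k3
  nlinarith

end

end Vale.Agent.P159.H692
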