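import Vale.Agent.P159.H692.Ch2
import Vale.Agent.P159.H159.Sub
import Vale.Agent.P159.H447.LkT
import Vale.Agent.P159.H801.SFlow
import Vale.Agent.P159.H972.Lk2

/-!
P159 / LINKW (helper692): **CHN**.  From the flow of the first set `P` of parameters (`SFlow`) and
the `P` half of a second set `P'` (same `th`, exponent `pf'` of the profile close to one) the chain
of states `Chn P' b s` of helper972, with sizes `n ^ (-2 s)`, every `s < 1 - 2 c`.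
-/

set_option linter.unusedSectionVars false

namespace Vale.Agent.P159.H692

open Filter Topology
open Vale.Agent.P159.H972 (Par Par.Adm lg tn Good YBn StepP' StartP FL Chn forty TT_base
  exists_stiff tn_pos lg_anti FL.det)
open Vale.Agent.P159.H801 (SFlow xa FLC)

noncomputable section

lemma ybn_mono {P : Par} {b : ℝ} {n : ℕ} {e Y Y' : ℝ} (h : YBn P b n e Y) (hY : Y ≤ Y') :
    YBn P b n e Y' :=
  ⟨h.1.trans_le hY, fun e1 h1 h2 r hr => (h.2.1 e1 h1 h2 r hr).trans (max_le_max hY le_rfl),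
    fun e1 h1 h2 r hr => (h.2.2 e1 h1 h2 r hr).trans (max_le_max hY le_rfl)⟩

variable {P P' : Par} {b σ c c1 q2 qx sg s : ℝ} {a y ε xs : ℕ → ℝ} {c' r q A : ℝ} {N N0 : ℕ}

lemma flow_pos (F : SFlow P b σ c c1 q2 qx a y ε xs c' r q A N) {n : ℕ} (hn : N ≤ n) :
    0 < ε n :=
  (Real.rpow_pos_of_pos (F.fl.y0 n) _).trans_le (F.lo n hn)

/-- the letters at the critical point -/
lemma flow_pow (F : SFlow P b σ c c1 q2 qx a y ε xs c' r q A N) {s1 : ℝ} (hs1 : s1 < 1) :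
    ∀ᶠ n : ℕ in atTop, y n ≤ (n : ℝ) ^ (-s1) ∧ |xa a n| ≤ (n : ℝ) ^ (-s1) := by
  have h := H447.T3_pow F.t3 F.q21.le (x := xa a) (by
    filter_upwards [eventually_ge_atTop N] with n hn
    rw [abs_sub_comm]
    exact F.near n hn) hs1
  filter_upwards [h] with n hn using hn.2

/-- the zero background numbers at the critical point -/
lemma flow_Y (F : SFlow P b σ c c1 q2 qx a y ε xs c' r q A N) (hσ : 0 ≤ σ) (hc : 0 ≤ c)
    (hc2 : 2 * c < 1) {s1 : ℝ} (hs1 : s1 < 1) :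
    ∀ᶠ n : ℕ in atTop, ε n ^ (-c) * y n ≤ (n : ℝ) ^ (-(s1 * (1 - 2 * c))) := by
  filter_upwards [flow_pow F hs1, eventually_ge_atTop N] with n h1 hn
  have hy := F.fl.y0 n
  have hy1 := F.y1 n hn
  have hε := flow_pos F hn
  have k1 : ε n ^ (-c) ≤ (y n ^ (2 - σ)) ^ (-c) :=
    Real.rpow_le_rpow_of_nonpos (Real.rpow_pos_of_pos hy _) (F.lo n hn) (by linarith)
  have k2 : ε n ^ (-c) * y n ≤ (y n ^ (2 - σ)) ^ (-c) * y n :=
    mul_le_mul_of_nonneg_right k1 hy.le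
  have k3 : (y n ^ (2 - σ)) ^ (-c) * y n = y n ^ (1 - c * (2 - σ)) := by
    nth_rw 2 [← Real.rpow_one (y n)]
    rw [← Real.rpow_mul hy.le, ← Real.rpow_add hy]
    congr 1
    ring
  have k4 : y n ^ (1 - c * (2 - σ)) ≤ y n ^ (1 - 2 * c) := by
    apply Real.rpow_le_rpow_of_exponent_ge hy hy1
    nlinarith [mul_nonneg hc hσ]
  have k5 : y n ^ (1 - 2 * c) ≤ ((n : ℝ) ^ (-s1)) ^ (1 - 2 * c) :=
    Real.rpow_le_rpow hy.le h1.1 (by linarith)
  have k6 : ((n : ℝ) ^ (-s1)) ^ (1 - 2 * c) = (n : ℝ) ^ (-(s1 * (1 - 2 * c))) := by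
    rw [← Real.rpow_mul (Nat.cast_nonneg _)]
    congr 1
    ring
  rw [k3] at k2
  rw [k6] at k5
  exact k2.trans (k4.trans k5)

/-- the zero background numbers of the second set -/
lemma flow_YB (F : SFlow P b σ c c1 q2 qx a y ε xs c' r q A N) (hb : 0 < b) (hth : P.th ≤ P'.th)
    (hth2 : P.th ≤ 1 / 2) (hes : P'.es ≤ P.es) (hσ1 : σ ≤ 1 / 4) (hc : 0 ≤ c) {n : ℕ} (hn : N ≤ n)
    {e : ℝ} (he : 0 < e) : YBn P' b n e (ε n ^ (-c) * y n) := by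
  have hy := F.fl.y0 n
  have hy1 := F.y1 n hn
  have hε := flow_pos F hn
  have hε1 : ε n ≤ 1 := (F.es n hn).trans (P.es1.trans (by norm_num))
  have k1 : ε n ≤ y n := by
    refine (F.up n hn).trans ?_
    have := Real.rpow_le_rpow_of_exponent_ge hy hy1 (show 1 ≤ 2 - 3 * σ by linarith)
    rwa [Real.rpow_one] at this
  have k2 : y n ≤ ε n ^ (-c) * y n :=
    le_mul_of_one_le_left hy.le
      (Real.one_le_rpow_of_pos_of_le_one_of_nonpos hε hε1 (by linarith))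
  have h := H159.ybn_sub hth hth2 hes hb (F.yb n hn) hε (k1.trans k2) (F.es n hn)
    (le_refl 0) he
  simpa using h

/-- the stiffness of the second set -/
lemma flow_det (F : SFlow P b σ c c1 q2 qx a y ε xs c' r q A N) (hA : P.Adm)
    (hes : P'.es ≤ P.es) {n : ℕ} (hn : N ≤ n) {e : ℝ} (h1 : ε n ≤ e) (h2 : e ≤ P'.es) {a1 : ℝ}
    (hfl : FL b (tn n) a1 (17 * e ^ P'.pf) (2 ^ (n + P.kE e))) :
    |a1 - a n| ≤ 68 * e ^ P.pf + 68 * e ^ P'.pf := by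
  have hε := flow_pos F hn
  have he : 0 < e := hε.trans_le h1
  have h3 := F.flc n (ε n) hε (F.es n hn) (F.good n hn) e h1 (h2.trans hes) _ (TT_base P n e)
  have h4 := hfl.det (forty hA.hk he (h2.trans hes) le_rfl) (by
    have h4 : 3 ≤ P.kE e := hA.hk.trans (lg_anti P.th0.le he (h2.trans hes))
    calc 2 = 2 ^ 1 := by norm_num
      _ ≤ 2 ^ (n + P.kE e) := Nat.pow_le_pow_right (by norm_num) (by omega)) h3
  linarith

/-- powers of the sizes -/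
lemma size_pow {z : ℝ} {n : ℕ} (hn : 1 ≤ n) {p μ ν : ℝ} (hz : 0 ≤ z) (hp : 0 ≤ p)
    (h : z ≤ (n : ℝ) ^ (-μ)) (hν : ν ≤ μ * p) : z ^ p ≤ (n : ℝ) ^ (-ν) := by
  have h1 : z ^ p ≤ ((n : ℝ) ^ (-μ)) ^ p := Real.rpow_le_rpow hz h hp
  rw [← Real.rpow_mul (Nat.cast_nonneg _)] at h1
  refine h1.trans (Real.rpow_le_rpow_of_exponent_le (by exact_mod_cast hn) (by linarith))

/-- the exponents -/
lemma exps_second (hσ : 0 < σ) (hσ1 : σ ≤ 1 / 4) (hc : 0 ≤ c) (hs : 3 / 4 ≤ s)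
    {p p' : ℝ} (hpf : 1 ≤ (2 - 3 * σ) * p) (hpf' : 1 ≤ (2 - 3 * σ) * p')
    (hsg : 0 ≤ sg) (hsc : s * (1 + sg) < 1 - 2 * c) :
    ∃ D s1 p0 ν : ℝ, s * (1 + sg) < D ∧ s1 * (1 - 2 * c) = D ∧ s1 < 1 ∧ 0 < s1 ∧ 0 < p0 ∧
      p0 ≤ p ∧ p0 ≤ p' ∧ s < ν ∧ ν ≤ s1 ∧ ν ≤ s1 * (2 - 3 * σ) * p0 ∧ ν ≤ 2 * s * p0 ∧ s ≤ D := by
  have hs0 : 0 < s := by linarith
  have hsl : s ≤ s * (1 + sg) := by nlinarith
  have hc2 : 0 < 1 - 2 * c := by linarith
  obtain ⟨D, hD⟩ : ∃ D, D = (s * (1 + sg) + (1 - 2 * c)) / 2 := ⟨_, rfl⟩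
  have hD1 : s * (1 + sg) < D := by rw [hD]; linarith
  have hD2 : D < 1 - 2 * c := by rw [hD]; linarith
  obtain ⟨s1, hs1⟩ : ∃ s1, s1 = D / (1 - 2 * c) := ⟨_, rfl⟩
  have hs1D : s1 * (1 - 2 * c) = D := by
    rw [hs1, div_mul_cancel₀ _ hc2.ne']
  have hs11 : s1 < 1 := by
    rw [hs1, div_lt_one hc2]
    exact hD2
  have hs10 : 0 < s1 := by
    rw [hs1]
    apply div_pos <;> linarith
  have hDs1 : D ≤ s1 := by
    rw [← hs1D]
    nlinarith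
  have hss1 : s < s1 := by linarith
  have hσ2 : 0 < 2 - 3 * σ := by linarith
  obtain ⟨p0, hp0⟩ : ∃ p0, p0 = min p p' := ⟨_, rfl⟩
  have hp01 : 1 ≤ (2 - 3 * σ) * p0 := by
    rcases min_choice p p' with h | h
    · rw [hp0, h]; exact hpf
    · rw [hp0, h]; exact hpf'
  have hp0h : 1 / 2 < p0 := by nlinarith
  refine ⟨D, s1, p0, min s1 (2 * s * p0), hD1, hs1D, hs11, hs10, by linarith, ?_, ?_, ?_,
    min_le_left _ _, ?_, min_le_right _ _, by linarith⟩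
  · rw [hp0]; exact min_le_left _ _
  · rw [hp0]; exact min_le_right _ _
  · refine lt_min hss1 ?_
    nlinarith
  · refine (min_le_left _ _).trans ?_
    rw [mul_assoc]
    exact le_mul_of_one_le_right hs10.le hp01

lemma tend_neg {p : ℝ} (hp : 0 < p) : Tendsto (fun n : ℕ => (n : ℝ) ^ (-p)) atTop (𝓝 0) :=
  (tendsto_rpow_neg_atTop hp).comp tendsto_natCast_atTop_atTop

/-- the stiffness function of the second set -/
lemma stiff_second (hA' : P'.Adm) (hs : 0 < s)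
    (hG : ∀ᶠ n : ℕ in atTop, Good P' b n ((n : ℝ) ^ (-(2 * s)))) :
    ∃ a' : ℕ → ℝ, ∀ᶠ n : ℕ in atTop, ∀ e, (n : ℝ) ^ (-(2 * s)) ≤ e → e ≤ P'.es → ∀ r, P'.TT n e r →
      FL b (tn n) (a' n) (17 * e ^ P'.pf) (2 ^ r) := by
  obtain ⟨a', ha'⟩ := exists_stiff P' b hA'.hk hA'.pf0.le hA'.pf1
    (fun n => ((n : ℝ) + 1) ^ (-(2 * s))) (fun n => Real.rpow_pos_of_pos (by positivity) _)
  refine ⟨a', ?_⟩
  filter_upwards [hG, (tend_neg (show 0 < 2 * s by positivity)).eventually (ge_mem_nhds P'.es0),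
    eventually_gt_atTop 0] with n h1 h2 h3 e he1 he2 r hr
  have hn : (0 : ℝ) < n := by exact_mod_cast h3
  exact ha' n _ (Real.rpow_le_rpow_of_nonpos hn (by linarith) (by linarith)) h2 h1 e he1 he2 r hr

/-- the two stiffness functions -/
lemma det_second (F : SFlow P b σ c c1 q2 qx a y ε xs c' r q A N) (hA : P.Adm)
    (hσ1 : σ ≤ 1 / 4) (hs : 0 < s) (hth : P'.th = P.th) (hes : P'.es ≤ P.es) {s1 p0 ν : ℝ}
    (hs11 : s1 < 1) (hs10 : 0 < s1) (hp0 : 0 < p0) (hp1 : p0 ≤ P.pf) (hp2 : p0 ≤ P'.pf)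
    (hν1 : ν ≤ s1 * (2 - 3 * σ) * p0) (hν2 : ν ≤ 2 * s * p0) {a' : ℕ → ℝ}
    (hfl : ∀ᶠ n : ℕ in atTop, ∀ e, (n : ℝ) ^ (-(2 * s)) ≤ e → e ≤ P'.es → ∀ r, P'.TT n e r →
      FL b (tn n) (a' n) (17 * e ^ P'.pf) (2 ^ r)) :
    ∀ᶠ n : ℕ in atTop, |a' n - a n| ≤ 136 * (n : ℝ) ^ (-ν) := by
  have hes0 := P'.es0
  filter_upwards [hfl, flow_pow F hs11,
    (tend_neg (show 0 < 2 * s by positivity)).eventually (ge_mem_nhds hes0),
    (tend_neg hs10).eventually (ge_mem_nhds hes0), eventually_ge_atTop N, eventually_ge_atTop 1]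
    with n h1 h2 h3 h4 hn hn1
  have hε := flow_pos F hn
  have hy := F.fl.y0 n
  have hn0 : (0 : ℝ) < n := by exact_mod_cast hn1
  have k1 : ε n ≤ y n := by
    refine (F.up n hn).trans ?_
    have := Real.rpow_le_rpow_of_exponent_ge hy (F.y1 n hn) (show 1 ≤ 2 - 3 * σ by linarith)
    rwa [Real.rpow_one] at this
  obtain ⟨e, he⟩ : ∃ e, e = max (ε n) ((n : ℝ) ^ (-(2 * s))) := ⟨_, rfl⟩
  have he1 : ε n ≤ e := by rw [he]; exact le_max_left _ _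
  have he2 : (n : ℝ) ^ (-(2 * s)) ≤ e := by rw [he]; exact le_max_right _ _
  have he3 : e ≤ P'.es := by
    rw [he]
    exact max_le (k1.trans (h2.1.trans h4)) h3
  have he0 : 0 < e := hε.trans_le he1
  have he4 : e ≤ 1 := he3.trans (P'.es1.trans (by norm_num))
  have hk : P'.kE e = P.kE e := by
    unfold Par.kE
    rw [hth]
  have k2 := flow_det F hA hes hn he1 he3 (h1 e he2 he3 _ (by
    rw [← hk]
    exact TT_base P' n e))
  -- the size `e ^ p0 ≤ n ^ (-ν)`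
  have k3 : e ^ p0 ≤ (n : ℝ) ^ (-ν) := by
    rcases max_choice (ε n) ((n : ℝ) ^ (-(2 * s))) with h | h
    · rw [he, h]
      have k4 : ε n ≤ (n : ℝ) ^ (-(s1 * (2 - 3 * σ))) := by
        refine (F.up n hn).trans ?_
        exact size_pow hn1 hy.le (by linarith) h2.1 le_rfl
      exact size_pow hn1 hε.le hp0.le k4 hν1
    · rw [he, h]
      exact size_pow hn1 (Real.rpow_nonneg hn0.le _) hp0.le le_rfl hν2
  have k5 : e ^ P.pf ≤ e ^ p0 := Real.rpow_le_rpow_of_exponent_ge he0 he4 hp1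
  have k6 : e ^ P'.pf ≤ e ^ p0 := Real.rpow_le_rpow_of_exponent_ge he0 he4 hp2
  linarith

/-- the limit of the second stiffness function -/
lemma lim_second (hlim0 : Tendsto a atTop (𝓝 (Real.pi / 2))) {ν : ℝ} (hν : 0 < ν) {a' : ℕ → ℝ}
    (hdet : ∀ᶠ n : ℕ in atTop, |a' n - a n| ≤ 136 * (n : ℝ) ^ (-ν)) :
    ∀ᶠ n : ℕ in atTop, 1 ≤ a' n ∧ a' n ≤ 2 := by
  have hlim : Tendsto a' atTop (𝓝 (Real.pi / 2)) := by
    have h1 : Tendsto (fun n => a' n - a n) atTop (𝓝 0) := by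
      refine squeeze_zero_norm' (a := fun n : ℕ => 136 * (n : ℝ) ^ (-ν)) ?_ ?_
      · filter_upwards [hdet] with n hn
        rw [Real.norm_eq_abs]
        exact hn
      · simpa using (tend_neg hν).const_mul 136
    have h2 := h1.add hlim0
    simpa using h2
  have hp1 : 1 < Real.pi / 2 := by linarith [Real.pi_gt_three]
  have hp2 : Real.pi / 2 < 2 := by linarith [Real.pi_lt_four]
  filter_upwards [hlim.eventually (lt_mem_nhds hp1), hlim.eventually (gt_mem_nhds hp2)]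
    with n h1 h2 using ⟨h1.le, h2.le⟩

/-- the deviation of the second stiffness function -/
lemma xa_second (F : SFlow P b σ c c1 q2 qx a y ε xs c' r q A N) {s1 ν : ℝ}
    (hs11 : s1 < 1) (hν1 : s < ν) (hν2 : ν ≤ s1) {a' : ℕ → ℝ}
    (hdet : ∀ᶠ n : ℕ in atTop, |a' n - a n| ≤ 136 * (n : ℝ) ^ (-ν))
    (ha1 : ∀ᶠ n : ℕ in atTop, 1 ≤ a' n ∧ a' n ≤ 2) :
    ∀ᶠ n : ℕ in atTop, |(a' n)⁻¹ - 2 / Real.pi| ≤ (n : ℝ) ^ (-s) := by
  filter_upwards [hdet, flow_pow F hs11, ha1, eventually_ge_atTop N, eventually_ge_atTop 1,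
    (tend_neg (sub_pos.2 hν1)).eventually (ge_mem_nhds (show (0 : ℝ) < 1 / 137 by norm_num))]
    with n h1 h2 h3 hn hn1 h4
  have hn0 : (0 : ℝ) < n := by exact_mod_cast hn1
  have han : 1 ≤ a n := F.a1 n hn
  have ha'n : 1 ≤ a' n := h3.1
  have k1 : |(a' n)⁻¹ - (a n)⁻¹| ≤ |a' n - a n| := by
    have e1 : (a' n)⁻¹ - (a n)⁻¹ = (a n - a' n) / (a' n * a n) := by
      field_simp
    rw [e1, abs_div, abs_sub_comm (a n) (a' n)]
    apply div_le_self (abs_nonneg _)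
    rw [abs_of_pos (by positivity)]
    nlinarith
  have k2 : (n : ℝ) ^ (-s1) ≤ (n : ℝ) ^ (-ν) :=
    Real.rpow_le_rpow_of_exponent_le (by exact_mod_cast hn1) (by linarith)
  have k3 : (n : ℝ) ^ (-ν) = (n : ℝ) ^ (-s) * (n : ℝ) ^ (-(ν - s)) := by
    rw [← Real.rpow_add hn0]
    congr 1
    ring
  have k4 : 0 < (n : ℝ) ^ (-s) := Real.rpow_pos_of_pos hn0 _
  have k5 : 137 * (n : ℝ) ^ (-ν) ≤ (n : ℝ) ^ (-s) := by
    rw [k3]
    nlinarith
  have k6 : |(a' n)⁻¹ - 2 / Real.pi| ≤ |(a' n)⁻¹ - (a n)⁻¹| + |xa a n| := by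
    have e1 : (a' n)⁻¹ - 2 / Real.pi = ((a' n)⁻¹ - (a n)⁻¹) + xa a n := by
      unfold xa
      ring
    rw [e1]
    exact abs_add_le _ _
  have k7 := h2.2
  linarith

/-- the chain from its ingredients -/
lemma chn_asm (hb : 0 < b) (hA' : P'.Adm) (hs : 3 / 4 ≤ s) (hs2 : s < 1) {D : ℝ} (hsD : s ≤ D)
    (hYev : ∀ᶠ n : ℕ in atTop, ∀ e, 0 < e → YBn P' b n e ((n : ℝ) ^ (-D)))
    (hG : ∀ᶠ n : ℕ in atTop, Good P' b n ((n : ℝ) ^ (-(2 * s)))) {a' : ℕ → ℝ}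
    (hfl : ∀ᶠ n : ℕ in atTop, ∀ e, (n : ℝ) ^ (-(2 * s)) ≤ e → e ≤ P'.es → ∀ r, P'.TT n e r →
      FL b (tn n) (a' n) (17 * e ^ P'.pf) (2 ^ r))
    (ha1 : ∀ᶠ n : ℕ in atTop, 1 ≤ a' n ∧ a' n ≤ 2)
    (hxa : ∀ᶠ n : ℕ in atTop, |(a' n)⁻¹ - 2 / Real.pi| ≤ (n : ℝ) ^ (-s)) :
    ∀ᶠ N1 : ℕ in atTop, Chn P' b s N1 (fun n => (n : ℝ) ^ (-(2 * s)))
      (fun n => (n : ℝ) ^ (-s)) a' := by
  have t1 := (tend_neg (show 0 < 2 * s by linarith)).eventually (ge_mem_nhds P'.es0)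
  have hall := (((hG.and hYev).and (t1.and hxa)).and (ha1.and hfl)).and (eventually_ge_atTop 4)
  obtain ⟨N1, hN1⟩ := eventually_atTop.1 hall
  refine eventually_atTop.2 ⟨N1, fun N2 hN2 => ?_⟩
  have g4 : ∀ n, N2 ≤ n → 4 ≤ n := fun n hn => (hN1 n (hN2.trans hn)).2
  have gpos : ∀ n, N2 ≤ n → (1 : ℝ) ≤ n := fun n hn => by
    have := g4 n hn
    have h1 : 1 ≤ n := by omega
    exact_mod_cast h1
  exact {
    hb := hb
    adm := hA'
    s1 := hs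
    s2 := hs2
    n0 := g4 N2 le_rfl
    good := fun n hn => (hN1 n (hN2.trans hn)).1.1.1.1
    yb := fun n hn => by
      have hn0 : (0 : ℝ) < n := by linarith [gpos n hn]
      exact ybn_mono ((hN1 n (hN2.trans hn)).1.1.1.2 _ (Real.rpow_pos_of_pos hn0 _))
        (Real.rpow_le_rpow_of_exponent_le (gpos n hn) (by linarith))
    yε := fun n hn => by
      have hn0 : (0 : ℝ) < n := by linarith [gpos n hn]
      rw [← Real.rpow_natCast, ← Real.rpow_mul hn0.le]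
      apply le_of_eq
      congr 1
      push_cast
      ring
    es := fun n hn => (hN1 n (hN2.trans hn)).1.1.2.1
    e1 := fun n hn => le_rfl
    e2 := fun n hn => Real.rpow_le_rpow_of_exponent_le (gpos n hn) (by linarith)
    Yu := fun n hn => le_rfl
    xa := fun n hn => (hN1 n (hN2.trans hn)).1.1.2.2
    a1 := fun n hn => (hN1 n (hN2.trans hn)).1.2.1
    fl := fun n hn r hr =>
      (hN1 n (hN2.trans hn)).1.2.2 _ le_rfl (hN1 n (hN2.trans hn)).1.1.2.1 r hr }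

/-- **CHN**: the chain of states of the second set -/
theorem chn_second (hb : 0 < b) (F : SFlow P b σ c c1 q2 qx a y ε xs c' r q A N) (hA : P.Adm)
    (hA' : P'.Adm) (hσ : 0 < σ) (hσ1 : σ ≤ 1 / 4) (hc : 0 ≤ c) (hs : 3 / 4 ≤ s)
    (hpf : 1 ≤ (2 - 3 * σ) * P.pf) (hpf' : 1 ≤ (2 - 3 * σ) * P'.pf) (hth : P'.th = P.th)
    (hth2 : P.th ≤ 1 / 2) (hes : P'.es ≤ P.es) (hsg : 0 ≤ sg) (hsc : s * (1 + sg) < 1 - 2 * c)
    (hS : StartP P' b) (st : StepP' P' b sg N0) :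
    ∃ a' : ℕ → ℝ, ∀ᶠ N1 : ℕ in atTop, Chn P' b s N1 (fun n => (n : ℝ) ^ (-(2 * s)))
      (fun n => (n : ℝ) ^ (-s)) a' := by
  have hs0 : 0 < s := by linarith
  have hsl : s ≤ s * (1 + sg) := by nlinarith
  obtain ⟨D, s1, p0, ν, hD1, hs1D, hs11, hs10, hp0, hp1, hp2, hν0, hν1, hν2, hν3, hsD⟩ :=
    exps_second hσ hσ1 hc hs hpf hpf' hsg hsc
  have hYev : ∀ᶠ n : ℕ in atTop, ∀ e, 0 < e → YBn P' b n e ((n : ℝ) ^ (-D)) := by
    filter_upwards [flow_Y F hσ.le hc (by linarith) hs11, eventually_ge_atTop N] with n h1 hn e he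
    rw [hs1D] at h1
    exact ybn_mono (flow_YB F hb hth.ge hth2 hes hσ1 hc hn he) h1
  have hG := boot hsg st hS hs0 hD1 hYev
  obtain ⟨a', hfl⟩ := stiff_second hA' hs0 hG
  have hdet := det_second F hA hσ1 hs0 hth hes hs11 hs10 hp0 hp1 hp2 hν2 hν3 hfl
  have ha1 := lim_second F.lim (by linarith) hdet
  exact ⟨a', chn_asm hb hA' hs (by linarith) hsD hYev hG hfl ha1 (xa_second F hs11 hν0 hν1 hdet ha1)⟩

end

end Vale.Agent.P159.H692
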