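import Vale.Agent.P159.H692.Ch3
import Vale.Agent.P159.H239.PUpI

/-!
P159 / LINKW (helper692): **CHN in the order of constants**.  The `P` half of the second set of
parameters is helper239's `fam_PIn`.
-/

set_option linter.unusedSectionVars false

namespace Vale.Agent.P159.H692

open Filter Topology
open Vale.Agent.P159.H972 (Par Par.Adm Chn)
open Vale.Agent.P159.H801 (SFlow Ev PS)
open Vale.Agent.P159.H239 (Fam fam_PIn)

noncomputable section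

/-- **CHN** -/
theorem chn_ev {b b1 b2 pf pf' σ c s qx : ℝ} {Q : ℕ} {S' : Par → ℕ → Prop} (hb1 : 0 < b1)
    (hY : helicity b = 2 / Real.pi) (h1 : b1 ≤ b) (h2 : b ≤ b2) (hσ : 0 < σ) (hσ1 : σ ≤ 1 / 4)
    (hpf : 1 ≤ (2 - 3 * σ) * pf) (hpf' : 1 ≤ (2 - 3 * σ) * pf') (hpf1 : pf' < 1) (hc : 0 ≤ c)
    (hs : 3 / 4 ≤ s) (hsc : s < 1 - 2 * c) (hF : Fam b1 b2 pf' S') :
    Ev b1 b2 pf Q fun P c1 => ∀ (q2 : ℝ) (a y ε xs : ℕ → ℝ) (c' r q A : ℝ) (N : ℕ),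
      SFlow P b σ c c1 q2 qx a y ε xs c' r q A N →
      ∃ P' : Par, P'.Adm ∧ P'.b1 = b1 ∧ P'.b2 = b2 ∧ P'.pf = pf' ∧ P'.th = P.th ∧ P'.es ≤ P.es ∧
        ∃ ε' Y' a' : ℕ → ℝ, ∀ᶠ N0 : ℕ in atTop, Chn P' b s N0 ε' Y' a' ∧ S' P' N0 := by
  have hb : 0 < b := hb1.trans_le h1
  have hpfh : 1 / 2 < pf' := by nlinarith
  -- the exponent `sg`
  obtain ⟨sg, hsg0, hsg1, hsg2⟩ : ∃ sg : ℝ, 0 < sg ∧ sg ≤ 1 / 4 ∧ s * (1 + sg) < 1 - 2 * c := by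
    refine ⟨min (1 / 4) ((1 - 2 * c - s) / 2), lt_min (by norm_num) (by linarith),
      min_le_left _ _, ?_⟩
    have h3 : min (1 / 4) ((1 - 2 * c - s) / 2) ≤ (1 - 2 * c - s) / 2 := min_le_right _ _
    have h4 : s ≤ 1 := by linarith
    nlinarith
  have hPI := fam_PIn (pf := pf') (sg := sg) hb1 hY h1 h2 (p1 := 1 / 10) (p2 := 1 / 2)
    (by norm_num) (by nlinarith) hsg0 hsg1 (by norm_num) (by norm_num) (by linarith) hpf1
  obtain ⟨r0, hr0, hsec⟩ := fam_second (hF.and hPI) (by linarith) hpf1.le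
  refine Ev.of ⟨0, fun W _ => ⟨1, one_pos, fun ys _ _ => ⟨0, fun X0 _ => ⟨1, one_pos, fun x1 _ _ =>
    ⟨1, one_pos, fun thp _ _ => ⟨min r0 (1 / 2), lt_min hr0 (by norm_num), fun th hth0 hth =>
    ⟨0, fun C0 _ => ⟨1, one_pos, fun c1 _ _ => ⟨1, one_pos, fun P hP => ?_⟩⟩⟩⟩⟩⟩⟩⟩⟩
  intro q2 a y ε xs c' r q A N F
  obtain ⟨P', hA', p1, p2, p3, p4, p5, N00, hN00⟩ :=
    hsec th hth0 (hth.trans (min_le_left _ _)) P.es P.es0
  have hS := (hN00 N00 le_rfl).2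
  obtain ⟨a', ha'⟩ := chn_second hb F hP.adm hA' hσ hσ1 hc hs (by rw [hP.epf]; exact hpf)
    (by rw [p3]; exact hpf') (by rw [p4, hP.eth]) (by rw [hP.eth]; exact hth.trans (min_le_right _ _))
    p5 hsg0.le hsg2 hS.start hS.step
  exact ⟨P', hA', p1, p2, p3, by rw [p4, hP.eth], p5, fun n => (n : ℝ) ^ (-(2 * s)),
    fun n => (n : ℝ) ^ (-s), a', (ha'.and (eventually_ge_atTop N00)).mono
      fun N0 h => ⟨h.1, (hN00 N0 h.2).1⟩⟩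

end

end Vale.Agent.P159.H692
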