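import Vale.Agent.P159.H972.Stf
import Vale.Agent.P159.H462.In3

/-!
P159 / LINKW, steps (C1) and (C2) (helper692). The local form
`Xf = Gneu(J, J) + t (sum f)^2 / N^2 - <f, J>`, `J = (t + a lap) f`, in Fourier space:
`Xf = N^-2 sum_{k /= 0} |f^(k)|^2 (t + a E) (a E - P) / (t + P)`, `P = Pin`, `E = EE`.
(C1) the size of `Xf` from the flat profile; (C2) the change of `Xf` in a mass step; (C4) the use.
-/

set_option linter.unusedSectionVars false

namespace Vale.Agent.P159.H692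

open Finset Matrix
open Vale.Agent.P159.H37
open Vale.Agent.P159.TM.H764 (EE hatu)
open Vale.Agent.P159.TM.Spec (V)
open Vale.Agent.P159.TM.SpecC (wT)
open Vale.Agent.P159.H864 (TI sym hsq hsq_nonneg lapM ti_lapM sym_lapM qf_eq_sum sum_hsq)
open Vale.Agent.P159.H963 (nwt Pin Gn Gnh ti_Gn Gnh_zero Gnh_pos Pin_nonneg)
open Vale.Agent.P159.H972 (FL)
open Vale.Agent.P159.H462 (hatu_mulVec EE_pos EE_zero)

noncomputable section

/-! ### one mode -/

/-- one mode of the form `X` -/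
def Yk (t a E P : ℝ) : ℝ := (t + a * E) * (a * E - P) / (t + P)

section scalar

variable {t t' a E P P' C : ℝ}

lemma Yk_eq (h : 0 < t + P) : Yk t a E P = (t + a * E) ^ 2 / (t + P) - (t + a * E) := by
  unfold Yk
  field_simp
  ring

lemma Yk_eq2 (h : 0 < t + P) : Yk t a E P = (a * E - P) + (a * E - P) ^ 2 / (t + P) := by
  unfold Yk
  field_simp
  ring

lemma Yk_abs (h : 0 < t + P) (h0 : 0 ≤ t + a * E) (hC : t + a * E ≤ C * (t + P)) :
    |Yk t a E P| ≤ C * |a * E - P| := by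
  unfold Yk
  rw [abs_div, abs_mul, abs_of_nonneg h0, abs_of_pos h, div_le_iff₀ h]
  have := mul_le_mul_of_nonneg_right hC (abs_nonneg (a * E - P))
  linarith

lemma Yk_mass (ht' : 0 < t') (htt : t' ≤ t) (hP' : 0 ≤ P') (hPP : P' ≤ P) (h0 : 0 ≤ t' + a * E)
    (hC : t' + a * E ≤ C * (t' + P')) :
    Yk t' a E P' ≤ Yk t a E P + C ^ 2 * (P - P') +
      (t - t') * ((a * E - P) ^ 2 / ((t' + P) * (t + P))) := by
  have h1 : 0 < t' + P' := by linarith
  have h2 : 0 < t' + P := by linarith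
  have h3 : 0 < t + P := by linarith
  have e1 : Yk t' a E P' = Yk t' a E P + (t' + a * E) ^ 2 * (P - P') / ((t' + P') * (t' + P)) := by
    rw [Yk_eq h1, Yk_eq h2]
    field_simp
    ring
  have e2 : Yk t' a E P = Yk t a E P +
      (t - t') * ((a * E - P) ^ 2 / ((t' + P) * (t + P))) := by
    rw [Yk_eq2 h2, Yk_eq2 h3]
    field_simp
    ring
  have h4 : (t' + a * E) ^ 2 * (P - P') / ((t' + P') * (t' + P)) ≤ C ^ 2 * (P - P') := by
    rw [div_le_iff₀ (by positivity)]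
    have h5 : (t' + a * E) ^ 2 ≤ (C * (t' + P')) ^ 2 := pow_le_pow_left₀ h0 hC 2
    have h6 : (C * (t' + P')) ^ 2 ≤ C ^ 2 * ((t' + P') * (t' + P)) := by
      rw [mul_pow]
      refine mul_le_mul_of_nonneg_left ?_ (sq_nonneg C)
      rw [pow_two]
      exact mul_le_mul_of_nonneg_left (by linarith) h1.le
    have h7 := mul_le_mul_of_nonneg_right (h5.trans h6) (sub_nonneg.2 hPP)
    linarith
  rw [e1, e2]
  linarith

end scalar

/-! ### the form -/

section form

variable {N : ℕ} [NeZero N] {b t t' a : ℝ}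

/-- the local form -/
def Xf (N : ℕ) [NeZero N] (b t a : ℝ) (f : V N → ℝ) : ℝ :=
  qf (Gn N b t) (t • f + a • (lapM *ᵥ f)) + t / (N : ℝ) ^ 2 * (∑ x, f x) ^ 2 -
    t * ∑ x, f x ^ 2 - a * qf lapM f

lemma hsq_mulVec {A : Matrix (V N) (V N) ℝ} (hA : TI A) (f : V N → ℝ) (k : V N) :
    hsq (A *ᵥ f) k = sym A k ^ 2 * hsq f k := by
  unfold hsq
  rw [hatu_mulVec hA, Complex.normSq_mul, Complex.normSq_ofReal]
  ring

lemma hsq_zero (f : V N → ℝ) : hsq f 0 = (∑ x, f x) ^ 2 := by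
  unfold hsq TM.H764.hatu
  have h1 : ∀ x : V N, (f x : ℂ) * TM.H764.ch (TM.H764.dt 0 x) = ((f x : ℝ) : ℂ) := by
    intro x
    have h2 : TM.H764.dt (0 : V N) x = 0 := by
      rw [H864.dt_comm, H864.dt_zero]
    rw [h2, TM.H764.ch_zero, mul_one]
  simp_rw [h1]
  rw [← Complex.ofReal_sum, Complex.normSq_ofReal, pow_two]

lemma sum_split0 (F : V N → ℝ) : ∑ k, F k = F 0 + ∑ k ∈ univ.erase (0 : V N), F k :=
  (Finset.add_sum_erase _ F (Finset.mem_univ 0)).symm

/-- **the form in Fourier space** -/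
theorem Xf_eq (hb : 0 < b) (ht : 0 < t) (a : ℝ) (f : V N → ℝ) :
    Xf N b t a f = ((N : ℝ) ^ 2)⁻¹ *
      ∑ k ∈ univ.erase (0 : V N), hsq f k * Yk t a (EE k) (Pin N b t k) := by
  have hB : TI (t • (1 : Matrix (V N) (V N) ℝ) + a • lapM) := (TI.one.smul t).add (ti_lapM.smul a)
  have e1 : t • f + a • (lapM *ᵥ f) = (t • (1 : Matrix (V N) (V N) ℝ) + a • lapM) *ᵥ f := by
    rw [Matrix.add_mulVec, Matrix.smul_mulVec, Matrix.smul_mulVec, Matrix.one_mulVec]
  have e2 : ∀ k : V N, sym (t • (1 : Matrix (V N) (V N) ℝ) + a • lapM) k = t + a * EE k := by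
    intro k
    rw [H864.sym_add, H864.sym_smul_one, H864.sym_smul, sym_lapM]
  unfold Xf
  rw [e1, qf_eq_sum (ti_Gn hb.le ht), ← sum_hsq f, qf_eq_sum ti_lapM f]
  simp_rw [hsq_mulVec hB, e2, sym_lapM]
  rw [sum_split0 fun k => sym (Gn N b t) k * ((t + a * EE k) ^ 2 * hsq f k),
    sum_split0 fun k => hsq f k, sum_split0 fun k => EE k * hsq f k]
  have h0 : sym (Gn N b t) 0 = 0 := Gnh_zero N b t
  rw [h0, EE_zero, hsq_zero]
  have hN : ((N : ℝ) ^ 2) ≠ 0 := H864.N_pos.ne'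
  have h1 : ∑ k ∈ univ.erase (0 : V N), hsq f k * Yk t a (EE k) (Pin N b t k) =
      ∑ k ∈ univ.erase (0 : V N), sym (Gn N b t) k * ((t + a * EE k) ^ 2 * hsq f k) -
        t * ∑ k ∈ univ.erase (0 : V N), hsq f k -
        a * ∑ k ∈ univ.erase (0 : V N), EE k * hsq f k := by
    rw [Finset.mul_sum, Finset.mul_sum, ← Finset.sum_sub_distrib, ← Finset.sum_sub_distrib]
    refine Finset.sum_congr rfl fun k hk => ?_
    have hk0 := (Finset.mem_erase.1 hk).1
    have h2 := Gnh_pos hb ht hk0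
    have h3 : t + Pin N b t k = (Gnh N b t k)⁻¹ := by unfold Pin; ring
    have h4 : 0 < t + Pin N b t k := by rw [h3]; positivity
    rw [Yk_eq h4, h3]
    have h5 : sym (Gn N b t) k = Gnh N b t k := rfl
    rw [h5, div_inv_eq_mul]
    ring
  rw [h1]
  field_simp
  ring

end form

end

end Vale.Agent.P159.H692
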