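import Vale.Agent.P159.H159.Drp3
import Vale.Agent.P159.H730.DrA
import Vale.Agent.P159.H972.Lk1
import Vale.Agent.P159.H276.Eta2
import Vale.Agent.P159.H340.Lk1g

/-!
P159 / LINKW (C), (K3) of helper972 (row 5943), helper692: **the drop over one window tested with a
local array**, in the letters of the state, as a family: `≤ ε ^ q` times the norms of the array for
every `q < 1`; for the smoothed pyramid of side `2 ^ u`, `u ≤ n`: `≤ ε ^ q * 4 ^ u`.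
-/

set_option linter.unusedSectionVars false

namespace Vale.Agent.P159.H692

open Finset Matrix
open Vale.Agent.P159.H37
open Vale.Agent.P159.TM.Spec (V)
open Vale.Agent.P159.TM.H764 (EE)
open Vale.Agent.P159.H864 (hsq lapM)
open Vale.Agent.P159.H963 (Pin)
open Vale.Agent.P159.H239 (TypE Fam)
open Vale.Agent.P159.H730 (ThN eDr)
open Vale.Agent.P159.H859 (lapz enz smz)
open Vale.Agent.P159.H145 (two_lg_ge two_lg_le absorb rpow_anti)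
open Vale.Agent.P159.H972

noncomputable section

section norms

variable {N : ℕ} [NeZero N] {f : ℤ × ℤ → ℝ}

lemma sum_em_abs (h : Fit N f) : ∑ x, |em N f x| = ∑' c, |f c| := by
  refine sum_em (fun c => |f c|) fun c hc => ?_
  have h1 := h c fun h0 => hc (by simp [h0])
  omega

lemma sum_em_abs_lap (h : Fit N f) : ∑ x, |(lapM *ᵥ em N f) x| = ∑' c, |lapz f c| := by
  rw [lapM_em h]
  refine sum_em (fun c => |lapz f c|) fun c hc => ?_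
  exact lapz_fit h fun h0 => hc (by simp [h0])

end norms

lemma enz_nn (f : ℤ × ℤ → ℝ) : 0 ≤ enz f := by
  unfold H859.enz
  exact tsum_nonneg fun c => by unfold H859.gdz; positivity

/-- squares of the sides against the masses -/
lemma tn_side {n r : ℕ} (h : n ≤ r) : tn n * (((2 ^ r : ℕ) : ℝ)) ^ 2 = ((2 : ℝ) ^ (r - n)) ^ 2 := by
  unfold tn
  have h1 : (2 : ℝ) ^ r = 2 ^ n * 2 ^ (r - n) := by rw [← pow_add, Nat.add_sub_cancel' h]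
  have h2 : (4 : ℝ) ^ n = (2 ^ n) ^ 2 := by
    rw [← pow_mul, mul_comm n 2, pow_mul]
    norm_num
  push_cast
  rw [h1, h2]
  field_simp

/-- the relative error of the cells in the letters of the state -/
lemma eDr_le {b C c nb τ v : ℝ} {N l ρ : ℕ} (hb : 0 < b) (hC : 0 < C) (hnb : 0 ≤ nb)
    (hτ : 0 < τ) (h1 : τ * (N : ℝ) ^ 2 ≤ 4 * nb ^ 2) (hρ : 0 < (ρ : ℝ))
    (hv : (l : ℝ) ^ 2 * (32 / (ρ : ℝ) ^ 2) ≤ 2 * v) :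
    eDr C c (1 / b) N l ρ τ ≤ 2 * C * nb * (τ * (l : ℝ) ^ 2) ^ c +
      6 * b * (τ * (l : ℝ) ^ 2) + 12 * b * v := by
  have h2 : √(τ * (N : ℝ) ^ 2) ≤ 2 * nb := by
    rw [Real.sqrt_le_left (by positivity)]
    nlinarith
  have h3 : 0 ≤ (τ * (l : ℝ) ^ 2) ^ c := by positivity
  have e1 : 6 * (l : ℝ) ^ 2 * (τ + 32 / (ρ : ℝ) ^ 2) / (1 / b) =
      6 * b * (τ * (l : ℝ) ^ 2) + 6 * b * ((l : ℝ) ^ 2 * (32 / (ρ : ℝ) ^ 2)) := by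
    field_simp
  unfold eDr
  rw [e1]
  have h4 : C * √(τ * (N : ℝ) ^ 2) * (τ * (l : ℝ) ^ 2) ^ c ≤
      C * (2 * nb) * (τ * (l : ℝ) ^ 2) ^ c := by gcongr
  have h5 : 6 * b * ((l : ℝ) ^ 2 * (32 / (ρ : ℝ) ^ 2)) ≤ 6 * b * (2 * v) := by gcongr
  linarith

/-- scalar part -/
lemma k3_sc {b C c₁ κ nb Z W g ε2 εq e tr Th L1 L2 s1 s2 C' : ℝ} (hb : 0 < b) (hC : 0 < C)
    (hc₁ : 1 ≤ c₁) (hnb : 1 ≤ nb) (hZ : 0 ≤ Z) (hW : 0 ≤ W) (hg : 0 ≤ g) (hε2 : 0 ≤ ε2)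
    (hκ : 0 ≤ κ) (hC' : C' = 2 * (256 * (c₁ + 1) ^ 2 + 8 * c₁ ^ 2 * C + 24 * b * c₁ ^ 2 + 1))
    (hn : C' * nb ^ 4 * (Z + (W + g)) ≤ εq)
    (hK : (16 * (C * c₁ ^ 2 * κ) + 48 * b * c₁ ^ 2) * ε2 ≤ 1 / 2 * εq)
    (hTh : Th ≤ Z) (htr : tr ≤ κ * ε2)
    (he : e ≤ 2 * C * nb * W + 6 * b * g + 12 * b * ε2)
    (hL1 : L1 ≤ 4 * s1) (hL10 : 0 ≤ L1) (hL2 : L2 = s2) (hs2 : 0 ≤ s2) :
    4 * c₁ ^ 2 * e ≤ εq ∧
      (16 * (c₁ + 1) ^ 2 * Th + C * c₁ ^ 2 * tr) * L1 ^ 2 + 4 * c₁ ^ 2 * e * L2 ≤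
        εq * (s1 ^ 2 + s2) := by
  have hc0 : 0 ≤ c₁ := by linarith
  have hn1 : nb ≤ nb ^ 4 := by
    calc nb = nb ^ 1 := (pow_one nb).symm
      _ ≤ nb ^ 4 := pow_le_pow_right₀ hnb (by norm_num)
  have hn4 : 1 ≤ nb ^ 4 := one_le_pow₀ hnb
  have hnb4 : 0 ≤ nb ^ 4 := by linarith
  -- pieces
  obtain ⟨a1, ha1⟩ : ∃ a1 : ℝ, a1 = 256 * (c₁ + 1) ^ 2 := ⟨_, rfl⟩
  obtain ⟨a2, ha2⟩ : ∃ a2 : ℝ, a2 = 8 * c₁ ^ 2 * C := ⟨_, rfl⟩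
  obtain ⟨a3, ha3⟩ : ∃ a3 : ℝ, a3 = 24 * b * c₁ ^ 2 := ⟨_, rfl⟩
  have ha10 : 0 ≤ a1 := by rw [ha1]; positivity
  have ha20 : 0 ≤ a2 := by rw [ha2]; positivity
  have ha30 : 0 ≤ a3 := by rw [ha3]; positivity
  have hs : a1 + a2 + a3 ≤ C' / 2 := by
    rw [hC', ha1, ha2, ha3]
    linarith
  have hC'0 : 0 ≤ C' := by linarith
  have p1 : a1 * Z ≤ 1 / 2 * εq := by
    calc a1 * Z ≤ C' / 2 * (nb ^ 4 * (Z + (W + g))) := by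
          refine mul_le_mul (by linarith) ?_ hZ (by linarith)
          calc Z ≤ 1 * (Z + (W + g)) := by linarith
            _ ≤ nb ^ 4 * (Z + (W + g)) := mul_le_mul_of_nonneg_right hn4 (by linarith)
      _ = 1 / 2 * (C' * nb ^ 4 * (Z + (W + g))) := by ring
      _ ≤ _ := by linarith
  have p2 : a2 * (nb * W) + a3 * g ≤ 1 / 2 * εq := by
    have q1 : nb * W ≤ nb ^ 4 * (Z + (W + g)) :=
      mul_le_mul hn1 (by linarith) hW hnb4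
    have q2 : g ≤ nb ^ 4 * (Z + (W + g)) := by
      calc g ≤ 1 * (Z + (W + g)) := by linarith
        _ ≤ _ := mul_le_mul_of_nonneg_right hn4 (by linarith)
    have q0 : 0 ≤ nb ^ 4 * (Z + (W + g)) := by positivity
    calc a2 * (nb * W) + a3 * g ≤ a2 * (nb ^ 4 * (Z + (W + g))) + a3 * (nb ^ 4 * (Z + (W + g))) :=
          add_le_add (mul_le_mul_of_nonneg_left q1 ha20) (mul_le_mul_of_nonneg_left q2 ha30)
      _ = (a2 + a3) * (nb ^ 4 * (Z + (W + g))) := by ring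
      _ ≤ C' / 2 * (nb ^ 4 * (Z + (W + g))) := mul_le_mul_of_nonneg_right (by linarith) q0
      _ = 1 / 2 * (C' * nb ^ 4 * (Z + (W + g))) := by ring
      _ ≤ _ := by linarith
  have hε0 : 0 ≤ εq := le_trans (by positivity) hn
  have k1 : 16 * (C * c₁ ^ 2 * κ) * ε2 ≤ 1 / 2 * εq := by
    refine le_trans ?_ hK
    refine mul_le_mul_of_nonneg_right ?_ hε2
    have : 0 ≤ 48 * b * c₁ ^ 2 := by positivity
    linarith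
  have k2 : 48 * b * c₁ ^ 2 * ε2 ≤ 1 / 2 * εq := by
    refine le_trans ?_ hK
    refine mul_le_mul_of_nonneg_right ?_ hε2
    have : 0 ≤ 16 * (C * c₁ ^ 2 * κ) := by positivity
    linarith
  have r1 : 4 * c₁ ^ 2 * e ≤ εq := by
    calc 4 * c₁ ^ 2 * e ≤ 4 * c₁ ^ 2 * (2 * C * nb * W + 6 * b * g + 12 * b * ε2) :=
          mul_le_mul_of_nonneg_left he (by positivity)
      _ = a2 * (nb * W) + a3 * g + 48 * b * c₁ ^ 2 * ε2 := by rw [ha2, ha3]; ring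
      _ ≤ _ := by linarith
  refine ⟨r1, ?_⟩
  have hs1 : 0 ≤ s1 := by linarith
  have hL : L1 ^ 2 ≤ 16 * s1 ^ 2 := by
    calc L1 ^ 2 ≤ (4 * s1) ^ 2 := pow_le_pow_left₀ hL10 hL1 2
      _ = _ := by ring
  have r2 : (16 * (c₁ + 1) ^ 2 * Th + C * c₁ ^ 2 * tr) * L1 ^ 2 ≤ εq * s1 ^ 2 := by
    calc (16 * (c₁ + 1) ^ 2 * Th + C * c₁ ^ 2 * tr) * L1 ^ 2
        ≤ (16 * (c₁ + 1) ^ 2 * Z + C * c₁ ^ 2 * (κ * ε2)) * (16 * s1 ^ 2) := by gcongr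
      _ = (a1 * Z + 16 * (C * c₁ ^ 2 * κ) * ε2) * s1 ^ 2 := by rw [ha1]; ring
      _ ≤ εq * s1 ^ 2 := mul_le_mul_of_nonneg_right (by linarith) (sq_nonneg _)
  have r3 : 4 * c₁ ^ 2 * e * L2 ≤ εq * s2 := by
    rw [hL2]
    exact mul_le_mul_of_nonneg_right r1 hs2
  calc _ ≤ εq * s1 ^ 2 + εq * s2 := add_le_add r2 r3
    _ = _ := by ring

/-- the ratio of the two cell scales -/
lemma x_num {ε : ℝ} (hε : 0 < ε) (hε1 : ε ≤ 1) :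
    4 * ε⁻¹ ≤ (2 : ℝ) ^ (lg 1 ε + 2) ∧ (2 : ℝ) ^ (lg 1 ε + 2) ≤ 8 * ε⁻¹ := by
  have h1 := two_lg_ge (c := 1) hε
  have h2 := two_lg_le (c := 1) zero_le_one hε hε1
  rw [Real.rpow_neg hε.le, Real.rpow_one] at h1 h2
  rw [pow_add]
  constructor <;> linarith

/-- powers of the scales -/
lemma x_pow {ε c C0 τ t lr X κ : ℝ} (hε : 0 < ε) (hε1 : ε ≤ 1) (hc : 0 < c) (hC0 : 1 + 1 / c ≤ C0)
    (ht : 0 < t) (htτ : t ≤ τ) (hlr : 0 < lr) (hX : 0 < X) (hg : τ * lr ^ 2 ≤ 4 * ε ^ (2 * C0))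
    (hX1 : 4 * ε⁻¹ ≤ X) (hX2 : X ≤ 8 * ε⁻¹) (hκ : κ = (256 : ℝ) ^ c) :
    τ * (lr * X) ^ 2 ≤ 256 * ε ^ (2 / c) ∧ (t * (lr * X) ^ 2) ^ c ≤ κ * ε ^ (2 : ℝ) ∧
      lr ^ 2 * (32 / (lr * X) ^ 2) ≤ 2 * ε ^ (2 : ℝ) := by
  have hx2 : X ^ 2 ≤ 64 * ε ^ (-(2 : ℝ)) := by
    calc X ^ 2 ≤ (8 * ε⁻¹) ^ 2 := pow_le_pow_left₀ hX.le hX2 2
      _ = 64 * ε ^ (-(2 : ℝ)) := by
        rw [Real.rpow_neg hε.le, mul_pow, inv_pow]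
        norm_num
  have hTρ : τ * (lr * X) ^ 2 ≤ 256 * ε ^ (2 / c) := by
    calc τ * (lr * X) ^ 2 = τ * lr ^ 2 * X ^ 2 := by ring
      _ ≤ 4 * ε ^ (2 * C0) * (64 * ε ^ (-(2 : ℝ))) :=
          mul_le_mul hg hx2 (by positivity) (by positivity)
      _ = 256 * ε ^ (2 * C0 + -2) := by rw [Real.rpow_add hε]; ring
      _ ≤ _ := by
        refine mul_le_mul_of_nonneg_left (rpow_anti hε hε1 ?_) (by norm_num)
        have : 2 / c = 2 * (1 / c) := by ring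
        rw [this]
        linarith
  refine ⟨hTρ, ?_, ?_⟩
  · calc (t * (lr * X) ^ 2) ^ c ≤ (256 * ε ^ (2 / c)) ^ c := by
          refine Real.rpow_le_rpow (by positivity) (le_trans ?_ hTρ) hc.le
          exact mul_le_mul_of_nonneg_right htτ (by positivity)
      _ = κ * ε ^ (2 : ℝ) := by
        rw [Real.mul_rpow (by norm_num) (by positivity), ← Real.rpow_mul hε.le, hκ]
        congr 2
        field_simp
  · have e1 : lr ^ 2 * (32 / (lr * X) ^ 2) = 32 / X ^ 2 := by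
      field_simp
    have e2 : 16 * (ε⁻¹) ^ 2 ≤ X ^ 2 := by
      calc 16 * (ε⁻¹) ^ 2 = (4 * ε⁻¹) ^ 2 := by ring
        _ ≤ _ := pow_le_pow_left₀ (by positivity) hX1 2
    rw [e1, div_le_iff₀ (by positivity)]
    have e3 : ε ^ (2 : ℝ) = ε ^ 2 := by norm_num
    rw [e3]
    calc (32 : ℝ) = 2 * ε ^ 2 * (16 * (ε⁻¹) ^ 2) := by field_simp; norm_num
      _ ≤ _ := mul_le_mul_of_nonneg_left e2 (by positivity)

/-- the side of the torus -/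
lemma nb_nine {n r : ℕ} (h : n + 3 ≤ r) : 9 ≤ ((2 : ℝ) ^ (r - n)) ^ 2 := by
  have h8 : (8 : ℝ) ≤ 2 ^ (r - n) := by
    calc (8 : ℝ) = 2 ^ 3 := by norm_num
      _ ≤ _ := pow_le_pow_right₀ one_le_two (by omega)
  nlinarith

lemma three_le {s x : ℕ} (hx : 2 ≤ x) : 3 * 2 ^ s ≤ 2 ^ (s + x) := by
  rw [pow_add]
  have h4 : 4 ≤ 2 ^ x := by
    calc 4 = 2 ^ 2 := by norm_num
      _ ≤ 2 ^ x := Nat.pow_le_pow_right two_pos hx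
  have h5 : 0 < 2 ^ s := by positivity
  nlinarith

/-- the upper bound of the self energy at the level `n`: (K1) (i) of helper340 -/
def UpP (P : Par) (b c₁ : ℝ) (N0 : ℕ) : Prop :=
  ∀ (n : ℕ) (e a τ : ℝ), N0 ≤ n → 0 < e → e ≤ P.es → GP P b a n e τ → ∀ r, P.TT n e r →
    ∀ T, tn n ≤ T → T ≤ 4 * tn n → ∀ k : V (2 ^ r), k ≠ 0 → Pin (2 ^ r) b T k ≤ c₁ * EE k

variable {b b1 b2 pf q c₁ : ℝ}

/-- large `C0`, small `es` -/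
lemma fam_CE (C00 : ℝ) {E : ℝ} (hE : 0 < E) : Fam b1 b2 pf fun P _ => C00 ≤ P.C0 ∧ P.es ≤ E := by
  refine ⟨0, fun W _ => ⟨1, one_pos, fun ys hy _ => ⟨0, fun X0 _ => ?_⟩⟩⟩
  refine ⟨1, one_pos, fun x1 hx1 _ => ⟨0, fun Q _ => ?_⟩⟩
  refine ⟨1, one_pos, fun thp ht _ => ⟨1, one_pos, fun th hth _ => ⟨C00, fun C0 hC hC' => ?_⟩⟩⟩
  exact ⟨E, hE, fun P hP hes => ⟨0, fun _ _ => ⟨by rw [hP.hC0]; exact hC', hes⟩⟩⟩

/-- one step, one real mass: everything explicit -/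
theorem k3_core {C c : ℝ} (hb : 0 < b) (hC : 0 < C) (hc₁ : 1 ≤ c₁) (hq0 : 0 < q)
    (hD : ∀ (N l ρ : ℕ) [NeZero N] [NeZero (N / l)] (T t t' c₀ c₁ : ℝ), l ∣ N → ρ ∣ N →
      3 * l ≤ ρ → 0 < t' → t' ≤ t → t ≤ T → 9 ≤ t * (N : ℝ) ^ 2 → T * (ρ : ℝ) ^ 2 ≤ 1 → 0 < c₀ →
      1 ≤ c₁ → (∀ k : V N, k ≠ 0 → c₀ * EE k ≤ Pin N b t' k) →
      (∀ k : V N, k ≠ 0 → Pin N b T k ≤ c₁ * EE k) →
      c₁ * eDr C c c₀ N l ρ T ≤ 1 / 2 → ∀ f : V N → ℝ,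
      ((N : ℝ) ^ 2)⁻¹ * ∑ k ∈ univ.erase (0 : V N), hsq f k * (Pin N b t k - Pin N b t' k) ≤
        (16 * (c₁ + 1) ^ 2 * (ThN N l b T (t' / 2) T / (t' * (N : ℝ) ^ 2)) +
          C * c₁ ^ 2 * (t * (ρ : ℝ) ^ 2) ^ c) *
            (T * ∑ x, |f x| + ∑ x, |(lapM *ᵥ f) x|) ^ 2 +
        4 * c₁ ^ 2 * eDr C c c₀ N l ρ T * (t * ∑ x, f x ^ 2 + qf lapM f))
    {n m r s x : ℕ} [NeZero (2 ^ r / 2 ^ s)] {ε τ Z C' κ : ℝ} (hnm : n < m) (hmr : m ≤ r)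
    (hnr : n + 3 ≤ r) (hsx : s + x ≤ r) (hx : 2 ≤ x) (hε : 0 < ε) (hε1 : ε ≤ 1)
    (hτ1 : tn n ≤ τ) (hτ2 : τ ≤ 4 * tn n) (hZ : 0 ≤ Z)
    (hTh0 : 0 ≤ ThN (2 ^ r) (2 ^ s) b τ (tn m / 2) τ)
    (hTh : ThN (2 ^ r) (2 ^ s) b τ (tn m / 2) τ ≤ Z)
    (hT1 : τ * (((2 ^ s : ℕ) : ℝ) * 2 ^ x) ^ 2 ≤ 1)
    (htr : (tn n * (((2 ^ s : ℕ) : ℝ) * 2 ^ x) ^ 2) ^ c ≤ κ * ε ^ (2 : ℝ))
    (hv : ((2 ^ s : ℕ) : ℝ) ^ 2 * (32 / (((2 ^ s : ℕ) : ℝ) * 2 ^ x) ^ 2) ≤ 2 * ε ^ (2 : ℝ))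
    (hκ : 0 ≤ κ)
    (hC' : C' = 2 * (256 * (c₁ + 1) ^ 2 + 8 * c₁ ^ 2 * C + 24 * b * c₁ ^ 2 + 1))
    (hnum : C' * ((2 : ℝ) ^ (r - n)) ^ 4 * (Z + ((τ * ((2 ^ s : ℕ) : ℝ) ^ 2) ^ c +
      τ * ((2 ^ s : ℕ) : ℝ) ^ 2)) ≤ ε ^ q)
    (hK : (16 * (C * c₁ ^ 2 * κ) + 48 * b * c₁ ^ 2) * ε ^ (2 : ℝ) ≤ 1 / 2 * ε ^ q)
    (up : ∀ k : V (2 ^ r), k ≠ 0 → Pin (2 ^ r) b τ k ≤ c₁ * EE k)
    (f : ℤ × ℤ → ℝ) (hf : Fit (2 ^ r) f) :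
    (((2 ^ r : ℕ) : ℝ) ^ 2)⁻¹ * ∑ k ∈ univ.erase (0 : V (2 ^ r)),
      hsq (em (2 ^ r) f) k * (Pin (2 ^ r) b (tn n) k - Pin (2 ^ r) b (tn m) k) ≤
    ε ^ q * ((tn n * ∑' c, |f c| + ∑' c, |lapz f c|) ^ 2 +
      (tn n * ∑' c, f c ^ 2 + enz f)) := by
  have htn := tn_pos n
  have htm := tn_pos m
  have hτ : 0 < τ := htn.trans_le hτ1
  have hsr : s ≤ r := by omega
  have hl : 2 ^ s ∣ 2 ^ r := Nat.pow_dvd_pow 2 hsr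
  have hρd : 2 ^ (s + x) ∣ 2 ^ r := Nat.pow_dvd_pow 2 hsx
  have htmn : tn m < tn n := by
    unfold tn
    exact inv_strictAnti₀ (by positivity) (pow_lt_pow_right₀ (by norm_num) hnm)
  have hρr : ((2 ^ (s + x) : ℕ) : ℝ) = ((2 ^ s : ℕ) : ℝ) * 2 ^ x := by
    push_cast
    rw [pow_add]
  have hN1 := tn_side (n := n) (r := r) (by omega)
  have hN2 := tn_side (n := m) (r := r) hmr
  obtain ⟨nb, hnb⟩ : ∃ nb : ℝ, nb = 2 ^ (r - n) := ⟨_, rfl⟩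
  have hnb1 : 1 ≤ nb := by rw [hnb]; exact one_le_pow₀ one_le_two
  have hN9 : 9 ≤ tn n * (((2 ^ r : ℕ) : ℝ)) ^ 2 := by
    rw [hN1]
    exact nb_nine hnr
  rw [← hnb] at hN1 hnum
  have hτN : τ * (((2 ^ r : ℕ) : ℝ)) ^ 2 ≤ 4 * nb ^ 2 := by
    rw [← hN1]
    calc τ * (((2 ^ r : ℕ) : ℝ)) ^ 2 ≤ 4 * tn n * (((2 ^ r : ℕ) : ℝ)) ^ 2 :=
          mul_le_mul_of_nonneg_right hτ2 (sq_nonneg _)
      _ = _ := by ring
  have heD := eDr_le (b := b) (C := C) (c := c) (nb := nb) (τ := τ) (v := ε ^ (2 : ℝ))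
    (N := 2 ^ r) (l := 2 ^ s) (ρ := 2 ^ (s + x)) hb hC (by linarith) hτ hτN
    (by rw [hρr]; positivity) (by rw [hρr]; exact hv)
  have heD0 : 0 ≤ eDr C c (1 / b) (2 ^ r) (2 ^ s) (2 ^ (s + x)) τ := by
    unfold eDr
    positivity
  have hTm : 1 ≤ tn m * (((2 ^ r : ℕ) : ℝ)) ^ 2 := by
    rw [hN2]
    exact one_le_pow₀ (one_le_pow₀ one_le_two)
  have hTh1 : ThN (2 ^ r) (2 ^ s) b τ (tn m / 2) τ / (tn m * (((2 ^ r : ℕ) : ℝ)) ^ 2) ≤ Z :=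
    (div_le_self hTh0 hTm).trans hTh
  have ha1 : 0 ≤ ∑' c, |f c| := tsum_nonneg fun c => abs_nonneg _
  have ha2 : 0 ≤ ∑' c, |lapz f c| := tsum_nonneg fun c => abs_nonneg _
  have ha3 : 0 ≤ ∑' c, f c ^ 2 := tsum_nonneg fun c => sq_nonneg _
  have ha4 : 0 ≤ enz f := enz_nn f
  obtain ⟨A1, hA1⟩ : ∃ A1 : ℝ, A1 = ∑' c, |f c| := ⟨_, rfl⟩
  obtain ⟨A2, hA2⟩ : ∃ A2 : ℝ, A2 = ∑' c, |lapz f c| := ⟨_, rfl⟩
  obtain ⟨A3, hA3⟩ : ∃ A3 : ℝ, A3 = ∑' c, f c ^ 2 := ⟨_, rfl⟩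
  obtain ⟨A4, hA4⟩ : ∃ A4 : ℝ, A4 = enz f := ⟨_, rfl⟩
  rw [← hA1] at ha1
  rw [← hA2] at ha2
  rw [← hA3] at ha3
  rw [← hA4] at ha4
  have hW : 0 ≤ (τ * ((2 ^ s : ℕ) : ℝ) ^ 2) ^ c := by positivity
  have hg : 0 ≤ τ * ((2 ^ s : ℕ) : ℝ) ^ 2 := by positivity
  have hL1 : τ * A1 + A2 ≤ 4 * (tn n * A1 + A2) := by
    have : τ * A1 ≤ 4 * tn n * A1 := mul_le_mul_of_nonneg_right hτ2 ha1
    linarith
  have hL10 : 0 ≤ τ * A1 + A2 := by positivity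
  have hs2 : 0 ≤ tn n * A3 + A4 := by positivity
  have hsc := k3_sc hb hC hc₁ hnb1 hZ hW hg (Real.rpow_nonneg hε.le _) hκ hC' hnum hK hTh1
    htr heD hL1 hL10 (rfl : tn n * A3 + A4 = tn n * A3 + A4) hs2
  have hεq1 : ε ^ q ≤ 1 := Real.rpow_le_one hε.le hε1 hq0.le
  have hsm : c₁ * eDr C c (1 / b) (2 ^ r) (2 ^ s) (2 ^ (s + x)) τ ≤ 1 / 2 := by
    have h5 := hsc.1
    have h6 : c₁ * eDr C c (1 / b) (2 ^ r) (2 ^ s) (2 ^ (s + x)) τ ≤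
        c₁ ^ 2 * eDr C c (1 / b) (2 ^ r) (2 ^ s) (2 ^ (s + x)) τ := by
      refine mul_le_mul_of_nonneg_right ?_ heD0
      nlinarith only [hc₁]
    linarith only [h5, h6, hεq1]
  have hfin := hD (2 ^ r) (2 ^ s) (2 ^ (s + x)) τ (tn n) (tn m) (1 / b) c₁ hl hρd
    (three_le hx) htm htmn.le hτ1 hN9 (by rw [hρr]; exact hT1) (by positivity) hc₁
    (fun k hk => H276.Pin_ge hb htm hk) up hsm (em (2 ^ r) f)
  rw [sum_em_abs hf, sum_em_abs_lap hf, sum_em_sq hf, qf_em hf, hρr, ← hA1, ← hA2, ← hA3,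
    ← hA4] at hfin
  rw [← hA1, ← hA2, ← hA3, ← hA4]
  exact hfin.trans hsc.2

/-- **(K3), any array** -/
theorem k3_arr (hb : 0 < b) (hq0 : 0 < q) (hq : q < 1) (hc₁ : 1 ≤ c₁)
    (hU : Fam b1 b2 pf fun P N0 => UpP P b c₁ N0)
    (hT : Fam b1 b2 pf fun P N0 => H159.TypA P b N0) :
    Fam b1 b2 pf fun P N0 => ∀ n m ε Y, SI P b N0 n m ε Y → ∀ r, P.TT n ε r → m ≤ r →
      ∀ f : ℤ × ℤ → ℝ, Fit (2 ^ r) f →
        (((2 ^ r : ℕ) : ℝ) ^ 2)⁻¹ * ∑ k ∈ univ.erase (0 : V (2 ^ r)),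
          hsq (em (2 ^ r) f) k * (Pin (2 ^ r) b (tn n) k - Pin (2 ^ r) b (tn m) k) ≤
        ε ^ q * ((tn n * ∑' c, |f c| + ∑' c, |lapz f c|) ^ 2 +
          (tn n * ∑' c, f c ^ 2 + enz f)) := by
  obtain ⟨C, c, hC, hc, hD⟩ := H730.drA (b := b) hb
  obtain ⟨C', hC'⟩ : ∃ C' : ℝ,
    C' = 2 * (256 * (c₁ + 1) ^ 2 + 8 * c₁ ^ 2 * C + 24 * b * c₁ ^ 2 + 1) := ⟨_, rfl⟩
  obtain ⟨κ, hκ⟩ : ∃ κ : ℝ, κ = (256 : ℝ) ^ c := ⟨_, rfl⟩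
  have hκ0 : 0 < κ := by rw [hκ]; positivity
  have hC'1 : 1 ≤ C' := by
    have h1 : 0 ≤ 256 * (c₁ + 1) ^ 2 + 8 * c₁ ^ 2 * C + 24 * b * c₁ ^ 2 := by positivity
    rw [hC']
    linarith
  obtain ⟨E1, hE1, hA1⟩ := absorb (A := 256) (a := 2 / c) (κ := 1) (by norm_num)
    (by positivity) one_pos
  obtain ⟨E2, hE2, hA2⟩ := absorb (A := 16 * (C * c₁ ^ 2 * κ) + 48 * b * c₁ ^ 2) (a := 2 - q)
    (κ := 1 / 2) (by positivity) (by linarith) (by norm_num)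
  refine (((H159.fam_DrN hb hC'1 hc hq0 hq hT).and hU).and
    (fam_CE (1 + 1 / c) (lt_min hE1 hE2))).imp fun P N0 hAd _ _ _ h => ?_
  obtain ⟨⟨hN, hUp⟩, hC0, hesE⟩ := h
  intro n m ε Y hS r hr hmr f hf
  obtain ⟨τ, a, hτ1, hτ2, hG, h3⟩ := hN n m ε Y hS
  have hε := hS.εpos
  have hε1 := hS.ε1
  have hεE := hS.εes.trans hesE
  have k1 := hA1 ε hε (hεE.trans (min_le_left _ _))
  have k2 := hA2 ε hε (hεE.trans (min_le_right _ _))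
  have htn := tn_pos n
  have htm := tn_pos m
  have hnm := hS.lt
  have hk3 : 3 ≤ P.kE ε := hAd.hk.trans (lg_anti P.th0.le hε hS.εes)
  have hn3 : n + 3 ≤ r := by have := hr.1; omega
  have hC01 : 1 ≤ P.C0 := by
    have : 0 < 1 / c := by positivity
    linarith
  have hlg : lg 1 ε ≤ lg P.C0 ε := lg_mono hC01 hε hε1
  have hnE : lg P.C0 ε ≤ n := by
    have := (hG ε le_rfl hS.εes).nE
    omega
  have hsx : P.sE n ε + (lg 1 ε + 2) ≤ r := by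
    unfold Par.sE
    omega
  have := H159.nz_cell (show P.sE n ε ≤ r by omega)
  have hl : 2 ^ (P.sE n ε) ∣ 2 ^ r := Nat.pow_dvd_pow 2 (by omega)
  obtain ⟨ρ, p, hp0, hp, hρ0, hty, hnum⟩ := h3 r hr m hnm.le le_rfl
  have htmn : tn m < tn n := by
    unfold tn
    exact inv_strictAnti₀ (by positivity) (pow_lt_pow_right₀ (by norm_num) hnm)
  have hTh := H159.ThN_typ (N := 2 ^ r) (l := 2 ^ (P.sE n ε)) hb hl (by positivity)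
    (by linarith) hty hp
  have hTh0 := H730.ThN_nonneg (N := 2 ^ r) (l := 2 ^ (P.sE n ε)) (b := b) (t := τ) hb hl
    (τ' := tn m / 2) (τ := τ) (by positivity) (by linarith) le_rfl
  obtain ⟨hX1, hX2⟩ := x_num hε hε1
  obtain ⟨hy1, hy2, hy3⟩ := x_pow (lr := ((2 ^ (P.sE n ε) : ℕ) : ℝ)) hε hε1 hc hC0 htn hτ1
    (by positivity) (by positivity) (H159.g_num hε hnE hτ2) hX1 hX2 hκ
  refine k3_core hb hC hc₁ hq0 hD hnm hmr hn3 hsx (by omega) hε hε1 hτ1 hτ2 (by linarith) hTh0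
    hTh (hy1.trans k1) hy2 hy3 hκ0.le hC' hnum ?_ ?_ f hf
  · have e1 : ε ^ (2 : ℝ) = ε ^ (2 - q) * ε ^ q := by
      rw [← Real.rpow_add hε, sub_add_cancel]
    rw [e1, ← mul_assoc]
    exact mul_le_mul_of_nonneg_right k2 (Real.rpow_nonneg hε.le _)
  · exact fun k hk => hUp n ε a τ hS.n0 hε hS.εes (hG ε le_rfl hS.εes) r hr τ hτ1 hτ2 k hk

/-- **(K3), the smoothed pyramid** of side `p`, `tn n * p ^ 2 ≤ 1` -/
theorem k3_pyr (hb : 0 < b) {p3 : ℝ} (hp3 : p3 < 1) (hc₁ : 1 ≤ c₁)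
    (hU : Fam b1 b2 pf fun P N0 => UpP P b c₁ N0)
    (hT : Fam b1 b2 pf fun P N0 => H159.TypA P b N0) :
    Fam b1 b2 pf fun P N0 => ∀ n m ε Y, SI P b N0 n m ε Y → ∀ r, P.TT n ε r → m ≤ r →
      ∀ (x0 y0 : ℤ) (p s : ℕ), 1 ≤ s → s ≤ p → tn n * (p : ℝ) ^ 2 ≤ 1 →
      Fit (2 ^ r) (smz s (H859.pf x0 y0 p)) →
        (((2 ^ r : ℕ) : ℝ) ^ 2)⁻¹ * ∑ k ∈ univ.erase (0 : V (2 ^ r)),
          hsq (em (2 ^ r) (smz s (H859.pf x0 y0 p))) k *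
            (Pin (2 ^ r) b (tn n) k - Pin (2 ^ r) b (tn m) k) ≤ ε ^ p3 * (p : ℝ) ^ 2 := by
  obtain ⟨q, hq⟩ : ∃ q : ℝ, q = max ((1 + p3) / 2) (1 / 2) := ⟨_, rfl⟩
  have hq0 : 0 < q := by rw [hq]; exact lt_max_of_lt_right (by norm_num)
  have hq1 : q < 1 := by rw [hq]; exact max_lt (by linarith) (by norm_num)
  have hqp : 0 < q - p3 := by
    have : (1 + p3) / 2 ≤ q := by rw [hq]; exact le_max_left _ _
    linarith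
  obtain ⟨E, hE, hA⟩ := absorb (A := 1056) (a := q - p3) (κ := 1) (by norm_num) hqp one_pos
  refine ((k3_arr hb hq0 hq1 hc₁ hU hT).and (fam_CE 0 hE)).imp fun P N0 _ _ _ _ h => ?_
  intro n m ε Y hS r hr hmr x0 y0 p s hs hsp hp hf
  have hε := hS.εpos
  have k1 := hA ε hε (hS.εes.trans h.2.2)
  have htn := tn_pos n
  have hp1 : 1 ≤ p := hs.trans hsp
  have hp0 : (0 : ℝ) < p := by exact_mod_cast hp1
  refine (h.1 n m ε Y hS r hr hmr _ hf).trans ?_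
  have a1 := one_smz x0 y0 hp1 hs hsp
  have a2 := one_lap x0 y0 hp1 hs
  have a3 := sq_smz x0 y0 hp1 hs hsp
  have a4 := enz_smz_up x0 y0 hp1 hs
  have b1 : tn n * ∑' c, |smz s (H859.pf x0 y0 p) c| ≤ 16 * p := by
    calc tn n * ∑' c, |smz s (H859.pf x0 y0 p) c| ≤ tn n * (16 * (p : ℝ) ^ 3) :=
          mul_le_mul_of_nonneg_left a1 htn.le
      _ = tn n * (p : ℝ) ^ 2 * (16 * p) := by ring
      _ ≤ 1 * (16 * p) := mul_le_mul_of_nonneg_right hp (by positivity)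
      _ = _ := one_mul _
  have b2 : tn n * ∑' c, smz s (H859.pf x0 y0 p) c ^ 2 ≤ 16 * (p : ℝ) ^ 2 := by
    calc tn n * ∑' c, smz s (H859.pf x0 y0 p) c ^ 2 ≤ tn n * (16 * (p : ℝ) ^ 4) :=
          mul_le_mul_of_nonneg_left a3 htn.le
      _ = tn n * (p : ℝ) ^ 2 * (16 * (p : ℝ) ^ 2) := by ring
      _ ≤ 1 * (16 * (p : ℝ) ^ 2) := mul_le_mul_of_nonneg_right hp (by positivity)
      _ = _ := one_mul _
  have c1 : 0 ≤ tn n * ∑' c, |smz s (H859.pf x0 y0 p) c| +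
      ∑' c, |lapz (smz s (H859.pf x0 y0 p)) c| :=
    add_nonneg (mul_nonneg htn.le (tsum_nonneg fun c => abs_nonneg _))
      (tsum_nonneg fun c => abs_nonneg _)
  have c2 : (tn n * ∑' c, |smz s (H859.pf x0 y0 p) c| +
      ∑' c, |lapz (smz s (H859.pf x0 y0 p)) c|) ^ 2 ≤ 1024 * (p : ℝ) ^ 2 := by
    calc _ ≤ (32 * (p : ℝ)) ^ 2 := pow_le_pow_left₀ c1 (by linarith) 2
      _ = _ := by ring
  have hq' : ε ^ q = ε ^ (q - p3) * ε ^ p3 := by rw [← Real.rpow_add hε, sub_add_cancel]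
  have hεp : 0 ≤ ε ^ p3 := Real.rpow_nonneg hε.le _
  calc _ ≤ ε ^ q * (1056 * (p : ℝ) ^ 2) :=
        mul_le_mul_of_nonneg_left (by linarith) (Real.rpow_nonneg hε.le _)
    _ = 1056 * ε ^ (q - p3) * (ε ^ p3 * (p : ℝ) ^ 2) := by rw [hq']; ring
    _ ≤ 1 * (ε ^ p3 * (p : ℝ) ^ 2) := mul_le_mul_of_nonneg_right k1 (by positivity)
    _ = _ := one_mul _

/-- **(K3)** in the letters of row 5943: `f = smz (2 ^ (u - 2 j)) (pf z z (2 ^ u))`, `u ≤ n` -/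
theorem k3 (hb : 0 < b) {p3 : ℝ} (hp3 : p3 < 1) (hc₁ : 1 ≤ c₁)
    (hU : Fam b1 b2 pf fun P N0 => UpP P b c₁ N0)
    (hT : Fam b1 b2 pf fun P N0 => H159.TypA P b N0) :
    Fam b1 b2 pf fun P N0 => ∀ n m ε Y, SI P b N0 n m ε Y → ∀ r, P.TT n ε r → m ≤ r →
      ∀ (x0 y0 : ℤ) (u v : ℕ), u ≤ n → v ≤ u →
      Fit (2 ^ r) (smz (2 ^ v) (H859.pf x0 y0 (2 ^ u))) →
        (((2 ^ r : ℕ) : ℝ) ^ 2)⁻¹ * ∑ k ∈ univ.erase (0 : V (2 ^ r)),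
          hsq (em (2 ^ r) (smz (2 ^ v) (H859.pf x0 y0 (2 ^ u)))) k *
            (Pin (2 ^ r) b (tn n) k - Pin (2 ^ r) b (tn m) k) ≤ ε ^ p3 * 4 ^ u := by
  refine (k3_pyr hb hp3 hc₁ hU hT).imp fun P N0 _ _ _ _ h => ?_
  intro n m ε Y hS r hr hmr x0 y0 u v hu hv hf
  have e1 : (((2 ^ u : ℕ) : ℝ)) ^ 2 = 4 ^ u := by
    push_cast
    rw [← pow_mul, mul_comm, pow_mul]
    norm_num
  have e2 : ((2 ^ u : ℕ) : ℤ) = 2 ^ u := by push_cast; rfl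
  rw [← e2] at hf ⊢
  have h1 := h n m ε Y hS r hr hmr x0 y0 (2 ^ u) (2 ^ v) Nat.one_le_two_pow
    (Nat.pow_le_pow_right two_pos hv) (by
      rw [e1]
      unfold tn
      rw [inv_mul_le_iff₀ (by positivity), mul_one]
      exact pow_le_pow_right₀ (by norm_num) hu) hf
  rwa [e1] at h1

/-- the upper bound of the self energy: helper340's `fam_lkP` -/
theorem fam_up (hb : 0 < b) (hh : 0 < helicity b) (hs : 1 / helicity b < 5 / 2) :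
    ∃ c₁ : ℝ, 1 ≤ c₁ ∧ ∀ b1 b2 pf : ℝ, Fam b1 b2 pf fun P N0 => UpP P b c₁ N0 := by
  obtain ⟨c₁, h1, h2⟩ := H340.fam_lkP hb hh hs
  exact ⟨c₁, h1, fun b1 b2 pf => (h2 b1 b2 pf).imp fun P N0 _ _ _ _ h n e a τ hn he hes hG r hr T
    hT1 hT2 k hk => (h n e τ a hn he hes hG).up r hr T hT1 hT2 k hk⟩

/-- **(K3)**, the only input is (A) -/
theorem fam_k3 (hb : 0 < b) (hh : 0 < helicity b) (hs : 1 / helicity b < 5 / 2) {p3 : ℝ}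
    (hp3 : p3 < 1) (hT : Fam b1 b2 pf fun P N0 => H159.TypA P b N0) :
    Fam b1 b2 pf fun P N0 => ∀ n m ε Y, SI P b N0 n m ε Y → ∀ r, P.TT n ε r → m ≤ r →
      ∀ (x0 y0 : ℤ) (u v : ℕ), u ≤ n → v ≤ u →
      Fit (2 ^ r) (smz (2 ^ v) (H859.pf x0 y0 (2 ^ u))) →
        (((2 ^ r : ℕ) : ℝ) ^ 2)⁻¹ * ∑ k ∈ univ.erase (0 : V (2 ^ r)),
          hsq (em (2 ^ r) (smz (2 ^ v) (H859.pf x0 y0 (2 ^ u)))) k *
            (Pin (2 ^ r) b (tn n) k - Pin (2 ^ r) b (tn m) k) ≤ ε ^ p3 * 4 ^ u := by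
  obtain ⟨c₁, h1, h2⟩ := fam_up hb hh hs
  exact k3 hb hp3 h1 (h2 b1 b2 pf) hT

end

end Vale.Agent.P159.H692
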