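import Vale.Agent.P159.H692.Fn1

/-!
P159, helper692, FN part 2: SUM OVER THE HAAR LEVELS.
`lev_mean` : convexity; `LevOK` : the input of one level (free blocks of side `L`);
`fn_core` : `∫ R(2 ∑ levels) dν ≤ C (t N²) (τ / t)³ (2ⁿ √t)^(c/2)`.
-/

namespace Vale.Agent.P159.H692

open Finset Matrix MeasureTheory
open Vale.Agent.P159.TM.H104 (EM Ex Cv Lg li nh Gr)
open Vale.Agent.P159.H37

noncomputable section

section conv

variable {V : Type*} [Fintype V]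

/-- Jensen for a sub-probability -/
theorem Rs_sum_le {μ : (V → ℤ) → ℝ} (hμ : EM μ) (he : Ev μ) (hK : PK μ) {ι : Type*}
    (s : Finset ι) (w : ι → ℝ) (hw : ∀ i ∈ s, 0 ≤ w i) (hw1 : ∑ i ∈ s, w i ≤ 1) (x : ι → V → ℝ) :
    Rs μ (∑ i ∈ s, w i • x i) ≤ ∑ i ∈ s, w i * Rs μ (x i) := by
  set W := ∑ i ∈ s, w i with hW
  have hW0 : 0 ≤ W := Finset.sum_nonneg hw
  rcases hW0.eq_or_lt with h0 | h0
  · have h1 : ∀ i ∈ s, w i = 0 := (Finset.sum_eq_zero_iff_of_nonneg hw).1 (h0.symm ▸ rfl)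
    rw [Finset.sum_congr rfl fun i hi => by rw [h1 i hi, zero_smul], Finset.sum_const_zero,
      H789.Rs_zero]
    exact Finset.sum_nonneg fun i hi => mul_nonneg (hw i hi) (H789.Rs_nonneg hμ he hK _)
  · have h1 := (H789.Rs_convex hμ he hK).map_sum_le (t := s) (w := fun i => w i / W) (p := x)
      (fun i hi => div_nonneg (hw i hi) h0.le) (by rw [← Finset.sum_div, ← hW, div_self h0.ne'])
      (fun i _ => Set.mem_univ _)
    have h2 := H789.Rs_ray_mono hμ he hK (∑ i ∈ s, (w i / W) • x i) h0.le (s' := 1) hw1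
    have h3 := (H789.Rs_convex hμ he hK).2 (Set.mem_univ (∑ i ∈ s, (w i / W) • x i))
      (Set.mem_univ (0 : V → ℝ)) h0.le (sub_nonneg.2 hw1) (by ring)
    rw [smul_zero, add_zero, H789.Rs_zero] at h3
    have e1 : W • ∑ i ∈ s, (w i / W) • x i = ∑ i ∈ s, w i • x i := by
      rw [Finset.smul_sum]
      refine Finset.sum_congr rfl fun i _ => ?_
      rw [smul_smul]
      congr 1
      field_simp
    rw [e1] at h3
    simp only [smul_eq_mul, mul_zero, add_zero] at h3 h1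
    have h4 := mul_le_mul_of_nonneg_left h1 h0.le
    refine h3.trans (h4.trans (le_of_eq ?_))
    rw [Finset.mul_sum]
    refine Finset.sum_congr rfl fun i _ => ?_
    field_simp

variable {ν : Measure (V → ℝ)}

/-- **convexity over the levels** -/
theorem lev_mean {μ : (V → ℤ) → ℝ} (hμ : EM μ) (he : Ev μ) (hK : PK μ) {n : ℕ}
    (y : ℕ → (V → ℝ) → V → ℝ) (hm : ∀ i < n, Measurable (y i)) (w E : ℕ → ℝ)
    (hw : ∀ i < n, 0 < w i) (hw1 : ∑ i ∈ range n, w i ≤ 1)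
    (hi : ∀ i < n, Integrable (fun z => Rs μ ((2 / w i) • y i z)) ν)
    (hE : ∀ i < n, ∫ z, Rs μ ((2 / w i) • y i z) ∂ν ≤ E i) :
    Integrable (fun z => Rs μ ((2 : ℝ) • ∑ i ∈ range n, y i z)) ν ∧
      ∫ z, Rs μ ((2 : ℝ) • ∑ i ∈ range n, y i z) ∂ν ≤ ∑ i ∈ range n, w i * E i := by
  have hpt : ∀ z, Rs μ ((2 : ℝ) • ∑ i ∈ range n, y i z) ≤
      ∑ i ∈ range n, w i * Rs μ ((2 / w i) • y i z) := by
    intro z
    have h1 := Rs_sum_le hμ he hK (range n) w (fun i h => (hw i (mem_range.1 h)).le) hw1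
      fun i => (2 / w i) • y i z
    refine le_trans (le_of_eq ?_) h1
    congr 1
    rw [Finset.smul_sum]
    refine Finset.sum_congr rfl fun i h => ?_
    rw [smul_smul, mul_div_cancel₀ _ (hw i (mem_range.1 h)).ne']
  have iS : Integrable (fun z => ∑ i ∈ range n, w i * Rs μ ((2 / w i) • y i z)) ν :=
    integrable_finsetSum _ fun i h => (hi i (mem_range.1 h)).const_mul _
  have hmeas : Measurable fun z => Rs μ ((2 : ℝ) • ∑ i ∈ range n, y i z) := by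
    have h1 : Measurable fun z => ∑ i ∈ range n, y i z :=
      Finset.measurable_sum _ fun i h => hm i (mem_range.1 h)
    exact (continuous_Rs hμ).measurable.comp (h1.const_smul (2 : ℝ))
  have iL : Integrable (fun z => Rs μ ((2 : ℝ) • ∑ i ∈ range n, y i z)) ν := by
    refine iS.mono' hmeas.aestronglyMeasurable (Filter.Eventually.of_forall fun z => ?_)
    rw [Real.norm_eq_abs, abs_of_nonneg (H789.Rs_nonneg hμ he hK _)]
    exact hpt z
  refine ⟨iL, (integral_mono iL iS hpt).trans ?_⟩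
  rw [integral_finsetSum _ fun i h => (hi i (mem_range.1 h)).const_mul _]
  refine Finset.sum_le_sum fun i h => ?_
  rw [integral_const_mul]
  exact mul_le_mul_of_nonneg_left (hE i (mem_range.1 h)) (hw i (mem_range.1 h)).le

end conv

/-! ### the input of one level -/

section lev

variable {V : Type} [Fintype V]

/-- level of side `r`, free blocks of side `L`, projection `D` of the level, `N²` sites, constants
`C0, C1, κ`, exponent `c` -/
def LevOK (μ : (V → ℤ) → ℝ) (D : Matrix V V ℝ) (N r L : ℕ) (t C0 C1 κ c : ℝ) : Prop :=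
  ∃ (C K : Type) (_ : Fintype C) (_ : Fintype K) (_ : DecidableEq K) (f : C → V → ℝ)
    (blk : C → K) (A : Matrix C C ℝ), HL μ f blk A t r C0 κ ∧
    ((Fintype.card C : ℝ) ≤ ((N : ℝ) / r) ^ 2) ∧
    (∀ k, (((univ : Finset C).filter fun c => blk c = k).card : ℝ) ≤ ((L : ℝ) / r) ^ 2) ∧
    (∑ c, A c c ≤ C1 * (N : ℝ) ^ 2 * (((r : ℝ) / L) ^ c + t * (L : ℝ) ^ 2)) ∧
    ∀ z, Yf f (fun c => f c ⬝ᵥ z) = D *ᵥ z

variable {ν : Measure (V → ℝ)} [IsProbabilityMeasure ν] {τ : ℝ}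

/-- expectation on one level, in terms of `x = r √t` -/
theorem LevOK.mean {μ : (V → ℤ) → ℝ} (hμ : EM μ) (he : Ev μ) (hK : PK μ) {D : Matrix V V ℝ}
    {N r L : ℕ} {t C0 C1 κ c : ℝ} (h : LevOK μ D N r L t C0 C1 κ c) (hν : M6 ν τ)
    (hr : 1 ≤ r) (hL : 0 < L) (hC1 : 0 ≤ C1) (hc : 0 < c) (hc1 : c ≤ 1) (htτ : t ≤ τ)
    (ht1 : t ≤ 1) {x : ℝ} (hx : x = r * √t) (hx1 : x ≤ 1) (hL1 : ((r : ℝ) / L) ≤ 2 * √x)
    (hL2 : t * (L : ℝ) ^ 2 ≤ 4 * x) {lam : ℝ} (hlam : 1 ≤ lam) :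
    Integrable (fun z => Rs μ (lam • (D *ᵥ z))) ν ∧
    ∫ z, Rs μ (lam • (D *ᵥ z)) ∂ν ≤
      (12 * C1 + 32 * (C0 + 1) / κ ^ 4 + 32 * C0) * ((t * (N : ℝ) ^ 2) * (τ / t) ^ 3) *
        lam ^ 6 * x ^ (c / 2) := by
  classical
  obtain ⟨C, K, _, _, _, f, blk, A, hH, hcard, hblk, htr, hD⟩ := h
  have ht := hH.ht
  have hκ := hH.hκ
  have hC0 := hH.hC0
  have hτ := hν.pos
  have hr0 : (0 : ℝ) < r := by exact_mod_cast hr
  have hr1 : (1 : ℝ) ≤ r := by exact_mod_cast hr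
  have hL0 : (0 : ℝ) < L := by exact_mod_cast hL
  have h1 := hH.mean hμ he hK hν (nK := ((L : ℝ) / r) ^ 2) hblk (sq_nonneg _) lam
  simp only [hD] at h1
  refine ⟨h1.1, h1.2.trans ?_⟩
  have hst : 0 < √t := Real.sqrt_pos.2 ht
  have hx0 : 0 < x := by rw [hx]; positivity
  have hlam0 : 0 < lam := by linarith
  set y := x ^ (c / 2) with hy
  have hy0 : 0 < y := Real.rpow_pos_of_pos hx0 _
  have hxy : x ≤ y := by
    have := Real.rpow_le_rpow_of_exponent_ge hx0 hx1 (show c / 2 ≤ 1 by linarith)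
    rwa [Real.rpow_one] at this
  have hu : 1 ≤ τ / t := (one_le_div ht).2 htτ
  set U := τ / t with hU
  have hτU : τ = U * t := by rw [hU]; field_simp
  have hl2 : lam ^ 2 ≤ lam ^ 6 := pow_le_pow_right₀ hlam (by norm_num)
  have hl4 : lam ^ 4 ≤ lam ^ 6 := pow_le_pow_right₀ hlam (by norm_num)
  have hN2 : (0 : ℝ) ≤ (N : ℝ) ^ 2 := sq_nonneg _
  -- first term
  have hb1 : ((r : ℝ) / L) ^ c ≤ 2 * y := by
    have h2 : ((r : ℝ) / L) ^ c ≤ (2 * √x) ^ c := Real.rpow_le_rpow (by positivity) hL1 hc.le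
    refine h2.trans ?_
    rw [Real.mul_rpow (by norm_num) (Real.sqrt_nonneg x), Real.sqrt_eq_rpow,
      ← Real.rpow_mul hx0.le]
    have e : 1 / 2 * c = c / 2 := by ring
    rw [e, ← hy]
    refine mul_le_mul_of_nonneg_right ?_ hy0.le
    have := Real.rpow_le_rpow_of_exponent_le (show (1 : ℝ) ≤ 2 by norm_num) hc1
    rwa [Real.rpow_one] at this
  have hT : ∑ c, A c c ≤ C1 * (N : ℝ) ^ 2 * (6 * y) := by
    refine htr.trans (mul_le_mul_of_nonneg_left ?_ (by positivity))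
    linarith
  have t1 : 2 * lam ^ 2 * τ * ∑ c, A c c ≤ 12 * C1 * ((t * (N : ℝ) ^ 2) * U ^ 3) * lam ^ 6 * y := by
    calc 2 * lam ^ 2 * τ * ∑ c, A c c ≤ 2 * lam ^ 2 * τ * (C1 * (N : ℝ) ^ 2 * (6 * y)) :=
          mul_le_mul_of_nonneg_left hT (by positivity)
      _ = 12 * C1 * ((t * (N : ℝ) ^ 2) * U) * lam ^ 2 * y := by rw [hτU]; ring
      _ ≤ _ := by
          have hU1 : U ≤ U ^ 3 := le_self_pow₀ hu (by norm_num)
          gcongr
  -- second term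
  have hcd : (Fintype.card C : ℝ) ≤ (N : ℝ) ^ 2 / (r : ℝ) ^ 2 := by rwa [div_pow] at hcard
  have hcd2 : (Fintype.card C : ℝ) ≤ (N : ℝ) ^ 2 := by
    refine hcd.trans (div_le_self hN2 ?_)
    nlinarith
  have t2 : 32 * (C0 + 1) * lam ^ 6 / (t * κ ^ 4) * (Fintype.card C * τ ^ 3) ≤
      32 * (C0 + 1) / κ ^ 4 * ((t * (N : ℝ) ^ 2) * U ^ 3) * lam ^ 6 * y := by
    have hty : t ≤ y := by
      refine le_trans ?_ hxy
      rw [hx]
      have h3 : √t * √t = t := Real.mul_self_sqrt ht.le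
      have h4 : √t ≤ 1 := Real.sqrt_le_one.2 ht1
      nlinarith
    calc _ ≤ 32 * (C0 + 1) * lam ^ 6 / (t * κ ^ 4) * ((N : ℝ) ^ 2 * τ ^ 3) := by gcongr
      _ = 32 * (C0 + 1) / κ ^ 4 * ((t * (N : ℝ) ^ 2) * U ^ 3) * lam ^ 6 * t := by
          rw [hτU]
          field_simp
      _ ≤ _ := by gcongr
  -- third term
  have t3 : 8 * C0 * (r : ℝ) ^ 4 * ((L : ℝ) / r) ^ 2 * lam ^ 4 * (Fintype.card C * τ ^ 2) ≤
      32 * C0 * ((t * (N : ℝ) ^ 2) * U ^ 3) * lam ^ 6 * y := by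
    calc _ ≤ 8 * C0 * (r : ℝ) ^ 4 * ((L : ℝ) / r) ^ 2 * lam ^ 4 *
          ((N : ℝ) ^ 2 / (r : ℝ) ^ 2 * τ ^ 2) := by gcongr
      _ = 8 * C0 * ((t * (N : ℝ) ^ 2) * U ^ 2) * lam ^ 4 * (t * (L : ℝ) ^ 2) := by
          rw [hτU]
          field_simp
      _ ≤ 8 * C0 * ((t * (N : ℝ) ^ 2) * U ^ 3) * lam ^ 6 * (4 * y) := by
          have hU1 : U ^ 2 ≤ U ^ 3 := pow_le_pow_right₀ hu (by norm_num)
          have h5 : t * (L : ℝ) ^ 2 ≤ 4 * y := hL2.trans (by linarith)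
          gcongr
      _ = _ := by ring
  calc _ ≤ 12 * C1 * ((t * (N : ℝ) ^ 2) * U ^ 3) * lam ^ 6 * y +
        32 * (C0 + 1) / κ ^ 4 * ((t * (N : ℝ) ^ 2) * U ^ 3) * lam ^ 6 * y +
        32 * C0 * ((t * (N : ℝ) ^ 2) * U ^ 3) * lam ^ 6 * y := add_le_add (add_le_add t1 t2) t3
    _ = _ := by ring

end lev

end

end Vale.Agent.P159.H692
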