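import Vale.Agent.P159.H692.Fn2

/-!
P159, helper692, FN part 3: the choice of the blocks, the weights, the sum over the levels.
-/

namespace Vale.Agent.P159.H692

open Finset Matrix MeasureTheory
open Vale.Agent.P159.TM.H104 (EM Ex Cv Lg li nh Gr)
open Vale.Agent.P159.H37

noncomputable section

/-- the ratio of the side of the blocks and the side of the cells -/
lemma pick {x : ℝ} (h0 : 0 < x) (h1 : x ≤ 1 / 2) :
    ∃ m : ℕ, 1 ≤ m ∧ x ^ 2 * 4 ^ m ≤ 1 ∧ x ^ 2 * 4 ^ m ≤ 4 * x ∧ (1 : ℝ) / 2 ^ m ≤ 2 * √x := by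
  obtain ⟨m, h2, h3⟩ := exists_nat_pow_near (x := 1 / x) (y := (4 : ℝ))
    (by rw [le_div_iff₀ h0]; linarith) (by norm_num)
  rw [le_div_iff₀ h0] at h2
  rw [div_lt_iff₀ h0] at h3
  have hs : √x * √x = x := Real.mul_self_sqrt h0.le
  have hs0 : 0 < √x := Real.sqrt_pos.2 h0
  rcases Nat.eq_zero_or_pos m with h4 | h4
  · subst h4
    refine ⟨1, le_rfl, by nlinarith, by nlinarith, ?_⟩
    simp only [zero_add, pow_one] at h3
    rw [pow_one]
    have h5 : 1 / 2 ≤ √x := by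
      refine Real.le_sqrt_of_sq_le ?_
      linarith
    linarith
  · refine ⟨m, h4, by nlinarith [mul_le_mul_of_nonneg_left h2 h0.le],
      by nlinarith [mul_le_mul_of_nonneg_left h2 h0.le], ?_⟩
    have h5 : (1 : ℝ) ≤ 2 ^ (m + 1) * √x := by
      have h6 : (1 : ℝ) ^ 2 ≤ (2 ^ (m + 1) * √x) ^ 2 := by
        rw [mul_pow, ← pow_mul, mul_comm (m + 1) 2, pow_mul, Real.sq_sqrt h0.le]
        norm_num
        linarith
      exact (pow_le_pow_iff_left₀ (by norm_num) (by positivity) (by norm_num)).1 h6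
    rw [div_le_iff₀ (by positivity)]
    rw [pow_succ] at h5
    linarith

/-- geometric sums, counted from above -/
lemma sum_geom_top {q : ℝ} (h0 : 0 ≤ q) (h1 : q < 1) (n : ℕ) :
    ∑ i ∈ range n, q ^ (n - 1 - i) ≤ 1 / (1 - q) := by
  rw [Finset.sum_range_reflect (fun i => q ^ i) n]
  rw [one_div]
  exact (Summable.sum_le_tsum _ (fun i _ => pow_nonneg h0 i) (summable_geometric_of_lt_one h0 h1)).trans
    (le_of_eq (tsum_geometric_of_lt_one h0 h1))

variable {V : Type} [Fintype V] {ν : Measure (V → ℝ)} [IsProbabilityMeasure ν] {τ : ℝ}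

/-- the constant of `fn_core` -/
def CFN (C0 C1 κ c : ℝ) : ℝ :=
  (12 * C1 + 32 * (C0 + 1) / κ ^ 4 + 32 * C0) * (64 / (1 - (2 : ℝ) ^ (-(c / 20))) ^ 6)

/-- **FN, abstract form** -/
theorem fn_core {μ : (V → ℤ) → ℝ} (hμ : EM μ) (he : Ev μ) (hK : PK μ) {D : ℕ → Matrix V V ℝ}
    {N n p : ℕ} {t C0 C1 κ c : ℝ} (hC0 : 0 ≤ C0) (hC1 : 0 ≤ C1) (hκ : 0 < κ) (hc : 0 < c)
    (hc1 : c ≤ 1) (ht : 0 < t) (htn : t * ((2 : ℝ) ^ n) ^ 2 ≤ 1) (hp : 1 < t * 4 ^ (p + 1))
    (hlev : ∀ i < n, ∀ j, i + 1 ≤ j → j ≤ p → t * ((2 : ℝ) ^ j) ^ 2 ≤ 1 →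
      LevOK μ (D i) N (2 ^ i) (2 ^ j) t C0 C1 κ c)
    (hν : M6 ν τ) (htτ : t ≤ τ) :
    Integrable (fun z => Rs μ ((2 : ℝ) • ((∑ i ∈ range n, D i) *ᵥ z))) ν ∧
    ∫ z, Rs μ ((2 : ℝ) • ((∑ i ∈ range n, D i) *ᵥ z)) ∂ν ≤
      CFN C0 C1 κ c * ((t * (N : ℝ) ^ 2) * (τ / t) ^ 3) * ((2 : ℝ) ^ n * √t) ^ (c / 2) := by
  set q : ℝ := (2 : ℝ) ^ (-(c / 20)) with hq
  have hq0 : 0 < q := Real.rpow_pos_of_pos (by norm_num) _
  have hq1 : q < 1 := Real.rpow_lt_one_of_one_lt_of_neg (by norm_num) (by linarith)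
  have hq1' : 0 < 1 - q := by linarith
  set X : ℝ := (2 : ℝ) ^ n * √t with hX
  have hst : 0 < √t := Real.sqrt_pos.2 ht
  have hss : √t * √t = t := Real.mul_self_sqrt ht.le
  have hX0 : 0 < X := by positivity
  have hX1 : X ≤ 1 := by
    have h1 : X ^ 2 ≤ 1 := by
      rw [hX, mul_pow, Real.sq_sqrt ht.le]
      linarith
    exact (pow_le_one_iff_of_nonneg hX0.le (by norm_num)).1 h1
  set F : ℝ := (12 * C1 + 32 * (C0 + 1) / κ ^ 4 + 32 * C0) * ((t * (N : ℝ) ^ 2) * (τ / t) ^ 3)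
    with hF
  have hτ := hν.pos
  have hF0 : 0 ≤ F := by positivity
  set w : ℕ → ℝ := fun i => (1 - q) * q ^ (n - 1 - i) with hw
  have hw0 : ∀ i, 0 < w i := fun i => by positivity
  have hwle : ∀ i, w i ≤ 1 := fun i => by
    have h1 : q ^ (n - 1 - i) ≤ 1 := pow_le_one₀ hq0.le hq1.le
    have : (1 - q) * q ^ (n - 1 - i) ≤ 1 * 1 := mul_le_mul (by linarith) h1 (by positivity) (by norm_num)
    linarith
  have hwsum : ∑ i ∈ range n, w i ≤ 1 := by
    rw [hw, ← Finset.mul_sum]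
    have h1 := mul_le_mul_of_nonneg_left (sum_geom_top hq0.le hq1 n) hq1'.le
    rwa [mul_one_div_cancel hq1'.ne'] at h1
  have hlevel : ∀ i < n, Integrable (fun z => Rs μ ((2 / w i) • (D i *ᵥ z))) ν ∧
      ∫ z, Rs μ ((2 / w i) • (D i *ᵥ z)) ∂ν ≤
        F * (2 / w i) ^ 6 * (((2 ^ i : ℕ) : ℝ) * √t) ^ (c / 2) := by
    intro i hi
    set x : ℝ := ((2 ^ i : ℕ) : ℝ) * √t with hx
    have hx0 : 0 < x := by positivity
    have hx2 : x ≤ 1 / 2 := by
      have h1 : (2 : ℝ) * ((2 ^ i : ℕ) : ℝ) ≤ (2 : ℝ) ^ n := by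
        push_cast
        rw [← pow_succ']
        exact pow_le_pow_right₀ (by norm_num) hi
      have h2 : 2 * x ≤ X := by
        rw [hx, hX, ← mul_assoc]
        exact mul_le_mul_of_nonneg_right h1 hst.le
      linarith
    obtain ⟨m, hm1, hm2, hm3, hm4⟩ := pick hx0 hx2
    have hxt : t * ((2 : ℝ) ^ (i + m)) ^ 2 = x ^ 2 * 4 ^ m := by
      rw [hx]
      push_cast
      have e4 : (4 : ℝ) ^ m = (2 ^ m) ^ 2 := by
        rw [← pow_mul, mul_comm m 2, pow_mul]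
        norm_num
      rw [mul_pow, Real.sq_sqrt ht.le, pow_add, mul_pow, e4]
      ring
    have hjp : i + m ≤ p := by
      by_contra h1
      have h2 : p + 1 ≤ i + m := by omega
      have h3 : (4 : ℝ) ^ (p + 1) ≤ ((2 : ℝ) ^ (i + m)) ^ 2 := by
        rw [← pow_mul, mul_comm, pow_mul]
        norm_num
        exact pow_le_pow_right₀ (by norm_num) h2
      have h4 := mul_le_mul_of_nonneg_left h3 ht.le
      rw [hxt] at h4
      linarith
    have hl := hlev i hi (i + m) (by omega) hjp (by rw [hxt]; exact hm2)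
    have ht1 : t ≤ 1 := by
      have h1 : (1 : ℝ) ≤ ((2 : ℝ) ^ n) ^ 2 := one_le_pow₀ (one_le_pow₀ (by norm_num))
      nlinarith
    refine hl.mean hμ he hK hν Nat.one_le_two_pow (by positivity) hC1 hc hc1 htτ ht1 (x := x) hx
      (by linarith) ?_ ?_ ?_
    · refine le_trans (le_of_eq ?_) hm4
      push_cast
      rw [pow_add]
      field_simp
    · push_cast
      rw [hxt]
      exact hm3
    · rw [le_div_iff₀ (hw0 i)]
      linarith [hwle i]
  have hmeas : ∀ i < n, Measurable fun z : V → ℝ => D i *ᵥ z := fun i _ => by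
    refine measurable_pi_lambda _ fun x => ?_
    simp only [mulVec, dotProduct]
    fun_prop
  have h1 := lev_mean hμ he hK (ν := ν) (n := n) (fun i z => D i *ᵥ z) hmeas w
    (fun i => F * (2 / w i) ^ 6 * (((2 ^ i : ℕ) : ℝ) * √t) ^ (c / 2)) (fun i _ => hw0 i) hwsum
    (fun i hi => (hlevel i hi).1) (fun i hi => (hlevel i hi).2)
  have hsum : ∀ z : V → ℝ, ∑ i ∈ range n, D i *ᵥ z = (∑ i ∈ range n, D i) *ᵥ z := fun z =>
    (Matrix.sum_mulVec _ _ _).symm
  simp only [hsum] at h1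
  refine ⟨h1.1, h1.2.trans ?_⟩
  -- the scalar sum
  have hterm : ∀ i ∈ range n, w i * (F * (2 / w i) ^ 6 * (((2 ^ i : ℕ) : ℝ) * √t) ^ (c / 2)) ≤
      F * 64 / (1 - q) ^ 5 * X ^ (c / 2) * q ^ (n - 1 - i) := by
    intro i hi
    have hi' := mem_range.1 hi
    have hx : ((2 ^ i : ℕ) : ℝ) * √t = X * (2 : ℝ) ^ (-((n - i : ℕ) : ℝ)) := by
      rw [hX, Real.rpow_neg (by norm_num), Real.rpow_natCast]
      push_cast
      have h2 : (2 : ℝ) ^ n = 2 ^ i * 2 ^ (n - i) := by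
        rw [← pow_add]
        congr 1
        omega
      rw [h2]
      field_simp
    have hxp : (((2 ^ i : ℕ) : ℝ) * √t) ^ (c / 2) = X ^ (c / 2) * (q ^ 10) ^ (n - i) := by
      rw [hx, Real.mul_rpow hX0.le (by positivity), ← Real.rpow_mul (by norm_num)]
      congr 1
      rw [hq, ← Real.rpow_natCast, ← Real.rpow_natCast, ← Real.rpow_mul (by positivity),
        ← Real.rpow_mul (by norm_num)]
      congr 1
      push_cast
      ring
    rw [hxp]
    have e1 : w i * (F * (2 / w i) ^ 6 * (X ^ (c / 2) * (q ^ 10) ^ (n - i))) =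
        F * 64 * X ^ (c / 2) * ((q ^ 10) ^ (n - i) / w i ^ 5) := by
      have := (hw0 i).ne'
      field_simp
      ring
    rw [e1]
    have e2 : w i ^ 5 = (1 - q) ^ 5 * (q ^ (n - 1 - i)) ^ 5 := by
      rw [hw]
      simp only
      rw [mul_pow]
    have e3 : (q ^ 10) ^ (n - i) / w i ^ 5 ≤ q ^ (n - 1 - i) / (1 - q) ^ 5 := by
      rw [e2, div_le_div_iff₀ (by positivity) (by positivity)]
      have e4 : q ^ (n - 1 - i) * ((1 - q) ^ 5 * (q ^ (n - 1 - i)) ^ 5) =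
          q ^ (6 * (n - 1 - i)) * (1 - q) ^ 5 := by
        rw [← pow_mul]
        ring
      rw [e4, ← pow_mul]
      refine mul_le_mul_of_nonneg_right ?_ (by positivity)
      exact pow_le_pow_of_le_one hq0.le hq1.le (by omega)
    calc F * 64 * X ^ (c / 2) * ((q ^ 10) ^ (n - i) / w i ^ 5) ≤
          F * 64 * X ^ (c / 2) * (q ^ (n - 1 - i) / (1 - q) ^ 5) :=
          mul_le_mul_of_nonneg_left e3 (by positivity)
      _ = _ := by ring
  refine (Finset.sum_le_sum hterm).trans ?_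
  rw [← Finset.mul_sum]
  have h2 := mul_le_mul_of_nonneg_left (sum_geom_top hq0.le hq1 n)
    (show 0 ≤ F * 64 / (1 - q) ^ 5 * X ^ (c / 2) by positivity)
  refine h2.trans (le_of_eq ?_)
  unfold CFN
  rw [← hq, hF]
  field_simp

end

end Vale.Agent.P159.H692
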