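import Vale.Agent.P159.H692.Fn4
import Vale.Agent.P159.H864.Fn1
import Vale.Agent.P159.H864.Fou2

/-!
P159, helper692, FN part 5: FINE(b), lowering the mass of the fine modes at every source; assembly
from the abstract inputs.
-/

namespace Vale.Agent.P159.H692

open Finset Matrix MeasureTheory
open Vale.Agent.P159.TM.H104 (EM Ex Cv Lg li nh Gr)
open Vale.Agent.P159.H37
open Vale.Agent.P159.TM.Spec (V)
open Vale.Agent.P159.TM.SpecC (wT)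
open Vale.Agent.P159.H159 (GT gt_post gt_wM)
open Vale.Agent.P159.H462 (chm chm_prob)
open Vale.Agent.P159.H864 (Dr sum_Dr cellP_idem)

noncomputable section

variable {N : ℕ} [NeZero N]

/-- observation of the fine modes -/
def Pf (N l : ℕ) [NeZero N] (sg : ℝ) : Matrix (V N) (V N) ℝ := √sg • (1 - cellP N l)

lemma Qf_tr (l : ℕ) : (1 - cellP N l)ᵀ = 1 - cellP N l := by
  rw [Matrix.transpose_sub, Matrix.transpose_one, H864.cellP_tr]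

lemma Qf_idem {l : ℕ} (hl : l ∣ N) : (1 - cellP N l) * (1 - cellP N l) = 1 - cellP N l := by
  rw [Matrix.sub_mul, Matrix.mul_sub, Matrix.mul_sub, cellP_idem hl]
  simp

lemma Pf_tr (l : ℕ) (sg : ℝ) : (Pf N l sg)ᵀ = Pf N l sg := by
  unfold Pf
  rw [Matrix.transpose_smul, Qf_tr]

lemma Pf_gram {l : ℕ} (hl : l ∣ N) {sg : ℝ} (h : 0 ≤ sg) :
    (Pf N l sg)ᵀ * Pf N l sg = sg • (1 - cellP N l) := by
  rw [Pf_tr]
  unfold Pf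
  rw [Matrix.smul_mul, Matrix.mul_smul, smul_smul, Real.mul_self_sqrt h, Qf_idem hl]

lemma fine_Pf {l : ℕ} (hl : l ∣ N) (sg : ℝ) (g : V N → ℝ) :
    (1 - cellP N l) *ᵥ ((Pf N l sg)ᵀ *ᵥ g) = (Pf N l sg)ᵀ *ᵥ g := by
  rw [mulVec_mulVec, Pf_tr]
  unfold Pf
  rw [Matrix.mul_smul, Qf_idem hl]

/-- the noise of one step, controlled by the levels -/
theorem fine_eta {μ' : (V N → ℤ) → ℝ} (hμ : EM μ') (hE : Ev μ') {n p : ℕ} (hn : 2 ^ n ∣ N)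
    {sg t : ℝ} (hK : PK (post μ' (Pf N (2 ^ n) sg)))
    {C0 C1 κ c : ℝ} (hC0 : 0 ≤ C0) (hC1 : 0 ≤ C1) (hκ : 0 < κ) (hc : 0 < c) (hc1 : c ≤ 1)
    (ht : 0 < t) (htn : t * ((2 : ℝ) ^ n) ^ 2 ≤ 1) (hp : 1 < t * 4 ^ (p + 1))
    (hlev : ∀ i < n, ∀ j, i + 1 ≤ j → j ≤ p → t * ((2 : ℝ) ^ j) ^ 2 ≤ 1 →
      LevOK (post μ' (Pf N (2 ^ n) sg)) (Dr N (2 ^ i)) N (2 ^ i) (2 ^ j) t C0 C1 κ c)
    (J : V N → ℝ) {K0 U : ℝ} (hK0 : 1 ≤ K0) (hU : 0 ≤ U)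
    (h6 : M6 ((chm μ' J (Pf N (2 ^ n) sg)).map fun g => (Pf N (2 ^ n) sg)ᵀ *ᵥ g)
      (K0 * (t * (1 + U) ^ 2))) :
    eta μ' (Pf N (2 ^ n) sg) J ≤
      CFN C0 C1 κ c * K0 ^ 3 * ((1 + U) ^ 6 * (t * (N : ℝ) ^ 2)) * ((2 : ℝ) ^ n * √t) ^ (c / 2) := by
  set P := Pf N (2 ^ n) sg with hP
  set μ := post μ' P with hμd
  have hp' : EM μ := em_post hμ P
  have hep : Ev μ := ev_post hE P
  have hmap : Measurable fun g : V N → ℝ => Pᵀ *ᵥ g := by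
    refine measurable_pi_lambda _ fun x => ?_
    simp only [mulVec, dotProduct]
    fun_prop
  have : IsProbabilityMeasure (chm μ' J P) := chm_prob hμ J P
  have : IsProbabilityMeasure ((chm μ' J P).map fun g => Pᵀ *ᵥ g) :=
    Measure.isProbabilityMeasure_map hmap.aemeasurable
  have h1U : (1 : ℝ) ≤ (1 + U) ^ 2 := one_le_pow₀ (by linarith)
  have hτ : t ≤ K0 * (t * (1 + U) ^ 2) := by
    have h2 : t * 1 ≤ t * (1 + U) ^ 2 := mul_le_mul_of_nonneg_left h1U ht.le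
    nlinarith
  have hcore := (fn_core hp' hep hK hC0 hC1 hκ hc hc1 ht htn hp hlev h6 hτ).2
  have e1 : eta μ' P J = ∫ z, Rs μ ((2 : ℝ) • ((∑ i ∈ range n, Dr N (2 ^ i)) *ᵥ z))
      ∂((chm μ' J P).map fun g => Pᵀ *ᵥ g) := by
    rw [eta_eq hμ, sum_Dr]
    have hm : Measurable fun z : V N → ℝ => Rs μ ((2 : ℝ) • z) :=
      (continuous_Rs hp').measurable.comp (measurable_const_smul _)
    have hq : Measurable fun z : V N → ℝ => (1 - cellP N (2 ^ n)) *ᵥ z := by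
      refine measurable_pi_lambda _ fun x => ?_
      simp only [mulVec, dotProduct]
      fun_prop
    have hm2 : Measurable fun z : V N → ℝ => Rs μ ((2 : ℝ) • ((1 - cellP N (2 ^ n)) *ᵥ z)) :=
      hm.comp hq
    rw [integral_map hmap.aemeasurable hm.aestronglyMeasurable,
      integral_map hmap.aemeasurable hm2.aestronglyMeasurable]
    refine integral_congr_ae (Filter.Eventually.of_forall fun g => ?_)
    simp only
    rw [hP, fine_Pf hn]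
  rw [e1]
  refine hcore.trans (le_of_eq ?_)
  have e2 : K0 * (t * (1 + U) ^ 2) / t = K0 * (1 + U) ^ 2 := by
    field_simp
  rw [e2]
  ring

/-- the constant of `fine_core` -/
def CFB (C0 C1 κ c K0 CL : ℝ) : ℝ := 3 * (CFN C0 C1 κ c * K0 ^ 3 + 1) + 4 * CL

lemma CFN_nonneg {C0 C1 κ c : ℝ} (hC0 : 0 ≤ C0) (hC1 : 0 ≤ C1) (hκ : 0 < κ) (hc : 0 < c) :
    0 ≤ CFN C0 C1 κ c := by
  have hq1 : (2 : ℝ) ^ (-(c / 20)) < 1 :=
    Real.rpow_lt_one_of_one_lt_of_neg (by norm_num) (by linarith)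
  unfold CFN
  have : 0 < 1 - (2 : ℝ) ^ (-(c / 20)) := by linarith
  positivity

lemma num1 {A W S y : ℝ} (hA : 0 ≤ A) (hW : 1 ≤ W) (hS : 1 / 4 ≤ S) (hy : 0 ≤ y) :
    √(A * (W * S) * y ^ 2) ≤ 2 * ((A + 1) * (W * S) * y) := by
  have hW0 : 0 ≤ W := by linarith
  have hS0 : 0 ≤ S := by linarith
  refine Real.sqrt_le_iff.2 ⟨by positivity, ?_⟩
  have h4 : A ≤ (A + 1) ^ 2 := by nlinarith
  have h5 : W ≤ W ^ 2 := by nlinarith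
  have h6 : S ≤ 4 * S ^ 2 := by nlinarith
  have h7 : A * W ≤ (A + 1) ^ 2 * W ^ 2 := mul_le_mul h4 h5 hW0 (sq_nonneg _)
  have h8 : A * W * S ≤ (A + 1) ^ 2 * W ^ 2 * (4 * S ^ 2) := mul_le_mul h7 h6 hS0 (by positivity)
  calc A * (W * S) * y ^ 2 = (A * W * S) * y ^ 2 := by ring
    _ ≤ ((A + 1) ^ 2 * W ^ 2 * (4 * S ^ 2)) * y ^ 2 := mul_le_mul_of_nonneg_right h8 (sq_nonneg _)
    _ = (2 * ((A + 1) * (W * S) * y)) ^ 2 := by ring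

lemma num3 {CL u W v y S : ℝ} (hCL : 0 ≤ CL) (hu : 0 ≤ u) (huW : u ≤ W) (hv : 0 ≤ v) (hvy : v ≤ y)
    (hS : 1 / 4 ≤ S) : CL * (u * v) ≤ 4 * CL * (W * S) * y := by
  have h1 : u * v ≤ W * y := mul_le_mul huW hvy hv (hu.trans huW)
  have h2 : 0 ≤ W * y := (mul_nonneg hu hv).trans h1
  have h3 : W * y ≤ W * y * (4 * S) := le_mul_of_one_le_right h2 (by linarith)
  calc CL * (u * v) ≤ CL * (W * y * (4 * S)) := mul_le_mul_of_nonneg_left (h1.trans h3) hCL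
    _ = _ := by ring

lemma num2 {A CL R E Z : ℝ} (hA : 0 ≤ A) (hCL : 0 ≤ CL) (hR : 0 ≤ R) (hE : 0 ≤ E) (hZ : 0 ≤ Z) :
    (R + 1) * (A * Z) + 3 * E * ((A + 1) * Z) + 4 * CL * Z ≤
      (3 * (A + 1) + 4 * CL) * (R + E + 1) * Z := by
  have h7 : 0 ≤ CL * R := mul_nonneg hCL hR
  have h8 : 0 ≤ CL * E := mul_nonneg hCL hE
  have h9 : 0 ≤ A * R := mul_nonneg hA hR
  have key : (R + 1) * A + 3 * E * (A + 1) + 4 * CL ≤
      (3 * (A + 1) + 4 * CL) * (R + E + 1) := by nlinarith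
  have := mul_le_mul_of_nonneg_right key hZ
  calc (R + 1) * (A * Z) + 3 * E * ((A + 1) * Z) + 4 * CL * Z
      = ((R + 1) * A + 3 * E * (A + 1) + 4 * CL) * Z := by ring
    _ ≤ _ := this

/-- the linear term -/
lemma lin_term {μ' : (V N → ℤ) → ℝ} (hμ : EM μ') {l : ℕ} (hn : l ∣ N) {sg : ℝ} (hsg : 0 ≤ sg)
    (J m : V N → ℝ) {B : ℝ} (h' : ∑ x, (((1 - cellP N l) *ᵥ mn μ' J) x) ^ 2 ≤ B)
    (h : ∑ x, (((1 - cellP N l) *ᵥ m) x) ^ 2 ≤ B) :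
    Ex μ' J (li ((Pf N l sg)ᵀ *ᵥ (Pf N l sg *ᵥ m))) ≤ sg * B := by
  have h1 : (Pf N l sg)ᵀ *ᵥ (Pf N l sg *ᵥ m) = sg • ((1 - cellP N l) *ᵥ m) := by
    rw [mulVec_mulVec, Pf_gram hn hsg, smul_mulVec]
  have h2 : Ex μ' J (li ((Pf N l sg)ᵀ *ᵥ (Pf N l sg *ᵥ m))) =
      ((Pf N l sg)ᵀ *ᵥ (Pf N l sg *ᵥ m)) ⬝ᵥ mn μ' J := by
    rw [H789.Ex_li hμ]
    rfl
  rw [h2, h1, smul_dotProduct, smul_eq_mul]
  have h3 : ((1 - cellP N l) *ᵥ m) ⬝ᵥ mn μ' J =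
      ((1 - cellP N l) *ᵥ m) ⬝ᵥ ((1 - cellP N l) *ᵥ mn μ' J) := by
    conv_lhs => rw [← Qf_idem hn, ← mulVec_mulVec]
    rw [dotProduct_comm, dotProduct_mulVec, ← mulVec_transpose, Qf_tr, dotProduct_comm]
  rw [h3]
  refine mul_le_mul_of_nonneg_left ?_ hsg
  have h5 : ((1 - cellP N l) *ᵥ m) ⬝ᵥ ((1 - cellP N l) *ᵥ mn μ' J) ≤
      ∑ z, ((((1 - cellP N l) *ᵥ m) z) ^ 2 + (((1 - cellP N l) *ᵥ mn μ' J) z) ^ 2) / 2 := by
    unfold dotProduct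
    refine Finset.sum_le_sum fun z _ => ?_
    nlinarith [sq_nonneg (((1 - cellP N l) *ᵥ m) z - ((1 - cellP N l) *ᵥ mn μ' J) z)]
  rw [← Finset.sum_div, Finset.sum_add_distrib] at h5
  linarith

/-- the scalar side of the assembly: `S = t N²`, `x = 2ⁿ √t` -/
lemma num4 {n p : ℕ} {t c : ℝ} {N' : ℕ} (hpN : 2 ^ p ≤ N') (hc : 0 < c) (hc1 : c ≤ 1) (ht : 0 < t)
    (htn : t * ((2 : ℝ) ^ n) ^ 2 ≤ 1) (hp : 1 < t * 4 ^ (p + 1)) :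
    0 < ((2 : ℝ) ^ n * √t) ^ (c / 4) ∧ ((2 : ℝ) ^ n * √t) ^ (c / 4) ≤ 1 ∧
    ((2 : ℝ) ^ n * √t) ^ (c / 2) = (((2 : ℝ) ^ n * √t) ^ (c / 4)) ^ 2 ∧
    ((2 : ℝ) ^ n * √t) ^ 2 = t * ((2 : ℝ) ^ n) ^ 2 ∧
    ((2 : ℝ) ^ n * √t) ^ 2 ≤ ((2 : ℝ) ^ n * √t) ^ (c / 4) ∧ 1 / 4 ≤ t * (N' : ℝ) ^ 2 := by
  set x : ℝ := (2 : ℝ) ^ n * √t with hx
  have hst : 0 < √t := Real.sqrt_pos.2 ht
  have hx0 : 0 < x := by positivity
  have hx2 : x ^ 2 = t * ((2 : ℝ) ^ n) ^ 2 := by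
    rw [hx, mul_pow, Real.sq_sqrt ht.le]
    ring
  have hx1 : x ≤ 1 := by
    have h1 : x ^ 2 ≤ 1 := by rw [hx2]; exact htn
    exact (pow_le_one_iff_of_nonneg hx0.le (by norm_num)).1 h1
  refine ⟨Real.rpow_pos_of_pos hx0 _, Real.rpow_le_one hx0.le hx1 (by positivity), ?_, hx2, ?_, ?_⟩
  · rw [← Real.rpow_natCast, ← Real.rpow_mul hx0.le]
    congr 1
    push_cast
    ring
  · rw [← Real.rpow_natCast]
    refine Real.rpow_le_rpow_of_exponent_ge hx0 hx1 ?_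
    push_cast
    linarith
  · have h1 : ((2 : ℝ) ^ p) ≤ (N' : ℝ) := by exact_mod_cast hpN
    have h2 : (4 : ℝ) ^ p ≤ (N' : ℝ) ^ 2 := by
      have e4 : (4 : ℝ) ^ p = (2 ^ p) ^ 2 := by
        rw [← pow_mul, mul_comm p 2, pow_mul]
        norm_num
      rw [e4]
      exact pow_le_pow_left₀ (by positivity) h1 2
    have h3 := mul_le_mul_of_nonneg_left h2 ht.le
    rw [pow_succ] at hp
    linarith

/-- **FINE(b), assembly**: prior `μ'`, posterior after the observation of the fine modes -/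
theorem fine_core {μ' : (V N → ℤ) → ℝ} (hμ : EM μ') (hG : GT μ') (hE : Ev μ') {n p : ℕ}
    (hn : 2 ^ n ∣ N) (hpN : 2 ^ p ≤ N) {sg t : ℝ} (hsg : 0 ≤ sg) (hsgt : sg ≤ t)
    (hK : PK (post μ' (Pf N (2 ^ n) sg)))
    {C0 C1 κ c : ℝ} (hC0 : 0 ≤ C0) (hC1 : 0 ≤ C1) (hκ : 0 < κ) (hc : 0 < c) (hc1 : c ≤ 1)
    (ht : 0 < t) (htn : t * ((2 : ℝ) ^ n) ^ 2 ≤ 1) (hp : 1 < t * 4 ^ (p + 1))
    (hlev : ∀ i < n, ∀ j, i + 1 ≤ j → j ≤ p → t * ((2 : ℝ) ^ j) ^ 2 ≤ 1 →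
      LevOK (post μ' (Pf N (2 ^ n) sg)) (Dr N (2 ^ i)) N (2 ^ i) (2 ^ j) t C0 C1 κ c)
    (J : V N → ℝ) {K0 CL U : ℝ} (hK0 : 1 ≤ K0) (hCL : 0 ≤ CL) (hU : 0 ≤ U)
    (h6 : M6 ((chm μ' J (Pf N (2 ^ n) sg)).map fun g => (Pf N (2 ^ n) sg)ᵀ *ᵥ g)
      (K0 * (t * (1 + U) ^ 2)))
    (hl' : ∑ x, (((1 - cellP N (2 ^ n)) *ᵥ mn μ' J) x) ^ 2 ≤
      CL * ((2 : ℝ) ^ n) ^ 2 * (1 + U) ^ 2)
    (hl : ∑ x, (((1 - cellP N (2 ^ n)) *ᵥ mn (post μ' (Pf N (2 ^ n) sg)) J) x) ^ 2 ≤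
      CL * ((2 : ℝ) ^ n) ^ 2 * (1 + U) ^ 2) :
    0 ≤ (Lg μ' J - Lg μ' 0) -
      (Lg (post μ' (Pf N (2 ^ n) sg)) J - Lg (post μ' (Pf N (2 ^ n) sg)) 0) ∧
    (Lg μ' J - Lg μ' 0) -
      (Lg (post μ' (Pf N (2 ^ n) sg)) J - Lg (post μ' (Pf N (2 ^ n) sg)) 0) ≤
      CFB C0 C1 κ c K0 CL *
        (Rs (post μ' (Pf N (2 ^ n) sg)) ((2 : ℝ) • J) +
          Real.exp (Tq (post μ' (Pf N (2 ^ n) sg)) J / 2) + 1) *
        ((1 + U) ^ 6 * (t * (N : ℝ) ^ 2)) * ((2 : ℝ) ^ n * √t) ^ (c / 4) := by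
  have hη := fine_eta hμ hE hn (sg := sg) hK hC0 hC1 hκ hc hc1 ht htn hp hlev J hK0 hU h6
  set P := Pf N (2 ^ n) sg with hP
  set μ := post μ' P with hμd
  have hp' : EM μ := em_post hμ P
  have hep : Ev μ := ev_post hE P
  have hmono := Lg_mass_mono hμ hG hE P hK J
  have hfb := fb_Lg hμ hG hE P hK J
  rw [← hμd] at hmono hfb
  refine ⟨by linarith, ?_⟩
  set A := CFN C0 C1 κ c * K0 ^ 3 with hA
  have hCF := CFN_nonneg hC0 hC1 hκ hc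
  have hA0 : 0 ≤ A := by positivity
  obtain ⟨hy0, hy1, hyy, hx2, hx2y, hS4⟩ := num4 hpN hc hc1 ht htn hp
  rw [hyy] at hη
  set x : ℝ := (2 : ℝ) ^ n * √t with hx
  set y : ℝ := x ^ (c / 4) with hy
  set S : ℝ := t * (N : ℝ) ^ 2 with hS
  have hS0 : 0 < S := by linarith
  set W : ℝ := (1 + U) ^ 6 with hW
  have hW1 : 1 ≤ W := one_le_pow₀ (by linarith)
  have hW0 : 0 < W := by linarith
  have hη0 : 0 ≤ A * (W * S) * y ^ 2 := by positivity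
  -- the three terms
  have hR0 : 0 ≤ Rs μ ((2 : ℝ) • J) := H789.Rs_nonneg hp' hep hK _
  have hT0 : 0 ≤ Tq μ J := H789.Tq_nonneg hp' hep hK J
  have t1 : (Rs μ ((2 : ℝ) • J) + 1) * eta μ' P J ≤
      (Rs μ ((2 : ℝ) • J) + 1) * (A * (W * S) * y) := by
    refine mul_le_mul_of_nonneg_left (hη.trans ?_) (by linarith)
    have : y ^ 2 ≤ y := by nlinarith
    exact mul_le_mul_of_nonneg_left this (by positivity)
  have t2 : √(2 * (Real.exp (Tq μ J) - 1)) * √(eta μ' P J) ≤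
      3 * Real.exp (Tq μ J / 2) * ((A + 1) * (W * S) * y) := by
    have h1 : √(2 * (Real.exp (Tq μ J) - 1)) ≤ (3 / 2) * Real.exp (Tq μ J / 2) := by
      refine Real.sqrt_le_iff.2 ⟨by positivity, ?_⟩
      have h2 : Real.exp (Tq μ J / 2) ^ 2 = Real.exp (Tq μ J) := by
        rw [← Real.exp_nat_mul]
        congr 1
        push_cast
        ring
      rw [mul_pow, h2]
      have := Real.exp_pos (Tq μ J)
      linarith
    have h3 : √(eta μ' P J) ≤ 2 * ((A + 1) * (W * S) * y) :=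
      (Real.sqrt_le_sqrt hη).trans (num1 hA0 hW1 hS4 hy0.le)
    refine (mul_le_mul h1 h3 (Real.sqrt_nonneg _) (by positivity)).trans (le_of_eq (by ring))
  have t3 : Ex μ' J (li (Pᵀ *ᵥ (P *ᵥ mn μ J))) ≤ 4 * CL * (W * S) * y := by
    have h6 : (1 + U) ^ 2 ≤ W := pow_le_pow_right₀ (by linarith) (by norm_num)
    have h7 := (lin_term hμ hn hsg J (mn μ J) hl' hl).trans
      (mul_le_mul_of_nonneg_right hsgt (by positivity))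
    have h8 : t * (CL * ((2 : ℝ) ^ n) ^ 2 * (1 + U) ^ 2) = CL * ((1 + U) ^ 2 * x ^ 2) := by
      rw [hx2]; ring
    rw [h8] at h7
    exact h7.trans (num3 hCL (sq_nonneg _) h6 (sq_nonneg _) hx2y hS4)
  have hE0 := Real.exp_pos (Tq μ J / 2)
  have hfin : (Lg μ' J - Lg μ' 0) - (Lg μ J - Lg μ 0) ≤
      (Rs μ ((2 : ℝ) • J) + 1) * (A * (W * S) * y) +
      3 * Real.exp (Tq μ J / 2) * ((A + 1) * (W * S) * y) + 4 * CL * (W * S) * y := by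
    linarith
  refine hfin.trans ?_
  unfold CFB
  rw [← hA]
  have hWSy : 0 ≤ W * S * y := by positivity
  have key := num2 hA0 hCL hR0 hE0.le hWSy
  calc (Rs μ ((2 : ℝ) • J) + 1) * (A * (W * S) * y) +
      3 * Real.exp (Tq μ J / 2) * ((A + 1) * (W * S) * y) + 4 * CL * (W * S) * y
      = (Rs μ ((2 : ℝ) • J) + 1) * (A * (W * S * y)) +
        3 * Real.exp (Tq μ J / 2) * ((A + 1) * (W * S * y)) + 4 * CL * (W * S * y) := by ring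
    _ ≤ _ := key
    _ = _ := by ring

end

end Vale.Agent.P159.H692
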