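import Vale.Agent.P159.H692.Fn5
import Vale.Agent.P159.H864.Fn7
import Vale.Agent.P159.H340.M6c
import Vale.Agent.P159.H159.Cell

/-!
P159, helper692, FN part 6: **FINE(b) on the torus**, integer model, every source, every coarse mass.
-/

namespace Vale.Agent.P159.H692

open Finset Matrix MeasureTheory
open Vale.Agent.P159.TM.H104 (EM Ex Cv Lg li nh Gr)
open Vale.Agent.P159.H37
open Vale.Agent.P159.TM.Spec (V)
open Vale.Agent.P159.TM.SpecC (wT)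
open Vale.Agent.P159.H159 (GT gt_post gt_wM)
open Vale.Agent.P159.H864 (MC Dr qf_MC_ge qf_MC_le MC_tr MC_fix ne_div)

noncomputable section

lemma two_pow_le {N p : ℕ} [NeZero N] (h : 2 ^ p ∣ N) : 2 ^ p ≤ N :=
  Nat.le_of_dvd (NeZero.pos N) h

/-- **FINE(b)**: lowering the mass of the fine modes (zero mean on the cells of side `2ⁿ`) from `t`
to `s`, any mass form on the cell functions, every source -/
theorem fine_b {b : ℝ} (hb : 0 ≤ b) : ∃ C c : ℝ, 0 ≤ C ∧ 0 < c ∧ c ≤ 1 ∧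
    ∀ (N : ℕ) [NeZero N] (n p : ℕ), 2 ^ n ∣ N → 2 ^ p ∣ N →
    ∀ t : ℝ, 0 < t → t * ((2 : ℝ) ^ n) ^ 2 ≤ 1 → 1 < t * 4 ^ (p + 1) →
    ∀ (m0 sg : ℝ) (M M' : Matrix (V N) (V N) ℝ), 0 < m0 → 0 ≤ sg → sg ≤ t → Mᵀ = M →
      (∀ u : V N → ℝ, m0 * ∑ x, u x ^ 2 ≤ qf M' u) →
      (∀ u : V N → ℝ, qf M u ≤ t * ∑ x, u x ^ 2) →
      (∀ y : V N → ℝ, cellP N (2 ^ n) *ᵥ y = 0 → M *ᵥ y = t • y) →
      M = M' + sg • (1 - cellP N (2 ^ n)) →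
    ∀ (J : V N → ℝ) (U : ℝ),
      Lg (wM (wT b N) M') ((2 : ℝ) • J) - Lg (wM (wT b N) M') 0 ≤ U →
    0 ≤ (Lg (wM (wT b N) M') J - Lg (wM (wT b N) M') 0) -
        (Lg (wM (wT b N) M) J - Lg (wM (wT b N) M) 0) ∧
    (Lg (wM (wT b N) M') J - Lg (wM (wT b N) M') 0) -
        (Lg (wM (wT b N) M) J - Lg (wM (wT b N) M) 0) ≤
      C * (Rs (wM (wT b N) M) ((2 : ℝ) • J) + Real.exp (Tq (wM (wT b N) M) J / 2) + 1) *
        ((1 + U) ^ 6 * (t * (N : ℝ) ^ 2)) * ((2 : ℝ) ^ n * √t) ^ c := by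
  obtain ⟨C0, C1, κ, c, hC0, hC1, hκ, hc, hc1, hlev⟩ := H864.levok_gen hb
  set K0 : ℝ := 4 * (b + 14) ^ 2 with hK0
  have hK01 : 1 ≤ K0 := by nlinarith
  have hCF := CFN_nonneg hC0 hC1 hκ hc
  have hCFB : 0 ≤ CFB C0 C1 κ c K0 ((2 + b) ^ 2) := by
    unfold CFB
    positivity
  refine ⟨CFB C0 C1 κ c K0 ((2 + b) ^ 2), c / 4, hCFB, by positivity, by linarith, ?_⟩
  intro N _ n p hn hpN t ht htn hp m0 sg M M' hm0 hsg hsgt hMs hM' hMt hfix hMM J U hU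
  have hE := H864.em_wTM hb hm0 hM'
  have hG : GT (wM (wT b N) M') := gt_wM (H789.wT_le hb) hm0 hM'
  have hEv : Ev (wM (wT b N) M') := H864.ev_wTM M'
  have hMs' : M'ᵀ = M' := by
    have h1 : M' = M - sg • (1 - cellP N (2 ^ n)) := by rw [hMM]; simp
    rw [h1, Matrix.transpose_sub, Matrix.transpose_smul, Qf_tr, hMs]
  have hpost : post (wM (wT b N) M') (Pf N (2 ^ n) sg) = wM (wT b N) M := by
    rw [post_wM, Pf_gram hn hsg, ← hMM]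
  have hMl : ∀ u : V N → ℝ, m0 * ∑ x, u x ^ 2 ≤ qf M u := fun u => by
    refine (hM' u).trans ?_
    have h1 : qf M u = qf M' u + ∑ i, (Pf N (2 ^ n) sg *ᵥ u) i ^ 2 := by
      rw [← qf_gram, Pf_gram hn hsg, hMM]
      unfold qf
      rw [← Finset.sum_add_distrib]
      refine Finset.sum_congr rfl fun x _ => ?_
      rw [← Finset.sum_add_distrib]
      exact Finset.sum_congr rfl fun y _ => by rw [Matrix.add_apply]; ring
    rw [h1]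
    have : 0 ≤ ∑ i, (Pf N (2 ^ n) sg *ᵥ u) i ^ 2 := Finset.sum_nonneg fun _ _ => sq_nonneg _
    linarith
  have hK : PK (wM (wT b N) M) := H789.pk_wM_wT' hb hm0 hMl
  have hU0 : 0 ≤ U := by
    have := H340.lg_zero_le hE hEv ((2 : ℝ) • J)
    linarith
  have hmono := Lg_mass_mono hE hG hEv (Pf N (2 ^ n) sg) (hpost ▸ hK) ((2 : ℝ) • J)
  rw [hpost] at hmono
  have h6 := H340.m6_fine_chm hb hn hMs' hm0 hM' ht hsg hsgt (by exact_mod_cast htn)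
    (Pf_gram hn hsg) J hU
  have e6 : 4 * (b + 14) ^ 2 * t * (1 + U) ^ 2 = K0 * (t * (1 + U) ^ 2) := by rw [hK0]; ring
  rw [e6] at h6
  have hq : (2 * U + b) ^ 2 ≤ (2 + b) ^ 2 * (1 + U) ^ 2 := by
    rw [← mul_pow]
    refine pow_le_pow_left₀ (by linarith) ?_ 2
    nlinarith
  have hm' := H340.fine_mean hb hn hMs' hm0 hM' J hU
  have hm := H340.fine_mean hb hn hMs hm0 hMl J (hmono.trans hU)
  have hb2 : ((2 ^ n : ℕ) : ℝ) ^ 2 * (2 * U + b) ^ 2 ≤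
      (2 + b) ^ 2 * ((2 : ℝ) ^ n) ^ 2 * (1 + U) ^ 2 := by
    push_cast
    have h1 := mul_le_mul_of_nonneg_left hq (sq_nonneg ((2 : ℝ) ^ n))
    linarith
  have hmain := fine_core hE hG hEv hn (two_pow_le hpN) hsg hsgt (hpost ▸ hK) hC0 hC1 hκ hc hc1 ht
    htn hp (fun i hi j hij hjp htj => hpost ▸ hlev N i j n hij (by omega)
      ((pow_dvd_pow 2 hjp).trans hpN) hn t ht htj m0 M hm0 hMs hMl hMt hfix)
    J hK01 (by positivity) hU0 h6 (hm'.trans hb2) (by rw [hpost]; exact hm.trans hb2)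
  rw [hpost] at hmain
  exact hmain

/-- masses of the cells: prior `s (1-P) + τ P`, posterior `t (1-P) + τ P` -/
lemma MC_add_fine (N l : ℕ) [NeZero N] (s t τ : ℝ) :
    MC N l t τ = MC N l s τ + (t - s) • (1 - cellP N l) := by
  unfold MC
  rw [sub_smul]
  abel

lemma qf_MC_min {N l : ℕ} [NeZero N] (hl : l ∣ N) {s τ : ℝ} (u : V N → ℝ) :
    min s τ * ∑ x, u x ^ 2 ≤ qf (MC N l s τ) u := by
  have := ne_div hl
  have h1 : MC N l s τ = min s τ • (1 : Matrix (V N) (V N) ℝ) +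
      ((s - min s τ) • (1 - cellP N l) + (τ - min s τ) • cellP N l) := by
    unfold MC
    rw [sub_smul, sub_smul, smul_sub (min s τ)]
    abel
  have hQ : qf (1 - cellP N l) u = ∑ x, ((1 - cellP N l) *ᵥ u) x ^ 2 := by
    have h2 := qf_gram (1 - cellP N l) u
    rw [Qf_tr, Qf_idem hl] at h2
    exact h2
  have hP : qf (cellP N l) u = ∑ x, (cob N l *ᵥ u) x ^ 2 := by
    have h2 := qf_gram (cob N l) u
    exact h2
  have hadd : ∀ A B : Matrix (V N) (V N) ℝ, qf (A + B) u = qf A u + qf B u := fun A B => by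
    unfold qf
    rw [← Finset.sum_add_distrib]
    refine Finset.sum_congr rfl fun x _ => ?_
    rw [← Finset.sum_add_distrib]
    exact Finset.sum_congr rfl fun y _ => by rw [Matrix.add_apply]; ring
  rw [h1, hadd, hadd, qf_smul_one, H864.qf_smul_mat, H864.qf_smul_mat, hQ, hP]
  have e1 : 0 ≤ s - min s τ := sub_nonneg.2 (min_le_left _ _)
  have e2 : 0 ≤ τ - min s τ := sub_nonneg.2 (min_le_right _ _)
  have e3 : 0 ≤ ∑ x, ((1 - cellP N l) *ᵥ u) x ^ 2 := Finset.sum_nonneg fun _ _ => sq_nonneg _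
  have e4 : 0 ≤ ∑ x, (cob N l *ᵥ u) x ^ 2 := Finset.sum_nonneg fun _ _ => sq_nonneg _
  nlinarith [mul_nonneg e1 e3, mul_nonneg e2 e4]

/-- **FINE(b), cell masses** -/
theorem fine_b_MC {b : ℝ} (hb : 0 ≤ b) : ∃ C c : ℝ, 0 ≤ C ∧ 0 < c ∧ c ≤ 1 ∧
    ∀ (N : ℕ) [NeZero N] (n p : ℕ), 2 ^ n ∣ N → 2 ^ p ∣ N →
    ∀ t : ℝ, 0 < t → t * ((2 : ℝ) ^ n) ^ 2 ≤ 1 → 1 < t * 4 ^ (p + 1) →
    ∀ s τ : ℝ, 0 < s → s ≤ t → 0 < τ → τ ≤ t →
    ∀ (J : V N → ℝ) (U : ℝ),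
      Lg (wM (wT b N) (MC N (2 ^ n) s τ)) ((2 : ℝ) • J) -
        Lg (wM (wT b N) (MC N (2 ^ n) s τ)) 0 ≤ U →
    0 ≤ (Lg (wM (wT b N) (MC N (2 ^ n) s τ)) J - Lg (wM (wT b N) (MC N (2 ^ n) s τ)) 0) -
        (Lg (wM (wT b N) (MC N (2 ^ n) t τ)) J - Lg (wM (wT b N) (MC N (2 ^ n) t τ)) 0) ∧
    (Lg (wM (wT b N) (MC N (2 ^ n) s τ)) J - Lg (wM (wT b N) (MC N (2 ^ n) s τ)) 0) -
        (Lg (wM (wT b N) (MC N (2 ^ n) t τ)) J - Lg (wM (wT b N) (MC N (2 ^ n) t τ)) 0) ≤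
      C * (Rs (wM (wT b N) (MC N (2 ^ n) t τ)) ((2 : ℝ) • J) +
          Real.exp (Tq (wM (wT b N) (MC N (2 ^ n) t τ)) J / 2) + 1) *
        ((1 + U) ^ 6 * (t * (N : ℝ) ^ 2)) * ((2 : ℝ) ^ n * √t) ^ c := by
  obtain ⟨C, c, hC, hc, hc1, h⟩ := fine_b hb
  refine ⟨C, c, hC, hc, hc1, ?_⟩
  intro N _ n p hn hpN t ht htn hp s τ hs hst hτ hτt J U hU
  have := ne_div hn
  exact h N n p hn hpN t ht htn hp (min s τ) (t - s) (MC N (2 ^ n) t τ) (MC N (2 ^ n) s τ)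
    (lt_min hs hτ) (sub_nonneg.2 hst) (by linarith) (MC_tr N _ t τ) (fun u => qf_MC_min hn u)
    (fun u => qf_MC_le hn hτt u) (fun y hy => MC_fix t τ hy) (MC_add_fine N _ s t τ) J U hU

/-- **FINE(b), scalar prior**: `wt N b τ` against the mass `t (1-P) + τ P` -/
theorem fine_b_wt {b : ℝ} (hb : 0 ≤ b) : ∃ C c : ℝ, 0 ≤ C ∧ 0 < c ∧ c ≤ 1 ∧
    ∀ (N : ℕ) [NeZero N] (n p : ℕ), 2 ^ n ∣ N → 2 ^ p ∣ N →
    ∀ t : ℝ, 0 < t → t * ((2 : ℝ) ^ n) ^ 2 ≤ 1 → 1 < t * 4 ^ (p + 1) →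
    ∀ τ : ℝ, 0 < τ → τ ≤ t →
    ∀ (J : V N → ℝ) (U : ℝ), Lg (wt N b τ) ((2 : ℝ) • J) - Lg (wt N b τ) 0 ≤ U →
    0 ≤ (Lg (wt N b τ) J - Lg (wt N b τ) 0) -
        (Lg (wM (wT b N) (MC N (2 ^ n) t τ)) J - Lg (wM (wT b N) (MC N (2 ^ n) t τ)) 0) ∧
    (Lg (wt N b τ) J - Lg (wt N b τ) 0) -
        (Lg (wM (wT b N) (MC N (2 ^ n) t τ)) J - Lg (wM (wT b N) (MC N (2 ^ n) t τ)) 0) ≤
      C * (Rs (wM (wT b N) (MC N (2 ^ n) t τ)) ((2 : ℝ) • J) +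
          Real.exp (Tq (wM (wT b N) (MC N (2 ^ n) t τ)) J / 2) + 1) *
        ((1 + U) ^ 6 * (t * (N : ℝ) ^ 2)) * ((2 : ℝ) ^ n * √t) ^ c := by
  obtain ⟨C, c, hC, hc, hc1, h⟩ := fine_b_MC hb
  refine ⟨C, c, hC, hc, hc1, ?_⟩
  intro N _ n p hn hpN t ht htn hp τ hτ hτt J U hU
  have h1 := h N n p hn hpN t ht htn hp τ τ hτ hτt hτ hτt J U
  rw [H864.MC_self N (2 ^ n) τ] at h1
  exact h1 hU

end

end Vale.Agent.P159.H692
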