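import Vale.Agent.P159.H692.Fn6
import Vale.Agent.P159.H159.FineN

/-!
P159, helper692, FN part 7: **FINE(b) in the neutral model** (limit of the mass of the constants).
-/

namespace Vale.Agent.P159.H692

open Finset Matrix MeasureTheory Filter Topology
open Vale.Agent.P159.TM.H104 (EM Ex Cv Lg li nh Gr)
open Vale.Agent.P159.H37
open Vale.Agent.P159.TM.Spec (V)
open Vale.Agent.P159.TM.SpecC (wT)
open Vale.Agent.P159.H963 (GrI pin ntr nM GW MF gw_wT nwt nMC)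
open Vale.Agent.P159.H159 (Ms lim_Ex lim_Gm MasN)
open Vale.Agent.P159.H864 (MC)

noncomputable section

section lim

variable {V : Type} [Fintype V] [DecidableEq V]

lemma grI_exp {u : V → ℝ} (hu : H963.Neu u) : GrI fun h : V → ℤ => Real.exp (li u h) := by
  intro h n
  simp only [H963.grI_li hu h n]

/-- **limit of the free energies** at neutral sources -/
theorem lim_Lg [Nonempty V] {w : (V → ℤ) → ℝ} (hw : GW w) {M : Matrix V V ℝ} {m : ℝ}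
    (hM : MF M m) (x₀ : V) {J : V → ℝ} (hJ : H963.Neu J) :
    Tendsto (fun s : ℝ => Lg (wM w (Ms M m s)) J - Lg (wM w (Ms M m s)) 0) (𝓝[>] 0)
      (𝓝 (Lg (nM w M m x₀) J - Lg (nM w M m x₀) 0)) := by
  have hE := hw.em_nM hM x₀
  have h1 := lim_Ex hw.grd hw.nn hM.symm hM.row hE (F := fun h => Real.exp (li J h))
    (fun h => (Real.exp_pos _).le) (grI_exp hJ) (Gr.exp_li J)
  have h2 : Ex (nM w M m x₀) 0 (fun h => Real.exp (li J h)) =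
      Real.exp (Lg (nM w M m x₀) J - Lg (nM w M m x₀) 0) := by
    have := H340.ex_exp_li hE 0 J
    rwa [zero_add] at this
  rw [h2] at h1
  have h3 := (Real.continuousAt_log (Real.exp_pos
    (Lg (nM w M m x₀) J - Lg (nM w M m x₀) 0)).ne').tendsto.comp h1
  rw [Real.log_exp] at h3
  refine h3.congr' ?_
  filter_upwards [self_mem_nhdsWithin] with s hs
  have hs : 0 < s := hs
  have h4 := H340.ex_exp_li (hw.em_wM (H159.MF.Ms hM hs)) 0 J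
  rw [zero_add] at h4
  simp only [Function.comp_apply]
  rw [h4, Real.log_exp]

lemma Neu_two {J : V → ℝ} (hJ : H963.Neu J) : H963.Neu ((2 : ℝ) • J) := by
  unfold H963.Neu at *
  simp only [Pi.smul_apply, smul_eq_mul]
  rw [← Finset.mul_sum, hJ, mul_zero]

/-- limit of `R` -/
theorem lim_Rs [Nonempty V] {w : (V → ℤ) → ℝ} (hw : GW w) {M : Matrix V V ℝ} {m : ℝ}
    (hM : MF M m) (x₀ : V) {J : V → ℝ} (hJ : H963.Neu J) :
    Tendsto (fun s : ℝ => Rs (wM w (Ms M m s)) J) (𝓝[>] 0) (𝓝 (Rs (nM w M m x₀) J)) := by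
  have h1 := (lim_Lg hw hM x₀ hJ).sub ((lim_Gm hw hM x₀ hJ).div_const 2)
  exact h1

/-- limit of `T` -/
theorem lim_Tq [Nonempty V] {w : (V → ℤ) → ℝ} (hw : GW w) {M : Matrix V V ℝ} {m : ℝ}
    (hM : MF M m) (x₀ : V) {J : V → ℝ} (hJ : H963.Neu J) :
    Tendsto (fun s : ℝ => Tq (wM w (Ms M m s)) J) (𝓝[>] 0) (𝓝 (Tq (nM w M m x₀) J)) := by
  have h1 := (lim_Lg hw hM x₀ (Neu_two hJ)).sub ((lim_Lg hw hM x₀ hJ).const_mul 4)
  have e : ∀ μ : (V → ℤ) → ℝ, (Lg μ ((2 : ℝ) • J) - Lg μ 0) - 4 * (Lg μ J - Lg μ 0) = Tq μ J :=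
    fun μ => by
      unfold Tq
      ring
  simpa only [e] using h1

end lim

section tor

variable {N : ℕ} [NeZero N]

lemma sum_of_cellP {l : ℕ} (hl : l ∣ N) {y : V N → ℝ} (hy : cellP N l *ᵥ y = 0) :
    ∑ x, y x = 0 := by
  have h1 : (fun _ => (1 : ℝ)) ⬝ᵥ y = 0 := by
    have h2 : cellP N l *ᵥ (fun _ : V N => (1 : ℝ)) = fun _ => 1 := by
      have := H864.ne_div hl
      exact H864.cellP_one hl
    have h3 : (fun _ : V N => (1 : ℝ)) ⬝ᵥ y = (cellP N l *ᵥ (fun _ : V N => (1 : ℝ))) ⬝ᵥ y := by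
      rw [h2]
    rw [h3, dotProduct_comm, dotProduct_mulVec, ← mulVec_transpose, H864.cellP_tr, hy,
      zero_dotProduct]
  simpa [dotProduct] using h1

lemma Ms_mulVec (M : Matrix (V N) (V N) ℝ) (m s : ℝ) {y : V N → ℝ} (hy : ∑ x, y x = 0) :
    Ms M m s *ᵥ y = M *ᵥ y := by
  funext x
  unfold Ms
  simp only [mulVec, dotProduct, H963.ntr_apply, sub_mul, Finset.sum_sub_distrib]
  rw [← Finset.mul_sum, hy, mul_zero, sub_zero]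

lemma Ms_add (M A : Matrix (V N) (V N) ℝ) (m s : ℝ) : Ms (M + A) m s = Ms M m s + A := by
  ext x y
  unfold Ms
  rw [Matrix.add_apply, H963.ntr_apply, H963.ntr_apply, Matrix.add_apply]
  ring

/-- **FINE(b), neutral model** -/
theorem fine_b_N {b : ℝ} (hb : 0 ≤ b) : ∃ C c : ℝ, 0 ≤ C ∧ 0 < c ∧ c ≤ 1 ∧
    ∀ (N : ℕ) [NeZero N] (n p : ℕ), 2 ^ n ∣ N → 2 ^ p ∣ N →
    ∀ t : ℝ, 0 < t → t * ((2 : ℝ) ^ n) ^ 2 ≤ 1 → 1 < t * 4 ^ (p + 1) →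
    ∀ (a m sg : ℝ) (M M' : Matrix (V N) (V N) ℝ), 0 ≤ sg → sg ≤ t → MasN t a M' m M m →
      (∀ y : V N → ℝ, cellP N (2 ^ n) *ᵥ y = 0 → M *ᵥ y = t • y) →
      M = M' + sg • (1 - cellP N (2 ^ n)) →
    ∀ (x₀ : V N) (J : V N → ℝ), H963.Neu J → ∀ U : ℝ,
      Lg (nM (wT b N) M' m x₀) ((2 : ℝ) • J) - Lg (nM (wT b N) M' m x₀) 0 ≤ U →
    0 ≤ (Lg (nM (wT b N) M' m x₀) J - Lg (nM (wT b N) M' m x₀) 0) -
        (Lg (nM (wT b N) M m x₀) J - Lg (nM (wT b N) M m x₀) 0) ∧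
    (Lg (nM (wT b N) M' m x₀) J - Lg (nM (wT b N) M' m x₀) 0) -
        (Lg (nM (wT b N) M m x₀) J - Lg (nM (wT b N) M m x₀) 0) ≤
      C * (Rs (nM (wT b N) M m x₀) ((2 : ℝ) • J) + Real.exp (Tq (nM (wT b N) M m x₀) J / 2) + 1) *
        ((1 + U) ^ 6 * (t * (N : ℝ) ^ 2)) * ((2 : ℝ) ^ n * √t) ^ c := by
  obtain ⟨C, c, hC, hc, hc1, h⟩ := fine_b hb
  refine ⟨C, c, hC, hc, hc1, ?_⟩
  intro N _ n p hn hpN t ht htn hp a m sg M M' hsg hsgt hMas hfix hMM x₀ J hJ U hU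
  have hw := gw_wT (N := N) hb
  have l1 := lim_Lg hw hMas.mf0 x₀ hJ
  have l2 := lim_Lg hw hMas.mf1 x₀ hJ
  have l3 := lim_Rs hw hMas.mf1 x₀ (Neu_two hJ)
  have l4 := lim_Tq hw hMas.mf1 x₀ hJ
  have l5 := lim_Lg hw hMas.mf0 x₀ (Neu_two hJ)
  have hU0 : 0 ≤ Lg (nM (wT b N) M' m x₀) ((2 : ℝ) • J) - Lg (nM (wT b N) M' m x₀) 0 := by
    have := H340.lg_zero_le (hw.em_nM hMas.mf0 x₀) (hw.ev_nM M' m x₀) ((2 : ℝ) • J)
    linarith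
  have hst : 0 < √t := Real.sqrt_pos.2 ht
  have hx0 : 0 < ((2 : ℝ) ^ n * √t) ^ c := Real.rpow_pos_of_pos (by positivity) _
  have hR0 : 0 ≤ Rs (nM (wT b N) M m x₀) ((2 : ℝ) • J) :=
    H789.Rs_nonneg (hw.em_nM hMas.mf1 x₀) (hw.ev_nM M m x₀) (hw.pk_nM hMas.mf1 x₀) _
  have hev : ∀ᶠ s in 𝓝[>] (0 : ℝ),
      0 ≤ (Lg (wM (wT b N) (Ms M' m s)) J - Lg (wM (wT b N) (Ms M' m s)) 0) -
        (Lg (wM (wT b N) (Ms M m s)) J - Lg (wM (wT b N) (Ms M m s)) 0) ∧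
      (Lg (wM (wT b N) (Ms M' m s)) J - Lg (wM (wT b N) (Ms M' m s)) 0) -
        (Lg (wM (wT b N) (Ms M m s)) J - Lg (wM (wT b N) (Ms M m s)) 0) ≤
      C * (Rs (wM (wT b N) (Ms M m s)) ((2 : ℝ) • J) +
          Real.exp (Tq (wM (wT b N) (Ms M m s)) J / 2) + 1) *
        ((1 + (Lg (wM (wT b N) (Ms M' m s)) ((2 : ℝ) • J) - Lg (wM (wT b N) (Ms M' m s)) 0)) ^ 6 *
          (t * (N : ℝ) ^ 2)) * ((2 : ℝ) ^ n * √t) ^ c := by
    filter_upwards [hMas.ev ht] with s hs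
    refine h N n p hn hpN t ht htn hp s sg (Ms M m s) (Ms M' m s) hs.1 hsg hsgt hs.2.s1
      hs.2.lo hs.2.up (fun y hy => ?_) ?_ J _ le_rfl
    · rw [Ms_mulVec M m s (sum_of_cellP hn hy), hfix y hy]
    · rw [hMM, Ms_add]
  constructor
  · exact ge_of_tendsto (l1.sub l2) (hev.mono fun s hs => hs.1)
  · have hrhs := (((((l3.add ((Real.continuous_exp.tendsto _).comp (l4.div_const 2))).add_const
      1).const_mul C).mul (((l5.const_add 1).pow 6).mul_const (t * (N : ℝ) ^ 2))).mul_const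
      (((2 : ℝ) ^ n * √t) ^ c))
    have hle := le_of_tendsto_of_tendsto (l1.sub l2) hrhs (hev.mono fun s hs => hs.2)
    refine hle.trans ?_
    refine mul_le_mul_of_nonneg_right ?_ hx0.le
    refine mul_le_mul_of_nonneg_left ?_ (by positivity)
    refine mul_le_mul_of_nonneg_right ?_ (by positivity)
    exact pow_le_pow_left₀ (by linarith) (by linarith) 6

lemma mf_MC' {l : ℕ} (hl : l ∣ N) {s τ : ℝ} (hs : 0 < s) (hτ : 0 < τ) : MF (MC N l s τ) τ where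
  symm := H864.MC_tr N l s τ
  row x := by
    have := H864.ne_div hl
    exact H864.MC_row hl s τ x
  coer := ⟨min s τ, lt_min hs hτ, fun u => qf_MC_min hl u⟩

lemma masN_MC {l : ℕ} (hl : l ∣ N) {s t τ : ℝ} (hs : 0 < s) (hst : s ≤ t) (hτ : 0 < τ)
    (hτt : τ ≤ t) : MasN t (min s τ) (MC N l s τ) τ (MC N l t τ) τ where
  mf0 := mf_MC' hl hs hτ
  mf1 := mf_MC' hl (hs.trans_le hst) hτ
  apos := lt_min hs hτ
  lo u _ := qf_MC_min hl u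
  mid u _ := by
    rw [MC_add_fine N l s t τ]
    have h1 : qf (MC N l s τ + (t - s) • (1 - cellP N l)) u =
        qf (MC N l s τ) u + ∑ i, (Pf N l (t - s) *ᵥ u) i ^ 2 := by
      rw [← qf_gram, Pf_gram hl (sub_nonneg.2 hst)]
      unfold qf
      rw [← Finset.sum_add_distrib]
      refine Finset.sum_congr rfl fun x _ => ?_
      rw [← Finset.sum_add_distrib]
      exact Finset.sum_congr rfl fun y _ => by rw [Matrix.add_apply]; ring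
    rw [h1]
    have : 0 ≤ ∑ i, (Pf N l (t - s) *ᵥ u) i ^ 2 := Finset.sum_nonneg fun _ _ => sq_nonneg _
    linarith
  up u _ := by
    have := H864.ne_div hl
    exact H864.qf_MC_le hl hτt u

/-- **FINE(b), neutral model, cell masses** -/
theorem fine_b_nM {b : ℝ} (hb : 0 ≤ b) : ∃ C c : ℝ, 0 ≤ C ∧ 0 < c ∧ c ≤ 1 ∧
    ∀ (N : ℕ) [NeZero N] (n p : ℕ), 2 ^ n ∣ N → 2 ^ p ∣ N →
    ∀ t : ℝ, 0 < t → t * ((2 : ℝ) ^ n) ^ 2 ≤ 1 → 1 < t * 4 ^ (p + 1) →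
    ∀ s τ : ℝ, 0 < s → s ≤ t → 0 < τ → τ ≤ t →
    ∀ (x₀ : V N) (J : V N → ℝ), H963.Neu J → ∀ U : ℝ,
      Lg (nM (wT b N) (MC N (2 ^ n) s τ) τ x₀) ((2 : ℝ) • J) -
        Lg (nM (wT b N) (MC N (2 ^ n) s τ) τ x₀) 0 ≤ U →
    0 ≤ (Lg (nM (wT b N) (MC N (2 ^ n) s τ) τ x₀) J - Lg (nM (wT b N) (MC N (2 ^ n) s τ) τ x₀) 0) -
        (Lg (nMC N (2 ^ n) b t τ x₀) J - Lg (nMC N (2 ^ n) b t τ x₀) 0) ∧
    (Lg (nM (wT b N) (MC N (2 ^ n) s τ) τ x₀) J - Lg (nM (wT b N) (MC N (2 ^ n) s τ) τ x₀) 0) -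
        (Lg (nMC N (2 ^ n) b t τ x₀) J - Lg (nMC N (2 ^ n) b t τ x₀) 0) ≤
      C * (Rs (nMC N (2 ^ n) b t τ x₀) ((2 : ℝ) • J) +
          Real.exp (Tq (nMC N (2 ^ n) b t τ x₀) J / 2) + 1) *
        ((1 + U) ^ 6 * (t * (N : ℝ) ^ 2)) * ((2 : ℝ) ^ n * √t) ^ c := by
  obtain ⟨C, c, hC, hc, hc1, h⟩ := fine_b_N hb
  refine ⟨C, c, hC, hc, hc1, ?_⟩
  intro N _ n p hn hpN t ht htn hp s τ hs hst hτ hτt x₀ J hJ U hU
  exact h N n p hn hpN t ht htn hp (min s τ) τ (t - s) (MC N (2 ^ n) t τ) (MC N (2 ^ n) s τ)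
    (sub_nonneg.2 hst) (by linarith) (masN_MC hn hs hst hτ hτt)
    (fun y hy => H864.MC_fix t τ hy) (MC_add_fine N _ s t τ) x₀ J hJ U hU

/-- **FINE(b), neutral model, scalar prior**: `nwt N b τ` against the cell mass `t (1-P) + τ P` -/
theorem fine_b_nwt {b : ℝ} (hb : 0 ≤ b) : ∃ C c : ℝ, 0 ≤ C ∧ 0 < c ∧ c ≤ 1 ∧
    ∀ (N : ℕ) [NeZero N] (n p : ℕ), 2 ^ n ∣ N → 2 ^ p ∣ N →
    ∀ t : ℝ, 0 < t → t * ((2 : ℝ) ^ n) ^ 2 ≤ 1 → 1 < t * 4 ^ (p + 1) →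
    ∀ τ : ℝ, 0 < τ → τ ≤ t →
    ∀ (x₀ : V N) (J : V N → ℝ), H963.Neu J → ∀ U : ℝ,
      Lg (nwt N b τ x₀) ((2 : ℝ) • J) - Lg (nwt N b τ x₀) 0 ≤ U →
    0 ≤ (Lg (nwt N b τ x₀) J - Lg (nwt N b τ x₀) 0) -
        (Lg (nMC N (2 ^ n) b t τ x₀) J - Lg (nMC N (2 ^ n) b t τ x₀) 0) ∧
    (Lg (nwt N b τ x₀) J - Lg (nwt N b τ x₀) 0) -
        (Lg (nMC N (2 ^ n) b t τ x₀) J - Lg (nMC N (2 ^ n) b t τ x₀) 0) ≤
      C * (Rs (nMC N (2 ^ n) b t τ x₀) ((2 : ℝ) • J) +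
          Real.exp (Tq (nMC N (2 ^ n) b t τ x₀) J / 2) + 1) *
        ((1 + U) ^ 6 * (t * (N : ℝ) ^ 2)) * ((2 : ℝ) ^ n * √t) ^ c := by
  obtain ⟨C, c, hC, hc, hc1, h⟩ := fine_b_nM hb
  refine ⟨C, c, hC, hc, hc1, ?_⟩
  intro N _ n p hn hpN t ht htn hp τ hτ hτt x₀ J hJ U hU
  have h1 := h N n p hn hpN t ht htn hp τ τ hτ hτt hτ hτt x₀ J hJ U
  rw [H864.MC_self N (2 ^ n) τ] at h1
  exact h1 hU

end tor

end

end Vale.Agent.P159.H692
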