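import Vale.Agent.P159.H692.Lk2

/-!
P159 / LINKW, step (C), abstract chain (helper692, letters of helper972, row 5547): start bound of
the local form `Xf`, finitely many mass steps and torus steps, use at the end.
-/

set_option linter.unusedSectionVars false

namespace Vale.Agent.P159.H692

open Finset Matrix
open Vale.Agent.P159.H37
open Vale.Agent.P159.TM.H764 (EE hatu)
open Vale.Agent.P159.TM.Spec (V)
open Vale.Agent.P159.TM.SpecC (wT)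
open Vale.Agent.P159.H864 (TI sym hsq hsq_nonneg lapM ti_lapM sym_lapM qf_eq_sum sum_hsq)
open Vale.Agent.P159.H963 (nwt Pin Gn Gnh gw_wT mf_smul qf_Gn_neu Neu)
open Vale.Agent.P159.H972 (tn Par)
open Vale.Agent.P159.H462 (hatu_mulVec EE_pos EE_zero)

noncomputable section

section one

variable {N : ℕ} [NeZero N] {b t a : ℝ}

/-- `lap f` is neutral -/
lemma neu_lapM (f : V N → ℝ) : Neu (lapM *ᵥ f) := by
  have h1 := hsq_zero (lapM *ᵥ f)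
  rw [hsq_mulVec ti_lapM, sym_lapM, EE_zero] at h1
  have h2 : (∑ x, (lapM *ᵥ f) x) ^ 2 = 0 := by
    rw [← h1]
    ring
  exact pow_eq_zero_iff two_ne_zero |>.1 h2

/-- **(C4), integer covariance** -/
theorem xf_c5 (hb : 0 < b) (ht : 0 < t) (ha : 0 < a) (f : V N → ℝ) :
    qf (Gm (wt N b t)) (lapM *ᵥ f) ≤
      qf lapM f / a + (Xf N b t a f + t * ∑ x, f x ^ 2) / a ^ 2 := by
  have h1 := (gw_wT (N := N) hb.le).Gm_int_le_neu (mf_smul ht) 0 (neu_lapM f)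
  have h2 := qf_Gn_neu N b t (neu_lapM f)
  have h3 := xf_c4 hb ht ha f
  rw [h2] at h3
  exact h1.trans h3

end one

/-- the error of one window -/
def eW (C a c0 c1 D F t δ η del e : ℝ) : ℝ :=
  C ^ 2 * del * D + 2 / c0 ^ 2 * (δ ^ 2 * (t * F) + (a + c1) * η * D) + e

lemma eW_nonneg {C a c0 c1 D F t δ η del e : ℝ} (ha : 0 ≤ a) (hc1 : 0 ≤ c1) (hD : 0 ≤ D)
    (hF : 0 ≤ F) (ht : 0 ≤ t) (hη : 0 ≤ η) (hdel : 0 ≤ del) (he : 0 ≤ e) :
    0 ≤ eW C a c0 c1 D F t δ η del e := by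
  unfold eW
  positivity

/-- **the chain of windows**, any tori `N i`, any masses `t i` -/
theorem lk_chain (N : ℕ → ℕ) [hN : ∀ i, NeZero (N i)] {b a c0 c1 C D F e0 : ℝ} (t : ℕ → ℝ)
    (f : ∀ i, V (N i) → ℝ) (δ η del e : ℕ → ℝ) (hb : 0 < b) (ha : 0 ≤ a) (hc0 : 0 < c0)
    (hc1 : 0 ≤ c1) (hC1 : 1 ≤ C) (hC : a ≤ C * c0) (J : ℕ)
    (ht : ∀ i, i ≤ J → 0 < t i) (htt : ∀ i, i < J → t (i + 1) ≤ t i)
    (hD : ∀ i, i ≤ J → qf lapM (f i) = D) (hF : ∀ i, i ≤ J → ∑ x, f i x ^ 2 = F)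
    (h0 : Xf (N 0) b (t 0) a (f 0) ≤ e0)
    (hη : ∀ i, i < J → 0 ≤ η i) (hdel : ∀ i, i < J → 0 ≤ del i)
    (hP : ∀ i, i < J → PrF (N i) b (t i) a c0 c1 (δ i) (η i))
    (lo' : ∀ i, i < J → ∀ k : V (N i), k ≠ 0 → c0 * EE k ≤ Pin (N i) b (t (i + 1)) k)
    (mono : ∀ i, i < J → ∀ k : V (N i), k ≠ 0 → Pin (N i) b (t (i + 1)) k ≤ Pin (N i) b (t i) k)
    (drop : ∀ i, i < J → ∀ k : V (N i), k ≠ 0 →
      Pin (N i) b (t i) k - Pin (N i) b (t (i + 1)) k ≤ del i * EE k)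
    (tor : ∀ i, i < J → Xf (N (i + 1)) b (t (i + 1)) a (f (i + 1)) ≤
      Xf (N i) b (t (i + 1)) a (f i) + e i) :
    Xf (N J) b (t J) a (f J) ≤
      e0 + ∑ i ∈ range J, eW C a c0 c1 D F (t i) (δ i) (η i) (del i) (e i) := by
  have key : ∀ j, j ≤ J → Xf (N j) b (t j) a (f j) ≤
      e0 + ∑ i ∈ range j, eW C a c0 c1 D F (t i) (δ i) (η i) (del i) (e i) := by
    intro j
    induction j with
    | zero =>
      intro _
      rw [Finset.range_zero, Finset.sum_empty, add_zero]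
      exact h0
    | succ j ih =>
      intro hj
      have hj' : j < J := hj
      have h1 := ih hj'.le
      have h2 := xf_c2' hb (ht (j + 1) hj) (htt j hj') (hP j hj') hc0 ha hc1 (hη j hj') hC1 hC
        (hdel j hj') (lo' j hj') (mono j hj') (drop j hj') (f j)
      rw [hD j hj'.le, hF j hj'.le] at h2
      have h3 := tor j hj'
      rw [Finset.sum_range_succ]
      unfold eW at h1 ⊢
      linarith
  exact key J le_rfl

/-- **(C), the whole chain**: the covariance of the local source `lap f` at the last level -/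
theorem lk_main (N : ℕ → ℕ) [hN : ∀ i, NeZero (N i)] {b a c0 c1 C D F e0 : ℝ} (t : ℕ → ℝ)
    (f : ∀ i, V (N i) → ℝ) (δ η del e : ℕ → ℝ) (hb : 0 < b) (ha : 0 < a) (hc0 : 0 < c0)
    (hc1 : 0 ≤ c1) (hC1 : 1 ≤ C) (hC : a ≤ C * c0) (J : ℕ)
    (ht : ∀ i, i ≤ J → 0 < t i) (htt : ∀ i, i < J → t (i + 1) ≤ t i)
    (hD : ∀ i, i ≤ J → qf lapM (f i) = D) (hF : ∀ i, i ≤ J → ∑ x, f i x ^ 2 = F)
    (h0 : Xf (N 0) b (t 0) a (f 0) ≤ e0)
    (hη : ∀ i, i < J → 0 ≤ η i) (hdel : ∀ i, i < J → 0 ≤ del i)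
    (hP : ∀ i, i < J → PrF (N i) b (t i) a c0 c1 (δ i) (η i))
    (lo' : ∀ i, i < J → ∀ k : V (N i), k ≠ 0 → c0 * EE k ≤ Pin (N i) b (t (i + 1)) k)
    (mono : ∀ i, i < J → ∀ k : V (N i), k ≠ 0 → Pin (N i) b (t (i + 1)) k ≤ Pin (N i) b (t i) k)
    (drop : ∀ i, i < J → ∀ k : V (N i), k ≠ 0 →
      Pin (N i) b (t i) k - Pin (N i) b (t (i + 1)) k ≤ del i * EE k)
    (tor : ∀ i, i < J → Xf (N (i + 1)) b (t (i + 1)) a (f (i + 1)) ≤
      Xf (N i) b (t (i + 1)) a (f i) + e i) :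
    qf (Gm (wt (N J) b (t J))) (lapM *ᵥ f J) ≤ D / a +
      (e0 + ∑ i ∈ range J, eW C a c0 c1 D F (t i) (δ i) (η i) (del i) (e i) + t J * F) / a ^ 2 := by
  have h1 := lk_chain N t f δ η del e hb ha.le hc0 hc1 hC1 hC J ht htt hD hF h0 hη hdel hP lo'
    mono drop tor
  have h2 := xf_c5 hb (ht J le_rfl) ha (f J)
  rw [hD J le_rfl, hF J le_rfl] at h2
  refine h2.trans ?_
  have h3 := div_le_div_of_nonneg_right (add_le_add_left h1 (t J * F)) (sq_nonneg a)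
  linarith

/-- **(C) in the letters of helper972**: tori `2 ^ rr i`, natural masses `tn (nn i)` -/
theorem lk3 (nn rr : ℕ → ℕ) {b a c0 c1 C D F e0 : ℝ} (f : ∀ i, V (2 ^ rr i) → ℝ)
    (δ η del e : ℕ → ℝ) (hb : 0 < b) (ha : 0 < a) (hc0 : 0 < c0)
    (hc1 : 0 ≤ c1) (hC1 : 1 ≤ C) (hC : a ≤ C * c0) (J : ℕ) (hnn : ∀ i, i < J → nn i ≤ nn (i + 1))
    (hD : ∀ i, i ≤ J → qf lapM (f i) = D) (hF : ∀ i, i ≤ J → ∑ x, f i x ^ 2 = F)
    (h0 : Xf (2 ^ rr 0) b (tn (nn 0)) a (f 0) ≤ e0)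
    (hη : ∀ i, i < J → 0 ≤ η i) (hdel : ∀ i, i < J → 0 ≤ del i)
    (hP : ∀ i, i < J → PrF (2 ^ rr i) b (tn (nn i)) a c0 c1 (δ i) (η i))
    (lo' : ∀ i, i < J → ∀ k : V (2 ^ rr i), k ≠ 0 →
      c0 * EE k ≤ Pin (2 ^ rr i) b (tn (nn (i + 1))) k)
    (mono : ∀ i, i < J → ∀ k : V (2 ^ rr i), k ≠ 0 →
      Pin (2 ^ rr i) b (tn (nn (i + 1))) k ≤ Pin (2 ^ rr i) b (tn (nn i)) k)
    (drop : ∀ i, i < J → ∀ k : V (2 ^ rr i), k ≠ 0 →
      Pin (2 ^ rr i) b (tn (nn i)) k - Pin (2 ^ rr i) b (tn (nn (i + 1))) k ≤ del i * EE k)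
    (tor : ∀ i, i < J → Xf (2 ^ rr (i + 1)) b (tn (nn (i + 1))) a (f (i + 1)) ≤
      Xf (2 ^ rr i) b (tn (nn (i + 1))) a (f i) + e i) :
    qf (Gm (wt (2 ^ rr J) b (tn (nn J)))) (lapM *ᵥ f J) ≤ D / a +
      (e0 + ∑ i ∈ range J, eW C a c0 c1 D F (tn (nn i)) (δ i) (η i) (del i) (e i) +
        tn (nn J) * F) / a ^ 2 := by
  have ht : ∀ i, 0 < tn i := H972.tn_pos
  refine lk_main (fun i => 2 ^ rr i) (fun i => tn (nn i)) f δ η del e hb ha hc0 hc1 hC1 hC J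
    (fun i _ => ht _) (fun i hi => ?_) hD hF h0 hη hdel hP lo' mono drop tor
  unfold tn
  exact inv_anti₀ (by positivity) (pow_le_pow_right₀ (by norm_num) (hnn i hi))

end

end Vale.Agent.P159.H692
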