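import Vale.Agent.P159.H692.LkFin
import Vale.Agent.P159.H801.FinZ

/-!
P159 / LINKW (helper692): the consumer forms at the critical point, from helper801's `VFam` (the
family of the V half with the sharp relation).
-/

namespace Vale.Agent.P159.H692

open Filter Topology Finset
open Vale.Agent.P159.H801 (VFam final_z)

variable {b1 b2 qx : ℝ} {Q : ℕ}

/-- the master for consumers -/
theorem masterZ_of (hb1 : 0 < b1) (h1 : b1 ≤ bCrit) (h2 : bCrit ≤ b2) (hqx0 : 0 < qx)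
    (hqx : qx ≤ 18 / 25) (hV : VFam b1 b2 qx Q) : MasterZ bCrit b1 b2 qx Q :=
  fun _ hc hc1 _ hZ => final_z hb1 h1 h2 hqx0 hqx hc hc1 hV hZ

/-- the rate of the helicity of squares at the critical point, every exponent below one -/
theorem rate_crit (hb1 : 0 < b1) (h1 : b1 ≤ bCrit) (h2 : bCrit ≤ b2) (hqx0 : 0 < qx)
    (hqx : qx ≤ 18 / 25) (hV : VFam b1 b2 qx Q) :
    ∀ s : ℝ, s < 1 → ∀ᶠ i : ℕ in atTop,
      stiff (2 ^ i) bCrit - 2 / Real.pi ≤ (i : ℝ) ^ (-s) :=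
  lks_all hb1 Vale.Agent.P159.TM.Frame.T1 h1 h2 (masterZ_of hb1 h1 h2 hqx0 hqx hV)

/-- helper513's form at the critical point -/
theorem lkS_crit (hb1 : 0 < b1) (h1 : b1 ≤ bCrit) (h2 : bCrit ≤ b2) (hqx0 : 0 < qx)
    (hqx : qx ≤ 18 / 25) (hV : VFam b1 b2 qx Q) : H513.LkS bCrit (2 / Real.pi) :=
  lkS_of (rate_crit hb1 h1 h2 hqx0 hqx hV)

/-- helper282's form at the critical point -/
theorem hL_crit (hb1 : 0 < b1) (h1 : b1 ≤ bCrit) (h2 : bCrit ≤ b2) (hqx0 : 0 < qx)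
    (hqx : qx ≤ 18 / 25) (hV : VFam b1 b2 qx Q) :
    ∀ e : ℝ, 0 < e → ∀ᶠ N : ℕ in atTop,
      ∑ j ∈ range N, (stiff (2 ^ j) bCrit - 2 / Real.pi) ≤ (N : ℝ) ^ e :=
  hL_of (rate_crit hb1 h1 h2 hqx0 hqx hV)

end Vale.Agent.P159.H692
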