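import Mathlib

/-!
P159 / LINKW, sum form (helper692): a sequence with `x i ≤ i ^ (-s)` for every `s < 1` has its
initial sums below every positive power.
-/

namespace Vale.Agent.P159.H692

open Finset Filter Topology

noncomputable section

/-- one step of the telescoping bound of `∑ j ^ (d - 1)` -/
lemma rate_step {d : ℝ} (hd0 : 0 < d) (hd1 : d ≤ 1) (j : ℕ) :
    (j : ℝ) ^ d + d * ((j : ℝ) + 1) ^ (d - 1) ≤ ((j : ℝ) + 1) ^ d := by
  have hj : (0 : ℝ) < (j : ℝ) + 1 := by positivity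
  have h1 : (1 + (-(1 / ((j : ℝ) + 1)))) ^ d ≤ 1 + d * (-(1 / ((j : ℝ) + 1))) := by
    refine _root_.rpow_one_add_le_one_add_mul_self ?_ hd0.le hd1
    have : 1 / ((j : ℝ) + 1) ≤ 1 := by
      rw [div_le_one hj]
      have := Nat.cast_nonneg (α := ℝ) j
      linarith
    linarith
  have h2 : (j : ℝ) = ((j : ℝ) + 1) * (1 + (-(1 / ((j : ℝ) + 1)))) := by
    field_simp
    ring
  have h3 : 0 ≤ 1 + (-(1 / ((j : ℝ) + 1))) := by
    have : 1 / ((j : ℝ) + 1) ≤ 1 := by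
      rw [div_le_one hj]
      have := Nat.cast_nonneg (α := ℝ) j
      linarith
    linarith
  have h4 : (j : ℝ) ^ d = ((j : ℝ) + 1) ^ d * (1 + (-(1 / ((j : ℝ) + 1)))) ^ d := by
    rw [← Real.mul_rpow hj.le h3, ← h2]
  have h5 : ((j : ℝ) + 1) ^ (d - 1) = ((j : ℝ) + 1) ^ d / ((j : ℝ) + 1) := by
    rw [Real.rpow_sub_one hj.ne']
  have h6 : 0 ≤ ((j : ℝ) + 1) ^ d := Real.rpow_nonneg hj.le _
  rw [h4, h5]
  calc ((j : ℝ) + 1) ^ d * (1 + (-(1 / ((j : ℝ) + 1)))) ^ d + d * (((j : ℝ) + 1) ^ d /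
        ((j : ℝ) + 1)) ≤ ((j : ℝ) + 1) ^ d * (1 + d * (-(1 / ((j : ℝ) + 1)))) +
        d * (((j : ℝ) + 1) ^ d / ((j : ℝ) + 1)) := by gcongr
    _ = ((j : ℝ) + 1) ^ d := by ring

/-- sums of a sequence with `x j ≤ j ^ (d - 1)` -/
lemma rate_sum {x : ℕ → ℝ} {d : ℝ} (hd0 : 0 < d) (hd1 : d ≤ 1) {n0 : ℕ}
    (h : ∀ j : ℕ, n0 ≤ j → x j ≤ (j : ℝ) ^ (d - 1)) :
    ∃ C : ℝ, 0 ≤ C ∧ ∀ N : ℕ, ∑ j ∈ range N, x j ≤ C + (N : ℝ) ^ d / d := by
  refine ⟨∑ j ∈ range (n0 + 1), |x j|, Finset.sum_nonneg fun _ _ => abs_nonneg _, fun N => ?_⟩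
  have key : ∀ k : ℕ, ∑ j ∈ range (n0 + 1 + k), x j ≤ ∑ j ∈ range (n0 + 1), |x j| +
      ((n0 + k : ℕ) : ℝ) ^ d / d := by
    intro k
    induction k with
    | zero =>
      simp only [Nat.add_zero]
      have h1 : ∑ j ∈ range (n0 + 1), x j ≤ ∑ j ∈ range (n0 + 1), |x j| :=
        Finset.sum_le_sum fun j _ => le_abs_self _
      have h2 : 0 ≤ (n0 : ℝ) ^ d / d := by positivity
      linarith
    | succ k ih =>
      rw [← Nat.add_assoc, Finset.sum_range_succ]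
      have h1 := h (n0 + 1 + k) (by omega)
      have h2 := rate_step hd0 hd1 (n0 + k)
      have h3 : ((n0 + 1 + k : ℕ) : ℝ) = ((n0 + k : ℕ) : ℝ) + 1 := by push_cast; ring
      have h4 : ((n0 + (k + 1) : ℕ) : ℝ) = ((n0 + k : ℕ) : ℝ) + 1 := by push_cast; ring
      rw [h3] at h1
      rw [h4]
      have h5 : (((n0 + k : ℕ) : ℝ) + 1) ^ (d - 1) ≤
          ((((n0 + k : ℕ) : ℝ) + 1) ^ d - ((n0 + k : ℕ) : ℝ) ^ d) / d := by
        rw [le_div_iff₀ hd0]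
        linarith
      have h6 : ((((n0 + k : ℕ) : ℝ) + 1) ^ d - ((n0 + k : ℕ) : ℝ) ^ d) / d =
          (((n0 + k : ℕ) : ℝ) + 1) ^ d / d - ((n0 + k : ℕ) : ℝ) ^ d / d := by ring
      linarith
  rcases le_total (n0 + 1) N with hN | hN
  · obtain ⟨k, rfl⟩ := Nat.exists_eq_add_of_le hN
    refine (key k).trans (add_le_add le_rfl (div_le_div_of_nonneg_right ?_ hd0.le))
    refine Real.rpow_le_rpow (by positivity) ?_ hd0.le
    exact_mod_cast (by omega : n0 + k ≤ n0 + 1 + k)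
  · have h1 : ∑ j ∈ range N, x j ≤ ∑ j ∈ range N, |x j| :=
      Finset.sum_le_sum fun j _ => le_abs_self _
    have h2 : ∑ j ∈ range N, |x j| ≤ ∑ j ∈ range (n0 + 1), |x j| :=
      Finset.sum_le_sum_of_subset_of_nonneg (Finset.range_mono hN) fun _ _ _ => abs_nonneg _
    have h3 : 0 ≤ (N : ℝ) ^ d / d := by positivity
    linarith

/-- constants are absorbed by a larger power -/
lemma rate_abs {C K d e : ℝ} (hC : 0 ≤ C) (hd0 : 0 ≤ d) (hde : d < e) :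
    ∃ n0 : ℕ, ∀ N : ℕ, n0 ≤ N → C + K * (N : ℝ) ^ d ≤ (N : ℝ) ^ e := by
  have h1 : Tendsto (fun N : ℕ => (N : ℝ) ^ (e - d)) atTop atTop :=
    (tendsto_rpow_atTop (sub_pos.2 hde)).comp tendsto_natCast_atTop_atTop
  obtain ⟨n1, hn1⟩ := eventually_atTop.1 (h1.eventually_ge_atTop (C + K))
  refine ⟨max n1 1, fun N hN => ?_⟩
  have h2 := hn1 N ((le_max_left _ _).trans hN)
  have h3 : (1 : ℝ) ≤ N := by exact_mod_cast (le_max_right _ _).trans hN
  have h4 : 1 ≤ (N : ℝ) ^ d := Real.one_le_rpow h3 hd0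
  have h5 : (N : ℝ) ^ e = (N : ℝ) ^ (e - d) * (N : ℝ) ^ d := by
    rw [← Real.rpow_add (by linarith), sub_add_cancel]
  rw [h5]
  calc C + K * (N : ℝ) ^ d ≤ C * (N : ℝ) ^ d + K * (N : ℝ) ^ d := by nlinarith
    _ = (C + K) * (N : ℝ) ^ d := by ring
    _ ≤ _ := mul_le_mul_of_nonneg_right h2 (by linarith)

/-- **the sum form**: rate `i ^ (-s)` for every `s < 1` ⟹ sums below every power; sums over
`range N` and over `range (N + 1)` -/
theorem rate_all {x : ℕ → ℝ}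
    (h : ∀ s : ℝ, s < 1 → ∀ᶠ i : ℕ in atTop, x i ≤ (i : ℝ) ^ (-s)) {e : ℝ} (he : 0 < e) :
    ∃ n0 : ℕ, ∀ N : ℕ, n0 ≤ N → ∑ j ∈ range N, x j ≤ (N : ℝ) ^ e ∧
      ∑ j ∈ range (N + 1), x j ≤ (N : ℝ) ^ e := by
  obtain ⟨d, hd⟩ : ∃ d : ℝ, d = min (e / 2) 1 := ⟨_, rfl⟩
  have hd0 : 0 < d := by rw [hd]; exact lt_min (by linarith) one_pos
  have hd1 : d ≤ 1 := by rw [hd]; exact min_le_right _ _
  have hde : d < e := by
    have : d ≤ e / 2 := by rw [hd]; exact min_le_left _ _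
    linarith
  obtain ⟨n0, hn0⟩ := eventually_atTop.1 (h (1 - d) (by linarith))
  obtain ⟨C, hC, hs⟩ := rate_sum (x := x) hd0 hd1 (n0 := n0) fun j hj => by
    have := hn0 j hj
    rwa [neg_sub] at this
  obtain ⟨n1, hn1⟩ := rate_abs (C := C) (K := 2 / d) hC hd0.le hde
  refine ⟨max n1 1, fun N hN => ?_⟩
  have h1 := hn1 N ((le_max_left _ _).trans hN)
  have hN1 : (1 : ℝ) ≤ N := by exact_mod_cast (le_max_right _ _).trans hN
  have hNd : 0 ≤ (N : ℝ) ^ d := by positivity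
  constructor
  · refine (hs N).trans (le_trans ?_ h1)
    have : (N : ℝ) ^ d / d ≤ 2 / d * (N : ℝ) ^ d := by
      rw [div_mul_eq_mul_div]
      exact div_le_div_of_nonneg_right (by linarith) hd0.le
    linarith
  · refine (hs (N + 1)).trans (le_trans ?_ h1)
    have h2 : ((N + 1 : ℕ) : ℝ) ^ d ≤ 2 * (N : ℝ) ^ d := by
      calc ((N + 1 : ℕ) : ℝ) ^ d ≤ (2 * (N : ℝ)) ^ d :=
            Real.rpow_le_rpow (by positivity) (by push_cast; linarith) hd0.le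
        _ = 2 ^ d * (N : ℝ) ^ d := Real.mul_rpow (by norm_num) (by positivity)
        _ ≤ 2 ^ (1 : ℝ) * (N : ℝ) ^ d :=
            mul_le_mul_of_nonneg_right (Real.rpow_le_rpow_of_exponent_le (by norm_num) hd1) hNd
        _ = _ := by rw [Real.rpow_one]
    have h3 : ((N + 1 : ℕ) : ℝ) ^ d / d ≤ 2 / d * (N : ℝ) ^ d := by
      rw [div_mul_eq_mul_div]
      exact div_le_div_of_nonneg_right h2 hd0.le
    linarith

end

end Vale.Agent.P159.H692
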